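import Vale.Agent.Lib.P113.Defs

open Encodable

namespace Vale.Agent.Lib.P113

/-- A computable function of two arguments gives a computable family of programs: the program for
`b` computes `x ↦ G (b, x)` on codes. -/
theorem exists_code_family {β γ δ : Type*} [Primcodable β] [Primcodable γ] [Primcodable δ]
    {G : β × γ → δ} (hG : Computable G) :
    ∃ compile : β → Nat.Partrec.Code, Computable compile ∧
      ∀ b x, (compile b).eval (encode x) = Part.some (encode (G (b, x))) := by
  let φ : ℕ → Option ℕ := fun n =>
    (decode (α := β) n.unpair.1).bind fun b =>
      (decode (α := γ) n.unpair.2).map fun x => encode (G (b, x))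
  have hφ : Computable φ := by
    refine Computable.option_bind (Computable.decode.comp (Computable.fst.comp Computable.unpair)) ?_
    refine Computable.option_map (Computable.decode.comp
      (Computable.snd.comp (Computable.unpair.comp Computable.fst))) ?_
    exact Computable.encode.comp (hG.comp ((Computable.snd.comp Computable.fst).pair Computable.snd))
  have hP : Partrec fun n => ((φ n : Option ℕ) : Part ℕ) := hφ.ofOption
  obtain ⟨c, hc⟩ := Nat.Partrec.Code.exists_code.1 (Partrec.nat_iff.1 hP)
  refine ⟨fun b => Nat.Partrec.Code.curry c (encode b), ?_, ?_⟩
  · exact (Nat.Partrec.Code.primrec₂_curry.comp (Primrec.const c) Primrec.encode).to_comp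
  · intro b x
    rw [Nat.Partrec.Code.eval_curry, hc]
    simp [φ]

end Vale.Agent.Lib.P113
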