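import Mathlib

/-!
Definitions for the statement of P113: forced Navier-Stokes flows from rest on the flat torus,
Turing machines, force programs, force compilers.

The torus `T^3 = (R/Z)^3` is handled through its universal cover: functions on the torus are the
`Z^3`-periodic functions on `Fin 3 → ℝ`, open subsets of the torus are the `Z^3`-periodic open
subsets, and a trajectory on the torus is represented by its lift to `Fin 3 → ℝ`.
-/

open Set MeasureTheory
open scoped ContDiff

namespace Vale.Agent.Lib.P113

/-- Euclidean three-space, the universal cover of the torus. -/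
abbrev E3 := Fin 3 → ℝ

/-- A function on the torus: a `Z^3`-periodic function on three-space. -/
def ZPeriodic {α : Type*} (F : E3 → α) : Prop :=
  ∀ (n : Fin 3 → ℤ) (x : E3), F (fun i => x i + (n i : ℝ)) = F x

/-- A subset of the torus: a `Z^3`-periodic subset of three-space. -/
def ZPeriodicSet (O : Set E3) : Prop :=
  ∀ (n : Fin 3 → ℤ) (x : E3), (fun i => x i + (n i : ℝ)) ∈ O ↔ x ∈ O

/-- The `j`-th coordinate vector. -/
def unitVec (j : Fin 3) : E3 := Pi.single j 1

/-- The spatial partial derivative `∂_j F (x)` of a scalar function. -/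
noncomputable def pd (j : Fin 3) (F : E3 → ℝ) (x : E3) : ℝ := fderiv ℝ F x (unitVec j)

/-- The mean over the torus, that is the integral over the unit cube. -/
noncomputable def torusMean (F : E3 → ℝ) : ℝ := ∫ x in Icc (0 : E3) 1, F x

/-- `(u,p)` is a classical solution on `[0,T]` of the forced Navier-Stokes system with viscosity
`ν`, force `f` and initial velocity zero: `u` and `p` are functions on the torus, the fields
`u`, `∂_t u`, the spatial derivatives of `u` up to order two, `p` and `∇p` are continuous on
`[0,T] × T^3`, the pressure has spatial mean zero, and the equations hold pointwise. At the two end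
times `∂_t u` is the one-sided time derivative. -/
structure IsClassicalSolution (ν : ℝ) (f : ℝ → E3 → E3) (T : ℝ)
    (u : ℝ → E3 → E3) (p : ℝ → E3 → ℝ) : Prop where
  periodic_u : ∀ t ∈ Icc 0 T, ZPeriodic (u t)
  periodic_p : ∀ t ∈ Icc 0 T, ZPeriodic (p t)
  initial : ∀ x, u 0 x = 0
  cont_u : ContinuousOn (fun z : ℝ × E3 => u z.1 z.2) (Icc 0 T ×ˢ univ)
  diff_time : ∀ t ∈ Icc 0 T, ∀ x, DifferentiableWithinAt ℝ (fun s => u s x) (Icc 0 T) t
  cont_time : ContinuousOn (fun z : ℝ × E3 => derivWithin (fun s => u s z.2) (Icc 0 T) z.1)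
    (Icc 0 T ×ˢ univ)
  diff_space : ∀ t ∈ Icc 0 T, ContDiff ℝ 2 (u t)
  cont_space : ContinuousOn (fun z : ℝ × E3 => fderiv ℝ (u z.1) z.2) (Icc 0 T ×ˢ univ)
  cont_space2 : ContinuousOn (fun z : ℝ × E3 => fderiv ℝ (fderiv ℝ (u z.1)) z.2) (Icc 0 T ×ˢ univ)
  cont_p : ContinuousOn (fun z : ℝ × E3 => p z.1 z.2) (Icc 0 T ×ˢ univ)
  diff_p : ∀ t ∈ Icc 0 T, ContDiff ℝ 1 (p t)
  cont_grad_p : ContinuousOn (fun z : ℝ × E3 => fderiv ℝ (p z.1) z.2) (Icc 0 T ×ˢ univ)
  mean_zero : ∀ t ∈ Icc 0 T, torusMean (p t) = 0
  divergence_free : ∀ t ∈ Icc 0 T, ∀ x, ∑ i, pd i (fun y => u t y i) x = 0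
  momentum : ∀ t ∈ Icc 0 T, ∀ x, ∀ i,
    derivWithin (fun s => u s x) (Icc 0 T) t i + ∑ j, u t x j * pd j (fun y => u t y i) x
      = - pd i (p t) x + ν * ∑ j, pd j (pd j (fun y => u t y i)) x + f t x i

/-- `X` is the (lifted) trajectory from `a` of the time-dependent velocity field `u`, for all
times `t ≥ 0`. -/
def IsTrajectory (u : ℝ → E3 → E3) (a : E3) (X : ℝ → E3) : Prop :=
  X 0 = a ∧ ∀ t, 0 ≤ t → HasDerivWithinAt X (u t (X t)) (Ici 0) t

/-! ### Turing machines -/

/-- A deterministic one-tape Turing machine, given by its table as data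
`(numStates, numSymbols, halting, delta)`. The states are `0, …, numStates - 1`, with start state `0`;
the alphabet is `0, …, numSymbols - 1`, with blank `0`; `halting` lists the halting states;
`delta` is the transition table, read row by row, whose entry at place `q * numSymbols + a`
is `(q', a', r)`: in state `q` reading `a`, write `a'`, go to state `q'` and move
right if `r` is true, left if it is false. -/
abbrev Machine := ℕ × ℕ × List ℕ × List (ℕ × ℕ × Bool)

namespace Machine

/-- The number of states. -/
def numStates (M : Machine) : ℕ := M.1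
/-- The number of symbols. -/
def numSymbols (M : Machine) : ℕ := M.2.1
/-- The list of halting states. -/
def halting (M : Machine) : List ℕ := M.2.2.1
/-- The transition table. -/
def delta (M : Machine) : List (ℕ × ℕ × Bool) := M.2.2.2

/-- The table describes a machine with at least one state and one symbol, with a
transition for every pair (state, symbol), whose results are states and symbols of the machine. -/
def WF (M : Machine) : Prop :=
  0 < M.numStates ∧ 0 < M.numSymbols ∧ M.delta.length = M.numStates * M.numSymbols ∧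
    ∀ e ∈ M.delta, e.1 < M.numStates ∧ e.2.1 < M.numSymbols

/-- An input of `M`: a finite word over the alphabet of `M`. -/
def ValidInput (M : Machine) (w : List ℕ) : Prop := ∀ a ∈ w, a < M.numSymbols

/-- The transition of `M` in state `q` reading `a`. -/
def transition (M : Machine) (q a : ℕ) : ℕ × ℕ × Bool :=
  M.delta.getD (q * M.numSymbols + a) (q, a, true)

end Machine

/-- A configuration: state, content of the two-sided tape, head position. -/
structure Config where
  state : ℕ
  tape : ℤ → ℕ
  pos : ℤ

namespace Machine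

/-- One step of `M`. -/
def step (M : Machine) (c : Config) : Config :=
  let e := M.transition c.state (c.tape c.pos)
  { state := e.1
    tape := Function.update c.tape c.pos e.2.1
    pos := if e.2.2 then c.pos + 1 else c.pos - 1 }

/-- The initial configuration on input `w`: the word on an otherwise blank tape, in
cells `0, 1, …`, head on cell `0`, start state `0`. -/
def init (w : List ℕ) : Config where
  state := 0
  tape := fun i => if 0 ≤ i then w.getD i.toNat 0 else 0
  pos := 0

/-- `M` halts on `w`: it reaches a halting state after finitely many steps, possibly none. -/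
def Halts (M : Machine) (w : List ℕ) : Prop :=
  ∃ n : ℕ, (M.step^[n] (init w)).state ∈ M.halting

end Machine

/-! ### Programs -/

/-- Rational numbers as data: the triple `(a, b, c)` stands for `(a - b) / (c + 1)`. -/
abbrev RatCode := ℕ × ℕ × ℕ

/-- The rational number coded by a triple. -/
def RatCode.val (c : RatCode) : ℚ := ((c.1 : ℚ) - (c.2.1 : ℚ)) / ((c.2.2 : ℚ) + 1)

/-- A computable real number: a program gives rational approximations of any accuracy. -/
def IsComputableReal (ν : ℝ) : Prop :=
  ∃ g : ℕ → RatCode, Computable g ∧ ∀ n, |ν - ((g n).val : ℝ)| ≤ (1 / 2 : ℝ) ^ n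

/-- The mixed derivative `∂_t^n₀ ∂_1^n₁ ∂_2^n₂ ∂_3^n₃ f_i` of the component `i` of `f` at
`(t, (x₁, x₂, x₃))`. For smooth `f` the order of the differentiations does not matter, so these are
all the mixed derivatives. -/
noncomputable def mixedDeriv (f : ℝ → E3 → E3) (i : Fin 3) (n₀ n₁ n₂ n₃ : ℕ)
    (t x₁ x₂ x₃ : ℝ) : ℝ :=
  iteratedDeriv n₀ (fun s =>
    iteratedDeriv n₁ (fun y₁ =>
      iteratedDeriv n₂ (fun y₂ =>
        iteratedDeriv n₃ (fun y₃ => f s ![y₁, y₂, y₃] i) x₃) x₂) x₁) t

/-- The program `c` computes the force `f` effectively: on a component `i`, orders of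
differentiation, a rational space-time point and a rational accuracy `ε > 0`, it halts and returns a
rational number within `ε` of the mixed derivative at that point. -/
def IsForceProgram (c : Nat.Partrec.Code) (f : ℝ → E3 → E3) : Prop :=
  ∀ (i : Fin 3) (n₀ n₁ n₂ n₃ : ℕ) (t x₁ x₂ x₃ ε : RatCode), 0 < ε.val →
    ∃ r : RatCode,
      c.eval (Encodable.encode (i, (n₀, n₁, n₂, n₃), (t, x₁, x₂, x₃), ε))
        = Part.some (Encodable.encode r) ∧
      |(r.val : ℝ) - mixedDeriv f i n₀ n₁ n₂ n₃ t.val x₁.val x₂.val x₃.val| < ε.val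

/-- The statement of the positive answer to the question, for the viscosity `ν`. -/
def HaltingDetection (ν : ℝ) : Prop :=
  ∃ (a : E3) (O : Set E3) (T₀ : ℝ) (compile : Machine × List ℕ → Nat.Partrec.Code)
    (F : Machine → List ℕ → ℝ → E3 → E3),
    IsOpen O ∧ ZPeriodicSet O ∧ Computable compile ∧
    ∀ M : Machine, M.WF →
      (∃ P : ℝ, 0 < P ∧ ∀ w, M.ValidInput w → ∀ t, T₀ ≤ t → ∀ x, F M w (t + P) x = F M w t x) ∧
      (∀ w w', M.ValidInput w → M.ValidInput w' → ∀ t, T₀ ≤ t → ∀ x, F M w t x = F M w' t x) ∧
      ∀ w, M.ValidInput w →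
        IsForceProgram (compile (M, w)) (F M w) ∧
        ContDiff ℝ ∞ (fun z : ℝ × E3 => F M w z.1 z.2) ∧
        (∀ t, ZPeriodic (F M w t)) ∧
        ∃ (u : ℝ → E3 → E3) (p : ℝ → E3 → ℝ),
          ContDiff ℝ ∞ (fun z : ℝ × E3 => u z.1 z.2) ∧
          ContDiff ℝ ∞ (fun z : ℝ × E3 => p z.1 z.2) ∧
          (∀ T, 0 < T → IsClassicalSolution ν (F M w) T u p) ∧
          (∀ T, 0 < T → ∀ v q, IsClassicalSolution ν (F M w) T v q →
            ∀ t ∈ Icc 0 T, ∀ x, v t x = u t x ∧ q t x = p t x) ∧
          (∃ X, IsTrajectory u a X) ∧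
          ∀ X, IsTrajectory u a X → ((∃ t, 0 ≤ t ∧ X t ∈ O) ↔ M.Halts w)

end Vale.Agent.Lib.P113
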