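import Vale.Agent.Lib.P113.Defs

/-!
Effectivity toolbox for P113: primitive recursive rational codes, effective real functions
(`Eff`) and their closure properties, and the effectivity of all derivatives of
`Real.smoothTransition` at rational points.
-/

open Set

namespace Vale.Agent.Lib.P113

/-! ### Primitive recursive arithmetic on rational codes -/

/-- Sum of codes. -/
def rcAdd (x y : RatCode) : RatCode :=
  (x.1 * (y.2.2 + 1) + y.1 * (x.2.2 + 1), x.2.1 * (y.2.2 + 1) + y.2.1 * (x.2.2 + 1),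
    x.2.2 * y.2.2 + x.2.2 + y.2.2)

/-- Opposite of a code. -/
def rcNeg (x : RatCode) : RatCode := (x.2.1, x.1, x.2.2)

/-- Product of codes. -/
def rcMul (x y : RatCode) : RatCode :=
  (x.1 * y.1 + x.2.1 * y.2.1, x.1 * y.2.1 + x.2.1 * y.1, x.2.2 * y.2.2 + x.2.2 + y.2.2)

/-- Inverse of a code (the inverse of zero is zero). -/
def rcInv (x : RatCode) : RatCode :=
  if x.2.1 < x.1 then (x.2.2 + 1, 0, x.1 - x.2.1 - 1)
  else if x.1 < x.2.1 then (0, x.2.2 + 1, x.2.1 - x.1 - 1) else (0, 0, 0)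

/-- The code of a natural number. -/
def rcNat (n : ℕ) : RatCode := (n, 0, 0)

/-- Powers of a code. -/
def rcPow (x : RatCode) (n : ℕ) : RatCode := (fun r => rcMul r x)^[n] (1, 0, 0)

@[simp] theorem rcAdd_val (x y : RatCode) : (rcAdd x y).val = x.val + y.val := by
  obtain ⟨a, b, c⟩ := x
  obtain ⟨a', b', c'⟩ := y
  simp only [rcAdd, RatCode.val]
  push_cast
  have h1 : ((c : ℚ) + 1) ≠ 0 := by positivity
  have h2 : ((c' : ℚ) + 1) ≠ 0 := by positivity
  have h3 : ((c : ℚ) * c' + c + c' + 1) = ((c : ℚ) + 1) * (c' + 1) := by ring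
  rw [h3]
  field_simp
  ring

@[simp] theorem rcNeg_val (x : RatCode) : (rcNeg x).val = - x.val := by
  obtain ⟨a, b, c⟩ := x
  simp only [rcNeg, RatCode.val]
  ring

@[simp] theorem rcMul_val (x y : RatCode) : (rcMul x y).val = x.val * y.val := by
  obtain ⟨a, b, c⟩ := x
  obtain ⟨a', b', c'⟩ := y
  simp only [rcMul, RatCode.val]
  push_cast
  have h1 : ((c : ℚ) + 1) ≠ 0 := by positivity
  have h2 : ((c' : ℚ) + 1) ≠ 0 := by positivity
  have h3 : ((c : ℚ) * c' + c + c' + 1) = ((c : ℚ) + 1) * (c' + 1) := by ring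
  rw [h3]
  field_simp
  ring

@[simp] theorem rcInv_val (x : RatCode) : (rcInv x).val = (x.val)⁻¹ := by
  obtain ⟨a, b, c⟩ := x
  have h1 : ((c : ℚ) + 1) ≠ 0 := by positivity
  simp only [rcInv, RatCode.val]
  split_ifs with h h'
  · have h2 : ((a - b - 1 : ℕ) : ℚ) + 1 = (a : ℚ) - b := by
      have : a - b - 1 + 1 + b = a := by omega
      have h3 : (((a - b - 1 + 1 + b : ℕ)) : ℚ) = a := by rw [this]
      push_cast at h3
      linarith
    simp only [Nat.cast_add, Nat.cast_one, Nat.cast_zero, sub_zero]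
    rw [h2, inv_div]
  · have h2 : ((b - a - 1 : ℕ) : ℚ) + 1 = (b : ℚ) - a := by
      have : b - a - 1 + 1 + a = b := by omega
      have h3 : (((b - a - 1 + 1 + a : ℕ)) : ℚ) = b := by rw [this]
      push_cast at h3
      linarith
    simp only [Nat.cast_add, Nat.cast_one, Nat.cast_zero, zero_sub]
    rw [h2, inv_div]
    have h5 : (b : ℚ) - a ≠ 0 := by
      intro h0
      have : (b : ℚ) = a := by linarith
      have : b = a := by exact_mod_cast this
      omega
    have h6 : (a : ℚ) - b ≠ 0 := by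
      intro h0
      apply h5
      linarith
    field_simp
    ring
  · have : a = b := by omega
    subst this
    simp

@[simp] theorem rcNat_val (n : ℕ) : (rcNat n).val = n := by
  simp [rcNat, RatCode.val]

@[simp] theorem rcPow_val (x : RatCode) (n : ℕ) : (rcPow x n).val = x.val ^ n := by
  induction n with
  | zero => simp [rcPow, RatCode.val]
  | succ n ih =>
    rw [pow_succ, ← ih]
    simp only [rcPow, Function.iterate_succ', Function.comp, rcMul_val]

section prim

variable {α : Type*} [Primcodable α]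

theorem prim_c1 {f : α → RatCode} (hf : Primrec f) : Primrec fun a => (f a).1 :=
  Primrec.fst.comp hf

theorem prim_c2 {f : α → RatCode} (hf : Primrec f) : Primrec fun a => (f a).2.1 :=
  Primrec.fst.comp (Primrec.snd.comp hf)

theorem prim_c3 {f : α → RatCode} (hf : Primrec f) : Primrec fun a => (f a).2.2 :=
  Primrec.snd.comp (Primrec.snd.comp hf)

theorem prim_nadd {f g : α → ℕ} (hf : Primrec f) (hg : Primrec g) :
    Primrec fun a => f a + g a := Primrec.nat_add.comp hf hg

theorem prim_nmul {f g : α → ℕ} (hf : Primrec f) (hg : Primrec g) :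
    Primrec fun a => f a * g a := Primrec.nat_mul.comp hf hg

theorem prim_nsub {f g : α → ℕ} (hf : Primrec f) (hg : Primrec g) :
    Primrec fun a => f a - g a := Primrec.nat_sub.comp hf hg

theorem prim_mk {f g h : α → ℕ} (hf : Primrec f) (hg : Primrec g) (hh : Primrec h) :
    Primrec fun a => ((f a, g a, h a) : RatCode) := hf.pair (hg.pair hh)

theorem prim_rcAdd {f g : α → RatCode} (hf : Primrec f) (hg : Primrec g) :
    Primrec fun a => rcAdd (f a) (g a) := by
  have one : Primrec fun _ : α => 1 := Primrec.const 1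
  exact prim_mk
    (prim_nadd (prim_nmul (prim_c1 hf) (prim_nadd (prim_c3 hg) one))
      (prim_nmul (prim_c1 hg) (prim_nadd (prim_c3 hf) one)))
    (prim_nadd (prim_nmul (prim_c2 hf) (prim_nadd (prim_c3 hg) one))
      (prim_nmul (prim_c2 hg) (prim_nadd (prim_c3 hf) one)))
    (prim_nadd (prim_nadd (prim_nmul (prim_c3 hf) (prim_c3 hg)) (prim_c3 hf)) (prim_c3 hg))

theorem prim_rcNeg {f : α → RatCode} (hf : Primrec f) : Primrec fun a => rcNeg (f a) :=
  prim_mk (prim_c2 hf) (prim_c1 hf) (prim_c3 hf)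

theorem prim_rcMul {f g : α → RatCode} (hf : Primrec f) (hg : Primrec g) :
    Primrec fun a => rcMul (f a) (g a) :=
  prim_mk
    (prim_nadd (prim_nmul (prim_c1 hf) (prim_c1 hg)) (prim_nmul (prim_c2 hf) (prim_c2 hg)))
    (prim_nadd (prim_nmul (prim_c1 hf) (prim_c2 hg)) (prim_nmul (prim_c2 hf) (prim_c1 hg)))
    (prim_nadd (prim_nadd (prim_nmul (prim_c3 hf) (prim_c3 hg)) (prim_c3 hf)) (prim_c3 hg))

theorem prim_rcInv {f : α → RatCode} (hf : Primrec f) : Primrec fun a => rcInv (f a) := by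
  have one : Primrec fun _ : α => 1 := Primrec.const 1
  have nil : Primrec fun _ : α => 0 := Primrec.const 0
  unfold rcInv
  refine Primrec.ite (Primrec.nat_lt.comp (prim_c2 hf) (prim_c1 hf))
    (prim_mk (prim_nadd (prim_c3 hf) one) nil (prim_nsub (prim_nsub (prim_c1 hf) (prim_c2 hf)) one))
    (Primrec.ite (Primrec.nat_lt.comp (prim_c1 hf) (prim_c2 hf))
      (prim_mk nil (prim_nadd (prim_c3 hf) one)
        (prim_nsub (prim_nsub (prim_c2 hf) (prim_c1 hf)) one))
      (Primrec.const (0, 0, 0)))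

theorem prim_rcNat {f : α → ℕ} (hf : Primrec f) : Primrec fun a => rcNat (f a) :=
  prim_mk hf (Primrec.const 0) (Primrec.const 0)

theorem prim_rcPow {f : α → RatCode} {n : α → ℕ} (hf : Primrec f) (hn : Primrec n) :
    Primrec fun a => rcPow (f a) (n a) := by
  unfold rcPow
  refine Primrec.nat_iterate hn (Primrec.const (1, 0, 0)) ?_
  exact prim_rcMul Primrec₂.right (hf.comp Primrec₂.left)

end prim

/-! ### Rational functions with primitive recursive codes -/

/-- A primitive recursive rational-valued function. -/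
def RatPrim {α : Type*} [Primcodable α] (f : α → ℚ) : Prop :=
  ∃ g : α → RatCode, Primrec g ∧ ∀ a, (g a).val = f a

namespace RatPrim

variable {α β : Type*} [Primcodable α] [Primcodable β]

theorem const (q : ℚ) : RatPrim fun _ : α => q := by
  refine ⟨fun _ => (q.num.toNat, (-q.num).toNat, q.den - 1), Primrec.const _, fun _ => ?_⟩
  have h1 : ((q.den - 1 : ℕ) : ℚ) + 1 = q.den := by
    have := q.den_pos
    have h : q.den - 1 + 1 = q.den := by omega
    have h3 : (((q.den - 1 + 1 : ℕ)) : ℚ) = q.den := by rw [h]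
    push_cast at h3
    exact h3
  have h2 : ((q.num.toNat : ℕ) : ℚ) - (((-q.num).toNat : ℕ) : ℚ) = q.num := by
    have h : ((q.num.toNat : ℕ) : ℤ) - (((-q.num).toNat : ℕ) : ℤ) = q.num := by
      omega
    exact_mod_cast h
  simp only [RatCode.val]
  rw [h1, h2, Rat.num_div_den]

theorem natCast {n : α → ℕ} (hn : Primrec n) : RatPrim fun a => (n a : ℚ) :=
  ⟨fun a => rcNat (n a), prim_rcNat hn, fun a => by simp⟩

theorem comp {f : β → ℚ} {h : α → β} (hf : RatPrim f) (hh : Primrec h) :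
    RatPrim fun a => f (h a) := by
  obtain ⟨F, hF, hF'⟩ := hf
  exact ⟨fun a => F (h a), hF.comp hh, fun a => hF' _⟩

theorem add {f g : α → ℚ} (hf : RatPrim f) (hg : RatPrim g) : RatPrim fun a => f a + g a := by
  obtain ⟨F, hF, hF'⟩ := hf
  obtain ⟨G, hG, hG'⟩ := hg
  exact ⟨fun a => rcAdd (F a) (G a), prim_rcAdd hF hG, fun a => by simp [hF', hG']⟩

theorem neg {f : α → ℚ} (hf : RatPrim f) : RatPrim fun a => - f a := by
  obtain ⟨F, hF, hF'⟩ := hf
  exact ⟨fun a => rcNeg (F a), prim_rcNeg hF, fun a => by simp [hF']⟩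

theorem sub {f g : α → ℚ} (hf : RatPrim f) (hg : RatPrim g) : RatPrim fun a => f a - g a := by
  simpa [sub_eq_add_neg] using hf.add hg.neg

theorem mul {f g : α → ℚ} (hf : RatPrim f) (hg : RatPrim g) : RatPrim fun a => f a * g a := by
  obtain ⟨F, hF, hF'⟩ := hf
  obtain ⟨G, hG, hG'⟩ := hg
  exact ⟨fun a => rcMul (F a) (G a), prim_rcMul hF hG, fun a => by simp [hF', hG']⟩

theorem inv {f : α → ℚ} (hf : RatPrim f) : RatPrim fun a => (f a)⁻¹ := by
  obtain ⟨F, hF, hF'⟩ := hf
  exact ⟨fun a => rcInv (F a), prim_rcInv hF, fun a => by simp [hF']⟩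

theorem div {f g : α → ℚ} (hf : RatPrim f) (hg : RatPrim g) : RatPrim fun a => f a / g a := by
  simpa [div_eq_mul_inv] using hf.mul hg.inv

theorem pow {f : α → ℚ} {n : α → ℕ} (hf : RatPrim f) (hn : Primrec n) :
    RatPrim fun a => f a ^ n a := by
  obtain ⟨F, hF, hF'⟩ := hf
  exact ⟨fun a => rcPow (F a) (n a), prim_rcPow hF hn, fun a => by simp [hF']⟩

theorem ite {p : α → Prop} [DecidablePred p] {f g : α → ℚ} (hp : PrimrecPred p)
    (hf : RatPrim f) (hg : RatPrim g) : RatPrim fun a => if p a then f a else g a := by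
  obtain ⟨F, hF, hF'⟩ := hf
  obtain ⟨G, hG, hG'⟩ := hg
  refine ⟨fun a => if p a then F a else G a, Primrec.ite hp hF hG, fun a => ?_⟩
  dsimp only
  split_ifs <;> simp [hF', hG']

/-- The value of a code is a primitive recursive rational. -/
theorem val {c : α → RatCode} (hc : Primrec c) : RatPrim fun a => (c a).val :=
  ⟨c, hc, fun _ => rfl⟩

end RatPrim

/-! ### Effective real functions -/

/-- An effective real function: a program gives rational approximations of any accuracy. -/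
def Eff {α : Type*} [Primcodable α] (f : α → ℝ) : Prop :=
  ∃ g : α × ℕ → RatCode, Computable g ∧ ∀ a n, |f a - ((g (a, n)).val : ℝ)| ≤ (1 / 2 : ℝ) ^ n

/-- A natural number bounding the absolute value of a code. -/
def natBound (x : RatCode) : ℕ := x.1 + x.2.1

theorem prim_natBound {α : Type*} [Primcodable α] {f : α → RatCode} (hf : Primrec f) :
    Primrec fun a => natBound (f a) := prim_nadd (prim_c1 hf) (prim_c2 hf)

theorem abs_val_le_natBound (x : RatCode) : |(x.val : ℝ)| ≤ natBound x := by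
  obtain ⟨a, b, c⟩ := x
  simp only [RatCode.val, natBound]
  push_cast
  have hc : (1 : ℝ) ≤ (c : ℝ) + 1 := by
    have : (0 : ℝ) ≤ c := Nat.cast_nonneg c
    linarith
  have hc0 : (0 : ℝ) < (c : ℝ) + 1 := by linarith
  rw [abs_div, abs_of_pos hc0, div_le_iff₀ hc0]
  have ha : (0 : ℝ) ≤ a := Nat.cast_nonneg a
  have hb : (0 : ℝ) ≤ b := Nat.cast_nonneg b
  have h1 : |(a : ℝ) - b| ≤ a + b := by
    rw [abs_le]
    constructor <;> linarith
  nlinarith

theorem nat_lt_two_pow' (n : ℕ) : (n : ℝ) ≤ 2 ^ n := by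
  have := n.lt_two_pow_self
  exact_mod_cast this.le

/-- `x * (1/2)^(n + m) ≤ (1/2)^n` when `x ≤ m`. -/
theorem mul_half_pow_le {x : ℝ} {m : ℕ} (hx : x ≤ m) (n : ℕ) :
    x * (1 / 2 : ℝ) ^ (n + m) ≤ (1 / 2 : ℝ) ^ n := by
  have h2 : (0 : ℝ) < (1 / 2 : ℝ) ^ (n + m) := by positivity
  have h3 : x * (1 / 2 : ℝ) ^ (n + m) ≤ (m : ℝ) * (1 / 2 : ℝ) ^ (n + m) :=
    mul_le_mul_of_nonneg_right hx h2.le
  have h4 : (m : ℝ) * (1 / 2 : ℝ) ^ (n + m) ≤ (2 : ℝ) ^ m * (1 / 2 : ℝ) ^ (n + m) :=
    mul_le_mul_of_nonneg_right (nat_lt_two_pow' m) h2.le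
  have h5 : (2 : ℝ) ^ m * (1 / 2 : ℝ) ^ (n + m) = (1 / 2 : ℝ) ^ n := by
    rw [pow_add, mul_comm ((1 / 2 : ℝ) ^ n), ← mul_assoc, ← mul_pow]
    norm_num
  linarith

namespace Eff

variable {α β : Type*} [Primcodable α] [Primcodable β]

theorem comp {f : β → ℝ} {h : α → β} (hf : Eff f) (hh : Computable h) :
    Eff fun a => f (h a) := by
  obtain ⟨g, hg, hg'⟩ := hf
  refine ⟨fun p => g (h p.1, p.2), hg.comp ((hh.comp Computable.fst).pair Computable.snd), ?_⟩
  intro a n
  exact hg' _ _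

theorem ofRat {f : α → ℚ} (hf : RatPrim f) : Eff fun a => (f a : ℝ) := by
  obtain ⟨F, hF, hF'⟩ := hf
  refine ⟨fun p => F p.1, (hF.comp Primrec.fst).to_comp, ?_⟩
  intro a n
  simp only [hF', sub_self, abs_zero]
  positivity

theorem const_computable {ν : ℝ} (h : IsComputableReal ν) : Eff fun _ : α => ν := by
  obtain ⟨g, hg, hg'⟩ := h
  exact ⟨fun p => g p.2, hg.comp Computable.snd, fun _ n => hg' n⟩

theorem const_rat (q : ℚ) : Eff fun _ : α => (q : ℝ) := ofRat (RatPrim.const q)

theorem const_zero : Eff fun _ : α => (0 : ℝ) := by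
  simpa using const_rat (α := α) 0

theorem const_one : Eff fun _ : α => (1 : ℝ) := by
  simpa using const_rat (α := α) 1

theorem natCast {n : α → ℕ} (hn : Primrec n) : Eff fun a => (n a : ℝ) := by
  simpa using ofRat (RatPrim.natCast hn)

theorem add {f g : α → ℝ} (hf : Eff f) (hg : Eff g) : Eff fun a => f a + g a := by
  obtain ⟨F, hF, hF'⟩ := hf
  obtain ⟨G, hG, hG'⟩ := hg
  have hp : Computable fun p : α × ℕ => (p.1, p.2 + 1) :=
    Computable.fst.pair (Computable.succ.comp Computable.snd)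
  refine ⟨fun p => rcAdd (F (p.1, p.2 + 1)) (G (p.1, p.2 + 1)), ?_, ?_⟩
  · exact (prim_rcAdd (f := fun q : RatCode × RatCode => q.1) (g := fun q => q.2)
      Primrec.fst Primrec.snd).to_comp.comp ((hF.comp hp).pair (hG.comp hp))
  · intro a n
    have h1 := hF' a (n + 1)
    have h2 := hG' a (n + 1)
    simp only [rcAdd_val, Rat.cast_add]
    have h3 : f a + g a - (((F (a, n + 1)).val : ℝ) + ((G (a, n + 1)).val : ℝ)) =
        (f a - (F (a, n + 1)).val) + (g a - (G (a, n + 1)).val) := by ring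
    rw [h3]
    calc _ ≤ _ := abs_add_le _ _
      _ ≤ (1 / 2 : ℝ) ^ (n + 1) + (1 / 2 : ℝ) ^ (n + 1) := add_le_add h1 h2
      _ = (1 / 2 : ℝ) ^ n := by rw [pow_succ]; ring

theorem neg {f : α → ℝ} (hf : Eff f) : Eff fun a => - f a := by
  obtain ⟨F, hF, hF'⟩ := hf
  refine ⟨fun p => rcNeg (F p), (prim_rcNeg Primrec.id).to_comp.comp hF, ?_⟩
  intro a n
  have h1 := hF' a n
  simp only [rcNeg_val, Rat.cast_neg]
  have h3 : - f a - - ((F (a, n)).val : ℝ) = - (f a - (F (a, n)).val) := by ring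
  rw [h3, abs_neg]
  exact h1

theorem sub {f g : α → ℝ} (hf : Eff f) (hg : Eff g) : Eff fun a => f a - g a := by
  simpa [sub_eq_add_neg] using hf.add hg.neg

theorem mul {f g : α → ℝ} (hf : Eff f) (hg : Eff g) : Eff fun a => f a * g a := by
  obtain ⟨F, hF, hF'⟩ := hf
  obtain ⟨G, hG, hG'⟩ := hg
  -- the bound: natBound of rough approximations
  let m : α → ℕ := fun a => natBound (F (a, 0)) + natBound (G (a, 0)) + 3
  have hm : Computable m := by
    have h0 : Computable fun a : α => (a, 0) := Computable.id.pair (Computable.const 0)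
    have h1 : Computable fun a : α => natBound (F (a, 0)) :=
      (prim_natBound Primrec.id).to_comp.comp (hF.comp h0)
    have h2 : Computable fun a : α => natBound (G (a, 0)) :=
      (prim_natBound Primrec.id).to_comp.comp (hG.comp h0)
    have hadd : Computable fun q : ℕ × ℕ => q.1 + q.2 := Primrec.nat_add.to_comp
    exact hadd.comp ((hadd.comp (h1.pair h2)).pair (Computable.const 3))
  have hp : Computable fun p : α × ℕ => (p.1, p.2 + m p.1) := by
    have hadd : Computable fun q : ℕ × ℕ => q.1 + q.2 := Primrec.nat_add.to_comp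
    exact Computable.fst.pair (hadd.comp (Computable.snd.pair (hm.comp Computable.fst)))
  refine ⟨fun p => rcMul (F (p.1, p.2 + m p.1)) (G (p.1, p.2 + m p.1)), ?_, ?_⟩
  · exact (prim_rcMul (f := fun q : RatCode × RatCode => q.1) (g := fun q => q.2)
      Primrec.fst Primrec.snd).to_comp.comp ((hF.comp hp).pair (hG.comp hp))
  · intro a n
    simp only [rcMul_val, Rat.cast_mul]
    set r := ((F (a, n + m a)).val : ℝ) with hr
    set s := ((G (a, n + m a)).val : ℝ) with hs
    have h1 : |f a - r| ≤ (1 / 2 : ℝ) ^ (n + m a) := hF' a (n + m a)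
    have h2 : |g a - s| ≤ (1 / 2 : ℝ) ^ (n + m a) := hG' a (n + m a)
    have h3 : |f a| ≤ natBound (F (a, 0)) + 1 := by
      have := hF' a 0
      have h4 := abs_val_le_natBound (F (a, 0))
      simp only [pow_zero] at this
      have h5 : |f a| ≤ |f a - ((F (a, 0)).val : ℝ)| + |((F (a, 0)).val : ℝ)| := by
        have := abs_add_le (f a - ((F (a, 0)).val : ℝ)) ((F (a, 0)).val : ℝ)
        simpa using this
      linarith
    have h6 : |g a| ≤ natBound (G (a, 0)) + 1 := by
      have := hG' a 0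
      have h4 := abs_val_le_natBound (G (a, 0))
      simp only [pow_zero] at this
      have h5 : |g a| ≤ |g a - ((G (a, 0)).val : ℝ)| + |((G (a, 0)).val : ℝ)| := by
        have := abs_add_le (g a - ((G (a, 0)).val : ℝ)) ((G (a, 0)).val : ℝ)
        simpa using this
      linarith
    have h7 : |r| ≤ natBound (F (a, 0)) + 2 := by
      have h8 : (1 / 2 : ℝ) ^ (n + m a) ≤ 1 := pow_le_one₀ (by norm_num) (by norm_num)
      have h5 : |r| ≤ |r - f a| + |f a| := by
        have := abs_add_le (r - f a) (f a)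
        simpa using this
      rw [abs_sub_comm] at h5
      linarith
    have h9 : f a * g a - r * s = (f a - r) * g a + r * (g a - s) := by ring
    rw [h9]
    have hB : |g a| + |r| ≤ m a := by
      simp only [m]
      push_cast
      linarith
    have h10 : |(f a - r) * g a + r * (g a - s)| ≤ (|g a| + |r|) * (1 / 2 : ℝ) ^ (n + m a) := by
      calc _ ≤ |(f a - r) * g a| + |r * (g a - s)| := abs_add_le _ _
        _ = |f a - r| * |g a| + |r| * |g a - s| := by rw [abs_mul, abs_mul]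
        _ ≤ (1 / 2 : ℝ) ^ (n + m a) * |g a| + |r| * (1 / 2 : ℝ) ^ (n + m a) := by
            gcongr
        _ = _ := by ring
    exact h10.trans (mul_half_pow_le hB n)

theorem ite {p : α → Prop} [DecidablePred p] {f g : α → ℝ}
    (hp : Computable fun a => decide (p a)) (hf : Eff f) (hg : Eff g) :
    Eff fun a => if p a then f a else g a := by
  obtain ⟨F, hF, hF'⟩ := hf
  obtain ⟨G, hG, hG'⟩ := hg
  refine ⟨fun q => bif decide (p q.1) then F q else G q,
    Computable.cond (hp.comp Computable.fst) hF hG, ?_⟩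
  intro a n
  by_cases h : p a
  · simp only [h, decide_true, cond_true, if_true]
    exact hF' a n
  · simp only [h, decide_false, cond_false, if_false]
    exact hG' a n

/-- Turning an effective function into a program with rational accuracy. -/
theorem final {f : α → ℝ} (hf : Eff f) :
    ∃ G : α × RatCode → RatCode, Computable G ∧
      ∀ a e, 0 < e.val → |((G (a, e)).val : ℝ) - f a| < e.val := by
  obtain ⟨F, hF, hF'⟩ := hf
  refine ⟨fun p => F (p.1, p.2.2.2 + 1), ?_, ?_⟩
  · exact hF.comp (Computable.fst.pair (Primrec.succ.to_comp.comp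
      ((prim_c3 (f := fun q : RatCode => q) Primrec.id).to_comp.comp Computable.snd)))
  · rintro a ⟨x, y, c⟩ he
    have h1 := hF' a (c + 1)
    rw [abs_sub_comm]
    refine lt_of_le_of_lt h1 ?_
    -- ( 1/2)^(c+1) < 1/(c+1) ≤ val`
    have hval : (1 : ℝ) / ((c : ℝ) + 1) ≤ ((RatCode.val (x, y, c) : ℚ) : ℝ) := by
      have h2 : (0 : ℚ) < ((x : ℚ) - y) / ((c : ℚ) + 1) := he
      have hc : (0 : ℚ) < (c : ℚ) + 1 := by positivity
      have h3 : (0 : ℚ) < (x : ℚ) - y := by
        by_contra h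
        have h4 : (x : ℚ) - y ≤ 0 := not_lt.mp h
        have h5 := div_nonpos_of_nonpos_of_nonneg h4 hc.le
        linarith
      have h4 : y < x := by
        have : (y : ℚ) < x := by linarith
        exact_mod_cast this
      have h5 : (1 : ℚ) ≤ (x : ℚ) - y := by
        have : y + 1 ≤ x := h4
        have h6 : ((y + 1 : ℕ) : ℚ) ≤ x := by exact_mod_cast this
        push_cast at h6
        linarith
      have h6 : (1 : ℚ) / ((c : ℚ) + 1) ≤ ((x : ℚ) - y) / ((c : ℚ) + 1) := by
        gcongr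
      have h7 : ((1 : ℚ) / ((c : ℚ) + 1) : ℚ) ≤ RatCode.val (x, y, c) := h6
      have h8 : (((1 : ℚ) / ((c : ℚ) + 1) : ℚ) : ℝ) ≤ ((RatCode.val (x, y, c) : ℚ) : ℝ) := by
        exact_mod_cast h7
      simpa using h8
    refine lt_of_lt_of_le ?_ hval
    have h2 : ((c : ℝ) + 1) < 2 ^ (c + 1) := by
      have := (c + 1).lt_two_pow_self
      exact_mod_cast this
    have hc : (0 : ℝ) < (c : ℝ) + 1 := by positivity
    rw [one_div_pow, div_lt_div_iff₀ (by positivity) hc]
    simpa using h2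

end Eff

/-! ### Expressions in `u = 1/t`, `v = 1/(1-t)` and `S`, and the derivation computing `S'` -/

/-- A monomial `c u^i v^j S^k`. -/
abbrev Mono := RatCode × ℕ × ℕ × ℕ

/-- The derivation `-u² ∂u + v² ∂v + (u²+v²) S (1-S) ∂S` on a monomial. -/
def monoD (m : Mono) : List Mono :=
  [(rcMul (rcNat m.2.1) (rcNeg m.1), m.2.1 + 1, m.2.2.1, m.2.2.2),
   (rcMul (rcNat m.2.2.1) m.1, m.2.1, m.2.2.1 + 1, m.2.2.2),
   (rcMul (rcNat m.2.2.2) m.1, m.2.1 + 2, m.2.2.1, m.2.2.2),
   (rcMul (rcNat m.2.2.2) (rcNeg m.1), m.2.1 + 2, m.2.2.1, m.2.2.2 + 1),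
   (rcMul (rcNat m.2.2.2) m.1, m.2.1, m.2.2.1 + 2, m.2.2.2),
   (rcMul (rcNat m.2.2.2) (rcNeg m.1), m.2.1, m.2.2.1 + 2, m.2.2.2 + 1)]

/-- The derivation on a list of monomials. -/
def polyD (L : List Mono) : List Mono := L.flatMap monoD

/-- The expression of the `n`-th derivative of `S`. -/
def polyS (n : ℕ) : List Mono := polyD^[n] [((1, 0, 0), 0, 0, 1)]

/-- Value of a monomial. -/
noncomputable def evalMono (u v s : ℝ) (m : Mono) : ℝ :=
  (m.1.val : ℝ) * u ^ m.2.1 * v ^ m.2.2.1 * s ^ m.2.2.2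

/-- Value of a list of monomials. -/
noncomputable def evalPoly (u v s : ℝ) (L : List Mono) : ℝ := (L.map (evalMono u v s)).sum

@[simp] theorem evalPoly_nil (u v s : ℝ) : evalPoly u v s [] = 0 := rfl

@[simp] theorem evalPoly_cons (u v s : ℝ) (m : Mono) (L : List Mono) :
    evalPoly u v s (m :: L) = evalMono u v s m + evalPoly u v s L := by
  simp [evalPoly]

theorem evalPoly_append (u v s : ℝ) (L L' : List Mono) :
    evalPoly u v s (L ++ L') = evalPoly u v s L + evalPoly u v s L' := by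
  simp [evalPoly]

/-- Rational value of a monomial, as a code. -/
def rcMono (u v s : RatCode) (m : Mono) : RatCode :=
  rcMul (rcMul (rcMul m.1 (rcPow u m.2.1)) (rcPow v m.2.2.1)) (rcPow s m.2.2.2)

/-- Rational value of a list of monomials, as a code. -/
def rcPoly (u v s : RatCode) (L : List Mono) : RatCode :=
  L.foldl (fun acc m => rcAdd acc (rcMono u v s m)) (0, 0, 0)

theorem rcMono_val (u v s : RatCode) (m : Mono) :
    (((rcMono u v s m).val : ℚ) : ℝ) = evalMono u.val v.val s.val m := by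
  simp [rcMono, evalMono]

theorem rcPoly_val_aux (u v s : RatCode) (L : List Mono) (acc : RatCode) :
    ((L.foldl (fun acc m => rcAdd acc (rcMono u v s m)) acc).val : ℝ)
      = (acc.val : ℝ) + evalPoly u.val v.val s.val L := by
  induction L generalizing acc with
  | nil => simp
  | cons m L ih =>
    rw [List.foldl_cons, ih, evalPoly_cons]
    simp only [rcAdd_val, Rat.cast_add, rcMono_val]
    ring

theorem rcPoly_val (u v s : RatCode) (L : List Mono) :
    ((rcPoly u v s L).val : ℝ) = evalPoly u.val v.val s.val L := by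
  have h := rcPoly_val_aux u v s L (0, 0, 0)
  have h0 : ((RatCode.val (0, 0, 0) : ℚ) : ℝ) = 0 := by simp [RatCode.val]
  rw [h0, zero_add] at h
  exact h

/-- Powers of natural numbers, as an iteration. -/
def natPow (b e : ℕ) : ℕ := (fun r => r * b)^[e] 1

theorem natPow_eq (b e : ℕ) : natPow b e = b ^ e := by
  induction e with
  | zero => simp [natPow]
  | succ e ih =>
    simp only [natPow, Function.iterate_succ', Function.comp] at ih ⊢
    rw [ih, pow_succ]

/-- A bound for the Lipschitz constant in `S` of a list of monomials, given bounds `U`, `V` for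
`|u|`, `|v|`. -/
def polyB (U V : ℕ) (L : List Mono) : ℕ :=
  L.foldl (fun acc m => acc + natBound m.1 * natPow U m.2.1 * natPow V m.2.2.1 * m.2.2.2) 0

theorem polyB_aux (U V : ℕ) (L : List Mono) (acc : ℕ) :
    L.foldl (fun acc m => acc + natBound m.1 * natPow U m.2.1 * natPow V m.2.2.1 * m.2.2.2) acc
      = acc + polyB U V L := by
  induction L generalizing acc with
  | nil => simp [polyB]
  | cons m L ih =>
    simp only [polyB, List.foldl_cons, zero_add]
    rw [ih, ih (natBound m.1 * natPow U m.2.1 * natPow V m.2.2.1 * m.2.2.2)]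
    ring

theorem polyB_cons (U V : ℕ) (m : Mono) (L : List Mono) :
    polyB U V (m :: L) = natBound m.1 * U ^ m.2.1 * V ^ m.2.2.1 * m.2.2.2 + polyB U V L := by
  conv_lhs => rw [polyB, List.foldl_cons, zero_add, polyB_aux]
  rw [natPow_eq, natPow_eq]

theorem abs_pow_sub_pow_le {s r : ℝ} (hs0 : 0 ≤ s) (hs1 : s ≤ 1) (hr0 : 0 ≤ r) (hr1 : r ≤ 1)
    (k : ℕ) : |s ^ k - r ^ k| ≤ k * |s - r| := by
  induction k with
  | zero => simp
  | succ k ih =>
    have h1 : s ^ (k + 1) - r ^ (k + 1) = s ^ k * (s - r) + r * (s ^ k - r ^ k) := by ring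
    rw [h1]
    have h2 : s ^ k ≤ 1 := pow_le_one₀ hs0 hs1
    have h3 : 0 ≤ s ^ k := pow_nonneg hs0 k
    calc _ ≤ |s ^ k * (s - r)| + |r * (s ^ k - r ^ k)| := abs_add_le _ _
      _ = s ^ k * |s - r| + r * |s ^ k - r ^ k| := by
          rw [abs_mul, abs_mul, abs_of_nonneg h3, abs_of_nonneg hr0]
      _ ≤ 1 * |s - r| + 1 * (k * |s - r|) := by
          gcongr
      _ = _ := by push_cast; ring

theorem evalPoly_lipschitz {u v s r : ℝ} {U V : ℕ} (hu : |u| ≤ U) (hv : |v| ≤ V)
    (hs0 : 0 ≤ s) (hs1 : s ≤ 1) (hr0 : 0 ≤ r) (hr1 : r ≤ 1) (L : List Mono) :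
    |evalPoly u v s L - evalPoly u v r L| ≤ polyB U V L * |s - r| := by
  induction L with
  | nil => simp [polyB]
  | cons m L ih =>
    rw [evalPoly_cons, evalPoly_cons, polyB_cons]
    have h1 : evalMono u v s m + evalPoly u v s L - (evalMono u v r m + evalPoly u v r L)
        = (evalMono u v s m - evalMono u v r m) + (evalPoly u v s L - evalPoly u v r L) := by ring
    rw [h1]
    have h2 : |evalMono u v s m - evalMono u v r m|
        ≤ (natBound m.1 : ℝ) * (U : ℝ) ^ m.2.1 * (V : ℝ) ^ m.2.2.1 * m.2.2.2 * |s - r| := by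
      have h3 : evalMono u v s m - evalMono u v r m
          = (m.1.val : ℝ) * u ^ m.2.1 * v ^ m.2.2.1 * (s ^ m.2.2.2 - r ^ m.2.2.2) := by
        simp only [evalMono]
        ring
      rw [h3, abs_mul, abs_mul, abs_mul, abs_pow, abs_pow]
      have h4 := abs_pow_sub_pow_le hs0 hs1 hr0 hr1 m.2.2.2
      have h5 := abs_val_le_natBound m.1
      have h6 : |u| ^ m.2.1 ≤ (U : ℝ) ^ m.2.1 := pow_le_pow_left₀ (abs_nonneg _) hu _
      have h7 : |v| ^ m.2.2.1 ≤ (V : ℝ) ^ m.2.2.1 := pow_le_pow_left₀ (abs_nonneg _) hv _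
      calc _ ≤ (natBound m.1 : ℝ) * (U : ℝ) ^ m.2.1 * (V : ℝ) ^ m.2.2.1 * (m.2.2.2 * |s - r|) := by
            gcongr
        _ = _ := by ring
    calc _ ≤ |evalMono u v s m - evalMono u v r m| + |evalPoly u v s L - evalPoly u v r L| :=
          abs_add_le _ _
      _ ≤ _ := add_le_add h2 ih
      _ = _ := by push_cast; ring

/-! ### Rational approximation of the exponential -/

/-- The number of factors used to approximate `exp (-x)`. -/
def expN (x : RatCode) (k : ℕ) : ℕ := (natBound x + 1) * (natBound x + 1) * natPow 2 k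

/-- The lower approximation ( 1 - x/N)^N` of `exp (-x)`. -/
def rcExpLo (x : RatCode) (k : ℕ) : RatCode :=
  rcPow (rcAdd (rcNat 1) (rcNeg (rcMul x (rcInv (rcNat (expN x k)))))) (expN x k)

theorem exp_lo_bounds {X : ℝ} {N B : ℕ} (k : ℕ) (hX0 : 0 ≤ X) (hXB : X ≤ B)
    (hN : N = (B + 1) * (B + 1) * 2 ^ k) :
    0 ≤ (1 - X / N) ^ N ∧ (1 - X / N) ^ N ≤ 1 ∧
      |Real.exp (-X) - (1 - X / N) ^ N| ≤ (1 / 2 : ℝ) ^ k := by
  have hB0 : (0 : ℝ) ≤ B := Nat.cast_nonneg B
  have hNr : (N : ℝ) = ((B : ℝ) + 1) * (B + 1) * 2 ^ k := by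
    rw [hN]
    push_cast
    ring
  have h2k : (1 : ℝ) ≤ 2 ^ k := one_le_pow₀ (by norm_num)
  have hNpos : (0 : ℝ) < N := by
    rw [hNr]
    positivity
  have hNB : (B : ℝ) + 1 ≤ N := by
    rw [hNr]
    nlinarith
  set y : ℝ := X / N with hy
  have hy0 : 0 ≤ y := div_nonneg hX0 hNpos.le
  have hy1 : y ≤ 1 := by
    rw [hy, div_le_one hNpos]
    linarith
  have hyN : y * N = X := by
    rw [hy]
    field_simp
  have h1 : 0 ≤ 1 - y := by linarith
  have h2 : (1 - y) ^ N ≤ 1 := pow_le_one₀ h1 (by linarith)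
  refine ⟨pow_nonneg h1 N, h2, ?_⟩
  -- upper estimate of the lower approximation
  have h3 : (1 - y) ^ N ≤ Real.exp (-X) := by
    have h4 : 1 - y ≤ Real.exp (-y) := Real.one_sub_le_exp_neg y
    calc (1 - y) ^ N ≤ Real.exp (-y) ^ N := pow_le_pow_left₀ h1 h4 N
      _ = Real.exp (-X) := by
        rw [← Real.exp_nat_mul, ← hyN]
        congr 1
        ring
  -- lower estimate
  have h5 : (1 + y) ^ N ≤ Real.exp X := by
    have h4 : 1 + y ≤ Real.exp y := by
      have := Real.add_one_le_exp y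
      linarith
    calc (1 + y) ^ N ≤ Real.exp y ^ N := pow_le_pow_left₀ (by linarith) h4 N
      _ = Real.exp X := by
        rw [← Real.exp_nat_mul, ← hyN]
        congr 1
        ring
  have h6 : 1 - N * y ^ 2 ≤ (1 - y) ^ N * (1 + y) ^ N := by
    rw [← mul_pow]
    have h7 : (1 - y) * (1 + y) = 1 + (- y ^ 2) := by ring
    rw [h7]
    have h8 := one_add_mul_le_pow (a := - y ^ 2) (by nlinarith) N
    calc 1 - N * y ^ 2 = 1 + (N : ℝ) * (- y ^ 2) := by ring
      _ ≤ _ := h8
  have h9 : (1 - y) ^ N * (1 + y) ^ N ≤ (1 - y) ^ N * Real.exp X :=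
    mul_le_mul_of_nonneg_left h5 (pow_nonneg h1 N)
  have hexp1 : Real.exp (-X) ≤ 1 := by
    rw [Real.exp_le_one_iff]
    linarith
  have hexp0 : 0 < Real.exp (-X) := Real.exp_pos _
  have h10 : Real.exp (-X) * (1 - N * y ^ 2) ≤ (1 - y) ^ N := by
    have h11 : Real.exp (-X) * (1 - N * y ^ 2) ≤ Real.exp (-X) * ((1 - y) ^ N * Real.exp X) :=
      mul_le_mul_of_nonneg_left (h6.trans h9) hexp0.le
    have h12 : Real.exp (-X) * ((1 - y) ^ N * Real.exp X) = (1 - y) ^ N := by
      rw [mul_comm ((1 - y) ^ N), ← mul_assoc, ← Real.exp_add]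
      simp
    linarith
  have hNy : 0 ≤ (N : ℝ) * y ^ 2 := by positivity
  have h13 : Real.exp (-X) - (1 - y) ^ N ≤ N * y ^ 2 := by
    nlinarith
  have h14 : (N : ℝ) * y ^ 2 ≤ (1 / 2 : ℝ) ^ k := by
    have h15 : (N : ℝ) * y ^ 2 = X ^ 2 / N := by
      rw [hy]
      field_simp
    rw [h15, div_le_iff₀ hNpos, hNr]
    have h16 : X ^ 2 ≤ ((B : ℝ) + 1) * (B + 1) := by nlinarith
    have h17 : (1 / 2 : ℝ) ^ k * (((B : ℝ) + 1) * (B + 1) * 2 ^ k) = ((B : ℝ) + 1) * (B + 1) := by
      have : (1 / 2 : ℝ) ^ k * 2 ^ k = 1 := by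
        rw [← mul_pow]
        norm_num
      calc _ = ((1 / 2 : ℝ) ^ k * 2 ^ k) * (((B : ℝ) + 1) * (B + 1)) := by ring
        _ = _ := by rw [this, one_mul]
    rw [h17]
    exact h16
  rw [abs_of_nonneg (by linarith)]
  linarith

theorem rcExpLo_val (x : RatCode) (k : ℕ) :
    (((rcExpLo x k).val : ℚ) : ℝ) = (1 - (x.val : ℝ) / (expN x k : ℝ)) ^ (expN x k) := by
  simp [rcExpLo, div_eq_mul_inv, sub_eq_add_neg]

theorem rcExpLo_bounds (x : RatCode) (k : ℕ) (hx : 0 ≤ (x.val : ℝ)) :
    0 ≤ (((rcExpLo x k).val : ℚ) : ℝ) ∧ (((rcExpLo x k).val : ℚ) : ℝ) ≤ 1 ∧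
      |Real.exp (-(x.val : ℝ)) - (((rcExpLo x k).val : ℚ) : ℝ)| ≤ (1 / 2 : ℝ) ^ k := by
  rw [rcExpLo_val]
  refine exp_lo_bounds (B := natBound x) k hx ((le_abs_self _).trans (abs_val_le_natBound x)) ?_
  rw [expN, natPow_eq]

/-! ### Analysis of `Real.smoothTransition` on ( 0,1)` -/

theorem st_eq {t : ℝ} (h0 : 0 < t) (h1 : t < 1) :
    Real.smoothTransition t = 1 / (1 + Real.exp (1 / t - 1 / (1 - t))) := by
  have h2 : 0 < 1 - t := by linarith
  have e1 : expNegInvGlue t = Real.exp (-(1 / t)) := by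
    simp [expNegInvGlue, not_le.2 h0]
  have e2 : expNegInvGlue (1 - t) = Real.exp (-(1 / (1 - t))) := by
    simp [expNegInvGlue, not_le.2 h2]
  have e3 : Real.exp (1 / t - 1 / (1 - t)) = Real.exp (-(1 / (1 - t))) / Real.exp (-(1 / t)) := by
    rw [← Real.exp_sub]
    congr 1
    ring
  rw [Real.smoothTransition, e1, e2, e3]
  have hA := Real.exp_pos (-(1 / t))
  have hB := Real.exp_pos (-(1 / (1 - t)))
  field_simp

theorem hasDerivAt_one_div {t : ℝ} (h0 : 0 < t) :
    HasDerivAt (fun τ : ℝ => 1 / τ) (-(1 / t) ^ 2) t := by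
  have := hasDerivAt_inv h0.ne'
  simp only [one_div]
  refine this.congr_deriv ?_
  rw [inv_pow]

theorem hasDerivAt_one_div_sub {t : ℝ} (h2 : 0 < 1 - t) :
    HasDerivAt (fun τ : ℝ => 1 / (1 - τ)) ((1 / (1 - t)) ^ 2) t := by
  have h3 : HasDerivAt (fun τ : ℝ => 1 - τ) (-1) t := by
    simpa using (hasDerivAt_id t).const_sub 1
  have := h3.fun_inv h2.ne'
  simp only [one_div]
  refine this.congr_deriv ?_
  rw [inv_pow]
  simp [div_eq_mul_inv]

theorem hasDerivAt_st {t : ℝ} (h0 : 0 < t) (h1 : t < 1) :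
    HasDerivAt Real.smoothTransition
      (((1 / t) ^ 2 + (1 / (1 - t)) ^ 2) * Real.smoothTransition t *
        (1 - Real.smoothTransition t)) t := by
  have h2 : 0 < 1 - t := by linarith
  have hev : Real.smoothTransition =ᶠ[nhds t]
      fun τ => 1 / (1 + Real.exp (1 / τ - 1 / (1 - τ))) := by
    filter_upwards [Ioo_mem_nhds h0 h1] with τ hτ
    exact st_eq hτ.1 hτ.2
  have hu := hasDerivAt_one_div h0
  have hv := hasDerivAt_one_div_sub h2
  have hr : HasDerivAt (fun τ : ℝ => 1 / τ - 1 / (1 - τ)) (-(1 / t) ^ 2 - (1 / (1 - t)) ^ 2) t :=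
    hu.sub hv
  have hE : HasDerivAt (fun τ : ℝ => Real.exp (1 / τ - 1 / (1 - τ)))
      (Real.exp (1 / t - 1 / (1 - t)) * (-(1 / t) ^ 2 - (1 / (1 - t)) ^ 2)) t := hr.exp
  have hD : HasDerivAt (fun τ : ℝ => 1 + Real.exp (1 / τ - 1 / (1 - τ)))
      (Real.exp (1 / t - 1 / (1 - t)) * (-(1 / t) ^ 2 - (1 / (1 - t)) ^ 2)) t := hE.const_add 1
  have hpos : 0 < 1 + Real.exp (1 / t - 1 / (1 - t)) := by positivity
  have hS : HasDerivAt (fun τ : ℝ => 1 / (1 + Real.exp (1 / τ - 1 / (1 - τ))))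
      ((0 * (1 + Real.exp (1 / t - 1 / (1 - t))) - 1 *
        (Real.exp (1 / t - 1 / (1 - t)) * (-(1 / t) ^ 2 - (1 / (1 - t)) ^ 2))) /
        (1 + Real.exp (1 / t - 1 / (1 - t))) ^ 2) t :=
    (hasDerivAt_const t (1 : ℝ)).fun_div hD hpos.ne'
  refine (hS.congr_of_eventuallyEq hev).congr_deriv ?_
  rw [st_eq h0 h1]
  have key : ∀ E w : ℝ, 0 < 1 + E →
      (0 * (1 + E) - 1 * (E * (-w))) / (1 + E) ^ 2 = w * (1 / (1 + E)) * (1 - 1 / (1 + E)) := by
    intro E w hE
    field_simp
    ring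
  have h3 : -(1 / t) ^ 2 - (1 / (1 - t)) ^ 2 = -((1 / t) ^ 2 + (1 / (1 - t)) ^ 2) := by ring
  rw [h3]
  exact key _ _ hpos

/-- The derivation `monoD` computes the derivative of a monomial along ( 1/t, 1/(1-t), S t)`. -/
theorem hasDerivAt_mono {t : ℝ} (h0 : 0 < t) (h1 : t < 1) (m : Mono) :
    HasDerivAt (fun τ : ℝ => evalMono (1 / τ) (1 / (1 - τ)) (Real.smoothTransition τ) m)
      (evalPoly (1 / t) (1 / (1 - t)) (Real.smoothTransition t) (monoD m)) t := by
  have h2 : 0 < 1 - t := by linarith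
  have hu := hasDerivAt_one_div h0
  have hv := hasDerivAt_one_div_sub h2
  have hs := hasDerivAt_st h0 h1
  obtain ⟨c, i, j, k⟩ := m
  have hui : HasDerivAt (fun τ : ℝ => (1 / τ) ^ i)
      ((i : ℝ) * (1 / t) ^ (i - 1) * (-(1 / t) ^ 2)) t := hu.pow i
  have hvj : HasDerivAt (fun τ : ℝ => (1 / (1 - τ)) ^ j)
      ((j : ℝ) * (1 / (1 - t)) ^ (j - 1) * ((1 / (1 - t)) ^ 2)) t := hv.pow j
  have hsk : HasDerivAt (fun τ : ℝ => Real.smoothTransition τ ^ k)
      ((k : ℝ) * Real.smoothTransition t ^ (k - 1) * (((1 / t) ^ 2 + (1 / (1 - t)) ^ 2) *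
        Real.smoothTransition t * (1 - Real.smoothTransition t))) t := hs.pow k
  have h12 : HasDerivAt (fun τ : ℝ => (1 / τ) ^ i * (1 / (1 - τ)) ^ j)
      ((i : ℝ) * (1 / t) ^ (i - 1) * (-(1 / t) ^ 2) * (1 / (1 - t)) ^ j +
        (1 / t) ^ i * ((j : ℝ) * (1 / (1 - t)) ^ (j - 1) * ((1 / (1 - t)) ^ 2))) t := hui.mul hvj
  have h123 : HasDerivAt
      (fun τ : ℝ => (1 / τ) ^ i * (1 / (1 - τ)) ^ j * Real.smoothTransition τ ^ k)
      (((i : ℝ) * (1 / t) ^ (i - 1) * (-(1 / t) ^ 2) * (1 / (1 - t)) ^ j +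
        (1 / t) ^ i * ((j : ℝ) * (1 / (1 - t)) ^ (j - 1) * ((1 / (1 - t)) ^ 2))) *
          Real.smoothTransition t ^ k +
        (1 / t) ^ i * (1 / (1 - t)) ^ j * ((k : ℝ) * Real.smoothTransition t ^ (k - 1) *
          (((1 / t) ^ 2 + (1 / (1 - t)) ^ 2) * Real.smoothTransition t *
            (1 - Real.smoothTransition t)))) t := h12.mul hsk
  have hT := h123.const_mul ((c.val : ℚ) : ℝ)
  have hf : (fun τ : ℝ => evalMono (1 / τ) (1 / (1 - τ)) (Real.smoothTransition τ) (c, i, j, k))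
      = fun τ : ℝ => ((c.val : ℚ) : ℝ) * ((1 / τ) ^ i * (1 / (1 - τ)) ^ j *
        Real.smoothTransition τ ^ k) := by
    funext τ
    simp only [evalMono]
    ring
  rw [hf]
  refine hT.congr_deriv ?_
  set u := 1 / t with hu'
  set v := 1 / (1 - t) with hv'
  set s := Real.smoothTransition t with hs'
  have e1 : (i : ℝ) * u ^ (i - 1) * (-u ^ 2) = - ((i : ℝ) * u ^ (i + 1)) := by
    cases i with
    | zero => simp
    | succ i => simp only [Nat.add_sub_cancel]; ring
  have e2 : (j : ℝ) * v ^ (j - 1) * (v ^ 2) = (j : ℝ) * v ^ (j + 1) := by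
    cases j with
    | zero => simp
    | succ j => simp only [Nat.add_sub_cancel]; ring
  have e3 : (k : ℝ) * s ^ (k - 1) * ((u ^ 2 + v ^ 2) * s * (1 - s))
      = (k : ℝ) * (u ^ 2 + v ^ 2) * (s ^ k - s ^ (k + 1)) := by
    cases k with
    | zero => simp
    | succ k => simp only [Nat.add_sub_cancel]; ring
  rw [e1, e2, e3]
  simp only [monoD, evalPoly_cons, evalPoly_nil, evalMono, rcMul_val, rcNat_val, rcNeg_val,
    Rat.cast_mul, Rat.cast_neg, Rat.cast_natCast]
  ring

theorem hasDerivAt_poly {t : ℝ} (h0 : 0 < t) (h1 : t < 1) (L : List Mono) :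
    HasDerivAt (fun τ : ℝ => evalPoly (1 / τ) (1 / (1 - τ)) (Real.smoothTransition τ) L)
      (evalPoly (1 / t) (1 / (1 - t)) (Real.smoothTransition t) (polyD L)) t := by
  induction L with
  | nil => simpa [polyD] using hasDerivAt_const t (0 : ℝ)
  | cons m L ih =>
    have h := (hasDerivAt_mono h0 h1 m).add ih
    simp only [polyD, List.flatMap_cons, evalPoly_append] at h ⊢
    refine h.congr_of_eventuallyEq (Filter.Eventually.of_forall fun τ => ?_)
    simp

theorem iteratedDeriv_st_Ioo (n : ℕ) {t : ℝ} (h0 : 0 < t) (h1 : t < 1) :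
    iteratedDeriv n Real.smoothTransition t
      = evalPoly (1 / t) (1 / (1 - t)) (Real.smoothTransition t) (polyS n) := by
  induction n generalizing t with
  | zero =>
    simp [polyS, evalMono, RatCode.val]
  | succ n ih =>
    rw [iteratedDeriv_succ]
    have hev : iteratedDeriv n Real.smoothTransition =ᶠ[nhds t]
        fun τ => evalPoly (1 / τ) (1 / (1 - τ)) (Real.smoothTransition τ) (polyS n) := by
      filter_upwards [Ioo_mem_nhds h0 h1] with τ hτ
      exact ih hτ.1 hτ.2
    rw [hev.deriv_eq, (hasDerivAt_poly h0 h1 (polyS n)).deriv]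
    simp only [polyS, Function.iterate_succ_apply']

theorem st_contDiff (n : ℕ) : Continuous (iteratedDeriv n Real.smoothTransition) :=
  (Real.smoothTransition.contDiff (n := (⊤ : ℕ∞))).continuous_iteratedDeriv n (by exact_mod_cast le_top)

theorem iteratedDeriv_st_of_nonpos (n : ℕ) {t : ℝ} (h : t ≤ 0) :
    iteratedDeriv n Real.smoothTransition t = 0 := by
  have hI : Set.Iic (0 : ℝ) ⊆ iteratedDeriv n Real.smoothTransition ⁻¹' {0} := by
    rw [← closure_Iio (0 : ℝ)]
    refine closure_minimal ?_ (isClosed_singleton.preimage (st_contDiff n))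
    intro τ hτ
    have hev : Real.smoothTransition =ᶠ[nhds τ] fun _ => 0 := by
      filter_upwards [Iio_mem_nhds hτ] with x hx
      exact Real.smoothTransition.zero_of_nonpos (le_of_lt hx)
    have := hev.iteratedDeriv_eq n
    simp only [Set.mem_preimage, Set.mem_singleton_iff]
    rw [this]
    cases n with
    | zero => simp
    | succ n => simp
  exact hI h

theorem iteratedDeriv_st_succ_of_one_le (n : ℕ) {t : ℝ} (h : 1 ≤ t) :
    iteratedDeriv (n + 1) Real.smoothTransition t = 0 := by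
  have hI : Set.Ici (1 : ℝ) ⊆ iteratedDeriv (n + 1) Real.smoothTransition ⁻¹' {0} := by
    rw [← closure_Ioi (1 : ℝ)]
    refine closure_minimal ?_ (isClosed_singleton.preimage (st_contDiff (n + 1)))
    intro τ hτ
    have hev : Real.smoothTransition =ᶠ[nhds τ] fun _ => 1 := by
      filter_upwards [Ioi_mem_nhds hτ] with x hx
      exact Real.smoothTransition.one_of_one_le (le_of_lt hx)
    have := hev.iteratedDeriv_eq (n + 1)
    simp only [Set.mem_preimage, Set.mem_singleton_iff]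
    rw [this, iteratedDeriv_succ']
    have h0 : deriv (fun _ : ℝ => (1 : ℝ)) = fun _ => 0 := by
      funext y
      simp
    rw [h0]
    have := (Filter.EventuallyEq.refl (nhds τ) (fun _ : ℝ => (0 : ℝ))).iteratedDeriv_eq n
    simp
  exact hI h

/-! ### The approximation of `S` at a rational point of ( 0,1)` -/

/-- The code of `1/t`. -/
def rcU (t : RatCode) : RatCode := rcInv t

/-- The code of `1/(1-t)`. -/
def rcV (t : RatCode) : RatCode := rcInv (rcAdd (rcNat 1) (rcNeg t))

/-- The code of `1/t - 1/(1-t)`. -/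
def rcY (t : RatCode) : RatCode := rcAdd (rcU t) (rcNeg (rcV t))

/-- Rational approximation of `S t` at accuracy ( 1/2)^k`, for `t` in ( 0,1)`. -/
def approxS (t : RatCode) (k : ℕ) : RatCode :=
  if (rcY t).1 ≤ (rcY t).2.1 then rcInv (rcAdd (rcNat 1) (rcExpLo (rcNeg (rcY t)) k))
  else rcMul (rcExpLo (rcY t) k) (rcInv (rcAdd (rcNat 1) (rcExpLo (rcY t) k)))

theorem rc_val_nonpos_iff (y : RatCode) : y.1 ≤ y.2.1 ↔ y.val ≤ 0 := by
  obtain ⟨a, b, c⟩ := y
  simp only [RatCode.val]
  have hc : (0 : ℚ) < (c : ℚ) + 1 := by positivity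
  rw [div_nonpos_iff]
  constructor
  · intro h
    right
    have : (a : ℚ) ≤ b := by exact_mod_cast h
    exact ⟨by linarith, hc.le⟩
  · rintro (⟨_, h⟩ | ⟨h, _⟩)
    · linarith
    · have : (a : ℚ) ≤ b := by linarith
      exact_mod_cast this

theorem approxS_spec (t : RatCode) (k : ℕ) (h0 : 0 < (t.val : ℝ)) (h1 : (t.val : ℝ) < 1) :
    0 ≤ (((approxS t k).val : ℚ) : ℝ) ∧ (((approxS t k).val : ℚ) : ℝ) ≤ 1 ∧
      |Real.smoothTransition (t.val : ℝ) - (((approxS t k).val : ℚ) : ℝ)| ≤ (1 / 2 : ℝ) ^ k := by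
  have hY : (((rcY t).val : ℚ) : ℝ) = 1 / (t.val : ℝ) - 1 / (1 - (t.val : ℝ)) := by
    simp [rcY, rcU, rcV, one_div, sub_eq_add_neg]
  have hS := st_eq h0 h1
  rw [← hY] at hS
  rw [hS]
  set y : ℝ := (((rcY t).val : ℚ) : ℝ) with hy
  unfold approxS
  split_ifs with hc
  · have hq : (rcY t).val ≤ 0 := (rc_val_nonpos_iff _).1 hc
    have hy0 : y ≤ 0 := by
      rw [hy]
      exact_mod_cast hq
    have hneg : (((rcNeg (rcY t)).val : ℚ) : ℝ) = -y := by
      simp [hy]
    obtain ⟨hw0, hw1, hw⟩ := rcExpLo_bounds (rcNeg (rcY t)) k (by rw [hneg]; linarith)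
    rw [hneg] at hw
    simp only [neg_neg] at hw
    set w : ℝ := (((rcExpLo (rcNeg (rcY t)) k).val : ℚ) : ℝ) with hwdef
    have hr : (((rcInv (rcAdd (rcNat 1) (rcExpLo (rcNeg (rcY t)) k))).val : ℚ) : ℝ) = 1 / (1 + w) := by
      simp [hwdef, one_div]
    rw [hr]
    have hE := Real.exp_pos y
    have hw2 : 0 < 1 + w := by linarith
    refine ⟨by positivity, by rw [div_le_one hw2]; linarith, ?_⟩
    have h3 : 1 / (1 + Real.exp y) - 1 / (1 + w) = (w - Real.exp y) / ((1 + Real.exp y) * (1 + w)) := by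
      field_simp
      ring
    rw [h3, abs_div, abs_of_pos (show 0 < (1 + Real.exp y) * (1 + w) by positivity)]
    rw [div_le_iff₀ (by positivity)]
    rw [abs_sub_comm] at hw
    have h4 : (1 : ℝ) ≤ (1 + Real.exp y) * (1 + w) := by nlinarith
    have h5 : (0 : ℝ) ≤ (1 / 2 : ℝ) ^ k := by positivity
    calc |w - Real.exp y| ≤ (1 / 2 : ℝ) ^ k := hw
      _ ≤ (1 / 2 : ℝ) ^ k * ((1 + Real.exp y) * (1 + w)) := by nlinarith
  · have hq : ¬ (rcY t).val ≤ 0 := fun h => hc ((rc_val_nonpos_iff _).2 h)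
    have hy0 : 0 < y := by
      rw [hy]
      exact_mod_cast not_le.1 hq
    obtain ⟨hw0, hw1, hw⟩ := rcExpLo_bounds (rcY t) k hy0.le
    rw [← hy] at hw
    set w : ℝ := (((rcExpLo (rcY t) k).val : ℚ) : ℝ) with hwdef
    have hr : (((rcMul (rcExpLo (rcY t) k) (rcInv (rcAdd (rcNat 1) (rcExpLo (rcY t) k)))).val : ℚ) : ℝ)
        = w * (1 / (1 + w)) := by
      simp [hwdef, one_div]
    rw [hr]
    have hE := Real.exp_pos (-y)
    have hE' := Real.exp_pos y
    have hw2 : 0 < 1 + w := by linarith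
    refine ⟨by positivity, ?_, ?_⟩
    · have : w * (1 / (1 + w)) = w / (1 + w) := by ring
      rw [this, div_le_one hw2]
      linarith
    have h3 : 1 / (1 + Real.exp y) = Real.exp (-y) / (1 + Real.exp (-y)) := by
      rw [Real.exp_neg]
      field_simp
      ring
    rw [h3]
    have h4 : Real.exp (-y) / (1 + Real.exp (-y)) - w * (1 / (1 + w))
        = (Real.exp (-y) - w) / ((1 + Real.exp (-y)) * (1 + w)) := by
      field_simp
      ring
    rw [h4, abs_div, abs_of_pos (show 0 < (1 + Real.exp (-y)) * (1 + w) by positivity)]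
    rw [div_le_iff₀ (by positivity)]
    have h6 : (1 : ℝ) ≤ (1 + Real.exp (-y)) * (1 + w) := by nlinarith
    have h5 : (0 : ℝ) ≤ (1 / 2 : ℝ) ^ k := by positivity
    calc |Real.exp (-y) - w| ≤ (1 / 2 : ℝ) ^ k := hw
      _ ≤ (1 / 2 : ℝ) ^ k * ((1 + Real.exp (-y)) * (1 + w)) := by nlinarith

/-- The approximation of the derivative of `S` of order `x.1.1` at `x.1.2` at accuracy
( 1/2)^x.2`. -/
def stApprox (x : (ℕ × RatCode) × ℕ) : RatCode :=
  if x.1.2.1 ≤ x.1.2.2.1 then (0, 0, 0)
  else if x.1.2.2.1 + x.1.2.2.2 + 1 ≤ x.1.2.1 then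
    (if x.1.1 = 0 then (1, 0, 0) else (0, 0, 0))
  else
    rcPoly (rcU x.1.2) (rcV x.1.2)
      (approxS x.1.2 (x.2 + polyB (natBound (rcU x.1.2)) (natBound (rcV x.1.2)) (polyS x.1.1)))
      (polyS x.1.1)

theorem stApprox_spec (n : ℕ) (t : RatCode) (p : ℕ) :
    |iteratedDeriv n Real.smoothTransition (t.val : ℝ) - ((stApprox ((n, t), p)).val : ℝ)|
      ≤ (1 / 2 : ℝ) ^ p := by
  have hp : (0 : ℝ) ≤ (1 / 2 : ℝ) ^ p := by positivity
  have h00 : ((RatCode.val (0, 0, 0) : ℚ) : ℝ) = 0 := by simp [RatCode.val]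
  have h01 : ((RatCode.val (1, 0, 0) : ℚ) : ℝ) = 1 := by simp [RatCode.val]
  simp only [stApprox]
  split_ifs with h1 h2 h3
  · have ht : (t.val : ℝ) ≤ 0 := by
      have := (rc_val_nonpos_iff t).1 h1
      exact_mod_cast this
    rw [iteratedDeriv_st_of_nonpos n ht, h00]
    simp
  · have h4 : (1 : ℚ) ≤ t.val := by
      obtain ⟨a, b, c⟩ := t
      simp only [RatCode.val] at h2 ⊢
      have hc : (0 : ℚ) < (c : ℚ) + 1 := by positivity
      rw [one_le_div hc]
      have : ((b + c + 1 : ℕ) : ℚ) ≤ a := by exact_mod_cast h2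
      push_cast at this
      linarith
    have ht : (1 : ℝ) ≤ (t.val : ℝ) := by exact_mod_cast h4
    subst h3
    rw [iteratedDeriv_zero, Real.smoothTransition.one_of_one_le ht, h01]
    simp
  · have h4 : (1 : ℚ) ≤ t.val := by
      obtain ⟨a, b, c⟩ := t
      simp only [RatCode.val] at h2 ⊢
      have hc : (0 : ℚ) < (c : ℚ) + 1 := by positivity
      rw [one_le_div hc]
      have : ((b + c + 1 : ℕ) : ℚ) ≤ a := by exact_mod_cast h2
      push_cast at this
      linarith
    have ht : (1 : ℝ) ≤ (t.val : ℝ) := by exact_mod_cast h4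
    obtain ⟨m, rfl⟩ : ∃ m, n = m + 1 := Nat.exists_eq_succ_of_ne_zero h3
    rw [iteratedDeriv_st_succ_of_one_le m ht, h00]
    simp
  · have ht0 : 0 < (t.val : ℝ) := by
      have : ¬ t.val ≤ 0 := fun h => h1 ((rc_val_nonpos_iff t).2 h)
      exact_mod_cast not_le.1 this
    have ht1 : (t.val : ℝ) < 1 := by
      have : t.val < 1 := by
        obtain ⟨a, b, c⟩ := t
        simp only [RatCode.val] at h2 ⊢
        have hc : (0 : ℚ) < (c : ℚ) + 1 := by positivity
        rw [div_lt_one hc]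
        have h5 : a < b + c + 1 := not_le.1 h2
        have : ((a : ℕ) : ℚ) < ((b + c + 1 : ℕ) : ℚ) := by exact_mod_cast h5
        push_cast at this
        linarith
      exact_mod_cast this
    rw [iteratedDeriv_st_Ioo n ht0 ht1, rcPoly_val]
    have hU : (((rcU t).val : ℚ) : ℝ) = 1 / (t.val : ℝ) := by
      simp [rcU, one_div]
    have hV : (((rcV t).val : ℚ) : ℝ) = 1 / (1 - (t.val : ℝ)) := by
      simp [rcV, one_div, sub_eq_add_neg]
    rw [hU, hV]
    set B := polyB (natBound (rcU t)) (natBound (rcV t)) (polyS n) with hB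
    obtain ⟨hr0, hr1, hr⟩ := approxS_spec t (p + B) ht0 ht1
    have hLip := evalPoly_lipschitz (u := 1 / (t.val : ℝ)) (v := 1 / (1 - (t.val : ℝ)))
      (s := Real.smoothTransition (t.val : ℝ)) (r := (((approxS t (p + B)).val : ℚ) : ℝ))
      (U := natBound (rcU t)) (V := natBound (rcV t))
      (by rw [← hU]; exact abs_val_le_natBound _) (by rw [← hV]; exact abs_val_le_natBound _)
      (Real.smoothTransition.nonneg _) (Real.smoothTransition.le_one _) hr0 hr1 (polyS n)
    refine hLip.trans ?_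
    calc (B : ℝ) * |Real.smoothTransition (t.val : ℝ) - (((approxS t (p + B)).val : ℚ) : ℝ)|
        ≤ (B : ℝ) * (1 / 2 : ℝ) ^ (p + B) := by gcongr
      _ ≤ (1 / 2 : ℝ) ^ p := mul_half_pow_le le_rfl p

section primS

variable {α : Type*} [Primcodable α]

theorem prim_natPow {b e : α → ℕ} (hb : Primrec b) (he : Primrec e) :
    Primrec fun a => natPow (b a) (e a) := by
  unfold natPow
  refine Primrec.nat_iterate he (Primrec.const 1) ?_
  exact prim_nmul Primrec₂.right (hb.comp Primrec₂.left)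

theorem prim_monoD : Primrec monoD := by
  unfold monoD
  have hc : Primrec fun m : Mono => m.1 := Primrec.fst
  have hi : Primrec fun m : Mono => m.2.1 := Primrec.fst.comp Primrec.snd
  have hj : Primrec fun m : Mono => m.2.2.1 := Primrec.fst.comp (Primrec.snd.comp Primrec.snd)
  have hk : Primrec fun m : Mono => m.2.2.2 := Primrec.snd.comp (Primrec.snd.comp Primrec.snd)
  have one : Primrec fun _ : Mono => 1 := Primrec.const 1
  have two : Primrec fun _ : Mono => 2 := Primrec.const 2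
  have mk : ∀ {c i j k : Mono → ℕ} {d : Mono → RatCode}, Primrec d → Primrec i → Primrec j →
      Primrec k → Primrec fun m => ((d m, i m, j m, k m) : Mono) := by
    intro c i j k d hd hi hj hk
    exact hd.pair (hi.pair (hj.pair hk))
  have e1 := mk (c := fun _ => 0) (prim_rcMul (prim_rcNat hi) (prim_rcNeg hc)) (prim_nadd hi one) hj hk
  have e2 := mk (c := fun _ => 0) (prim_rcMul (prim_rcNat hj) hc) hi (prim_nadd hj one) hk
  have e3 := mk (c := fun _ => 0) (prim_rcMul (prim_rcNat hk) hc) (prim_nadd hi two) hj hk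
  have e4 := mk (c := fun _ => 0) (prim_rcMul (prim_rcNat hk) (prim_rcNeg hc)) (prim_nadd hi two) hj
    (prim_nadd hk one)
  have e5 := mk (c := fun _ => 0) (prim_rcMul (prim_rcNat hk) hc) hi (prim_nadd hj two) hk
  have e6 := mk (c := fun _ => 0) (prim_rcMul (prim_rcNat hk) (prim_rcNeg hc)) hi (prim_nadd hj two)
    (prim_nadd hk one)
  exact Primrec.list_cons.comp e1 (Primrec.list_cons.comp e2 (Primrec.list_cons.comp e3
    (Primrec.list_cons.comp e4 (Primrec.list_cons.comp e5 (Primrec.list_cons.comp e6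
      (Primrec.const []))))))

theorem prim_polyD : Primrec polyD := by
  unfold polyD
  exact Primrec.list_flatMap Primrec.id (prim_monoD.comp Primrec₂.right)

theorem prim_polyS : Primrec polyS := by
  unfold polyS
  exact Primrec.nat_iterate Primrec.id (Primrec.const _) (prim_polyD.comp Primrec₂.right)

theorem prim_rcMono {u v s : α → RatCode} {m : α → Mono} (hu : Primrec u) (hv : Primrec v)
    (hs : Primrec s) (hm : Primrec m) : Primrec fun a => rcMono (u a) (v a) (s a) (m a) := by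
  unfold rcMono
  have hc : Primrec fun a => (m a).1 := Primrec.fst.comp hm
  have hi : Primrec fun a => (m a).2.1 := Primrec.fst.comp (Primrec.snd.comp hm)
  have hj : Primrec fun a => (m a).2.2.1 := Primrec.fst.comp (Primrec.snd.comp (Primrec.snd.comp hm))
  have hk : Primrec fun a => (m a).2.2.2 := Primrec.snd.comp (Primrec.snd.comp (Primrec.snd.comp hm))
  exact prim_rcMul (prim_rcMul (prim_rcMul hc (prim_rcPow hu hi)) (prim_rcPow hv hj))
    (prim_rcPow hs hk)

theorem prim_rcPoly {u v s : α → RatCode} {L : α → List Mono} (hu : Primrec u) (hv : Primrec v)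
    (hs : Primrec s) (hL : Primrec L) : Primrec fun a => rcPoly (u a) (v a) (s a) (L a) := by
  unfold rcPoly
  refine Primrec.list_foldl (h := fun a q => rcAdd q.1 (rcMono (u a) (v a) (s a) q.2)) hL
    (Primrec.const (0, 0, 0)) ?_
  refine prim_rcAdd (Primrec.fst.comp Primrec₂.right) ?_
  exact prim_rcMono (hu.comp Primrec₂.left) (hv.comp Primrec₂.left) (hs.comp Primrec₂.left)
    (Primrec.snd.comp Primrec₂.right)

theorem prim_polyB {U V : α → ℕ} {L : α → List Mono} (hU : Primrec U) (hV : Primrec V)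
    (hL : Primrec L) : Primrec fun a => polyB (U a) (V a) (L a) := by
  unfold polyB
  refine Primrec.list_foldl
    (h := fun a q => q.1 + natBound q.2.1 * natPow (U a) q.2.2.1 * natPow (V a) q.2.2.2.1 * q.2.2.2.2)
    hL (Primrec.const 0) ?_
  have hm : Primrec₂ fun (_ : α) (q : ℕ × Mono) => q.2 := Primrec.snd.comp Primrec₂.right
  have hc : Primrec₂ fun (_ : α) (q : ℕ × Mono) => q.2.1 := Primrec.fst.comp hm
  have hi : Primrec₂ fun (_ : α) (q : ℕ × Mono) => q.2.2.1 :=
    Primrec.fst.comp (Primrec.snd.comp hm)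
  have hj : Primrec₂ fun (_ : α) (q : ℕ × Mono) => q.2.2.2.1 :=
    Primrec.fst.comp (Primrec.snd.comp (Primrec.snd.comp hm))
  have hk : Primrec₂ fun (_ : α) (q : ℕ × Mono) => q.2.2.2.2 :=
    Primrec.snd.comp (Primrec.snd.comp (Primrec.snd.comp hm))
  exact prim_nadd (Primrec.fst.comp Primrec₂.right)
    (prim_nmul (prim_nmul (prim_nmul (prim_natBound hc)
      (prim_natPow (hU.comp Primrec₂.left) hi)) (prim_natPow (hV.comp Primrec₂.left) hj)) hk)

theorem prim_expN {x : α → RatCode} {k : α → ℕ} (hx : Primrec x) (hk : Primrec k) :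
    Primrec fun a => expN (x a) (k a) := by
  unfold expN
  have one : Primrec fun _ : α => 1 := Primrec.const 1
  exact prim_nmul (prim_nmul (prim_nadd (prim_natBound hx) one) (prim_nadd (prim_natBound hx) one))
    (prim_natPow (Primrec.const 2) hk)

theorem prim_rcExpLo {x : α → RatCode} {k : α → ℕ} (hx : Primrec x) (hk : Primrec k) :
    Primrec fun a => rcExpLo (x a) (k a) := by
  unfold rcExpLo
  have hN := prim_expN hx hk
  exact prim_rcPow (prim_rcAdd (prim_rcNat (Primrec.const 1))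
    (prim_rcNeg (prim_rcMul hx (prim_rcInv (prim_rcNat hN))))) hN

theorem prim_rcU {t : α → RatCode} (ht : Primrec t) : Primrec fun a => rcU (t a) := prim_rcInv ht

theorem prim_rcV {t : α → RatCode} (ht : Primrec t) : Primrec fun a => rcV (t a) :=
  prim_rcInv (prim_rcAdd (prim_rcNat (Primrec.const 1)) (prim_rcNeg ht))

theorem prim_rcY {t : α → RatCode} (ht : Primrec t) : Primrec fun a => rcY (t a) :=
  prim_rcAdd (prim_rcU ht) (prim_rcNeg (prim_rcV ht))

theorem prim_approxS {t : α → RatCode} {k : α → ℕ} (ht : Primrec t) (hk : Primrec k) :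
    Primrec fun a => approxS (t a) (k a) := by
  unfold approxS
  have hy := prim_rcY ht
  have one : Primrec fun _ : α => rcNat 1 := Primrec.const _
  refine Primrec.ite (Primrec.nat_le.comp (prim_c1 hy) (prim_c2 hy))
    (prim_rcInv (prim_rcAdd one (prim_rcExpLo (prim_rcNeg hy) hk)))
    (prim_rcMul (prim_rcExpLo hy hk) (prim_rcInv (prim_rcAdd one (prim_rcExpLo hy hk))))

theorem prim_stApprox : Primrec stApprox := by
  unfold stApprox
  have hn : Primrec fun x : (ℕ × RatCode) × ℕ => x.1.1 := Primrec.fst.comp Primrec.fst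
  have ht : Primrec fun x : (ℕ × RatCode) × ℕ => x.1.2 := Primrec.snd.comp Primrec.fst
  have hp : Primrec fun x : (ℕ × RatCode) × ℕ => x.2 := Primrec.snd
  have hS := prim_polyS.comp hn
  have hU := prim_rcU ht
  have hV := prim_rcV ht
  refine Primrec.ite (Primrec.nat_le.comp (prim_c1 ht) (prim_c2 ht)) (Primrec.const _) ?_
  refine Primrec.ite (Primrec.nat_le.comp
    (prim_nadd (prim_nadd (prim_c2 ht) (prim_c3 ht)) (Primrec.const 1)) (prim_c1 ht)) ?_ ?_
  · exact Primrec.ite (Primrec.eq.comp hn (Primrec.const 0)) (Primrec.const _) (Primrec.const _)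
  · exact prim_rcPoly hU hV (prim_approxS ht
      (prim_nadd hp (prim_polyB (prim_natBound hU) (prim_natBound hV) hS))) hS

end primS

/-- All derivatives of `Real.smoothTransition` at rational points are effective. -/
theorem eff_smoothDeriv :
    Eff (fun x : ℕ × RatCode => iteratedDeriv x.1 Real.smoothTransition ((x.2.val : ℚ) : ℝ)) :=
  ⟨stApprox, prim_stApprox.to_comp, fun a n => stApprox_spec a.1 a.2 n⟩

theorem computable_rcAdd {α : Type*} [Primcodable α] {f g : α → RatCode}
    (hf : Computable f) (hg : Computable g) : Computable fun a => rcAdd (f a) (g a) :=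
  (prim_rcAdd (f := fun q : RatCode × RatCode => q.1) (g := fun q => q.2)
    Primrec.fst Primrec.snd).to_comp.comp (hf.pair hg)

/-- The running sums of a sequence of codes. -/
def sumAcc {α : Type*} (G : α × ℕ → RatCode) (x : α) : ℕ → RatCode
  | 0 => (0, 0, 0)
  | y + 1 => rcAdd (sumAcc G x y) (G (x, y))

theorem computable_sumAcc {α : Type*} [Primcodable α] {G : α × ℕ → RatCode} {N : α → ℕ}
    (hG : Computable G) (hN : Computable N) : Computable fun x => sumAcc G x (N x) := by
  have hstep : Computable₂ fun (x : α) (y : ℕ × RatCode) => rcAdd y.2 (G (x, y.1)) := by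
    refine Computable₂.mk ?_
    have hg : Computable fun q : α × (ℕ × RatCode) => G (q.1, q.2.1) :=
      hG.comp (Computable.fst.pair (Computable.fst.comp Computable.snd))
    have h2 : Computable fun q : α × (ℕ × RatCode) => q.2.2 := Computable.snd.comp Computable.snd
    exact computable_rcAdd h2 hg
  refine (Computable.nat_rec hN (Computable.const ((0, 0, 0) : RatCode)) hstep).of_eq ?_
  intro x
  induction N x with
  | zero => rfl
  | succ n ih =>
    simp only [sumAcc, ih]

namespace Eff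

variable {α : Type*} [Primcodable α]

/-- Finite sums of effective functions, with a computable number of terms. -/
theorem sum_range {f : α × ℕ → ℝ} {N : α → ℕ} (hf : Eff f) (hN : Computable N) :
    Eff fun a => ∑ k ∈ Finset.range (N a), f (a, k) := by
  obtain ⟨F, hF, hF'⟩ := hf
  let G : (α × ℕ) × ℕ → RatCode := fun q => F ((q.1.1, q.2), q.1.2 + N q.1.1)
  have hG : Computable G := by
    have hadd : Computable fun q : ℕ × ℕ => q.1 + q.2 := Primrec.nat_add.to_comp
    have h1 : Computable fun q : (α × ℕ) × ℕ => q.1.1 := Computable.fst.comp Computable.fst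
    have h2 : Computable fun q : (α × ℕ) × ℕ => q.1.2 := Computable.snd.comp Computable.fst
    have h3 : Computable fun q : (α × ℕ) × ℕ => q.2 := Computable.snd
    exact hF.comp ((h1.pair h3).pair (hadd.comp (h2.pair (hN.comp h1))))
  refine ⟨fun x => sumAcc G x (N x.1), computable_sumAcc hG (hN.comp Computable.fst), ?_⟩
  intro a p
  have key : ∀ M : ℕ,
      |∑ k ∈ Finset.range M, f (a, k) - (((sumAcc G (a, p) M).val : ℚ) : ℝ)|
        ≤ M * (1 / 2 : ℝ) ^ (p + N a) := by
    intro M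
    induction M with
    | zero => simp [sumAcc, RatCode.val]
    | succ M ih =>
      rw [Finset.sum_range_succ, sumAcc, rcAdd_val, Rat.cast_add]
      have h1 : |f (a, M) - ((G ((a, p), M)).val : ℝ)| ≤ (1 / 2 : ℝ) ^ (p + N a) :=
        hF' (a, M) (p + N a)
      have h3 : ∑ k ∈ Finset.range M, f (a, k) + f (a, M)
          - ((((sumAcc G (a, p) M).val : ℚ) : ℝ) + ((G ((a, p), M)).val : ℝ))
          = (∑ k ∈ Finset.range M, f (a, k) - (((sumAcc G (a, p) M).val : ℚ) : ℝ))
            + (f (a, M) - (G ((a, p), M)).val) := by ring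
      rw [h3]
      calc _ ≤ |∑ k ∈ Finset.range M, f (a, k) - (((sumAcc G (a, p) M).val : ℚ) : ℝ)|
            + |f (a, M) - (G ((a, p), M)).val| := abs_add_le _ _
        _ ≤ M * (1 / 2 : ℝ) ^ (p + N a) + (1 / 2 : ℝ) ^ (p + N a) := add_le_add ih h1
        _ = _ := by push_cast; ring
  exact (key (N a)).trans (mul_half_pow_le le_rfl p)

end Eff

/-! ### Further closure properties -/

/-- The floor of a rational code, as a code. -/
def rcFloor (x : RatCode) : RatCode :=
  if x.2.1 ≤ x.1 then ((x.1 - x.2.1) / (x.2.2 + 1), 0, 0)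
  else (0, (x.2.1 - x.1 + x.2.2) / (x.2.2 + 1), 0)

theorem rcFloor_val (x : RatCode) : (rcFloor x).val = ((⌊x.val⌋ : ℤ) : ℚ) := by
  obtain ⟨a, b, c⟩ := x
  have hc : (0 : ℚ) < (c : ℚ) + 1 := by positivity
  simp only [rcFloor, RatCode.val]
  split_ifs with h
  · simp only [Nat.cast_zero, sub_zero, zero_add, div_one]
    have h1 : ((a : ℚ) - (b : ℚ)) / ((c : ℚ) + 1) = (((a - b : ℕ) : ℚ)) / ((c + 1 : ℕ) : ℚ) := by
      rw [Nat.cast_sub h]; push_cast; ring
    rw [h1, Rat.floor_natCast_div_natCast]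
    push_cast
    rfl
  · replace h := not_le.mp h
    simp only [Nat.cast_zero, zero_sub, zero_add, div_one]
    obtain ⟨d, hd⟩ : ∃ d, b = a + d := ⟨b - a, by omega⟩
    subst hd
    have hq : ⌊((a : ℚ) - ((a + d : ℕ) : ℚ)) / ((c : ℚ) + 1)⌋
        = -(((a + d - a + c) / (c + 1) : ℕ) : ℤ) := by
      rw [Int.floor_eq_iff]
      have hsimp : a + d - a + c = d + c := by omega
      rw [hsimp]
      set q := (d + c) / (c + 1) with hqdef
      have hdm := Nat.div_add_mod (d + c) (c + 1)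
      rw [← hqdef] at hdm
      have hlt := Nat.mod_lt (d + c) (Nat.succ_pos c)
      set r := (d + c) % (c + 1) with hr
      have hdmQ : ((c : ℚ) + 1) * (q : ℚ) + (r : ℚ) = (d : ℚ) + (c : ℚ) := by exact_mod_cast hdm
      have hltQ : (r : ℚ) ≤ (c : ℚ) := by
        have : r ≤ c := Nat.lt_succ_iff.mp hlt
        exact_mod_cast this
      have hr0 : (0 : ℚ) ≤ (r : ℚ) := Nat.cast_nonneg r
      push_cast
      constructor
      · rw [le_div_iff₀ hc]
        nlinarith
      · rw [div_lt_iff₀ hc]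
        nlinarith
    rw [hq, Int.cast_neg, Int.cast_natCast]

theorem prim_rcFloor {α : Type*} [Primcodable α] {f : α → RatCode} (hf : Primrec f) :
    Primrec fun a => rcFloor (f a) := by
  unfold rcFloor
  refine Primrec.ite (Primrec.nat_le.comp (prim_c2 hf) (prim_c1 hf)) ?_ ?_
  · exact prim_mk (Primrec.nat_div.comp (prim_nsub (prim_c1 hf) (prim_c2 hf))
      (prim_nadd (prim_c3 hf) (Primrec.const 1))) (Primrec.const 0) (Primrec.const 0)
  · exact prim_mk (Primrec.const 0) (Primrec.nat_div.comp (prim_nadd (prim_nsub (prim_c2 hf)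
      (prim_c1 hf)) (prim_c3 hf)) (prim_nadd (prim_c3 hf) (Primrec.const 1))) (Primrec.const 0)

namespace RatPrim

variable {α : Type*} [Primcodable α]

/-- The floor of a primitive recursive rational function. -/
theorem floor {f : α → ℚ} (hf : RatPrim f) : RatPrim fun a => ((⌊f a⌋ : ℤ) : ℚ) := by
  obtain ⟨c, hc, hc'⟩ := hf
  refine ⟨fun a => rcFloor (c a), prim_rcFloor hc, fun a => ?_⟩
  rw [rcFloor_val, hc']

end RatPrim

theorem computable_rcPow {α : Type*} [Primcodable α] {f : α → RatCode} {n : α → ℕ}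
    (hf : Computable f) (hn : Computable n) : Computable fun a => rcPow (f a) (n a) :=
  (prim_rcPow (f := fun q : RatCode × ℕ => q.1) (n := fun q => q.2)
    Primrec.fst Primrec.snd).to_comp.comp (hf.pair hn)

namespace Eff

variable {α : Type*} [Primcodable α]

/-- If-then-else with a primitive recursive test. -/
theorem ite_prim {p : α → Prop} [DecidablePred p] {f g : α → ℝ}
    (hp : PrimrecPred p) (hf : Eff f) (hg : Eff g) :
    Eff fun a => if p a then f a else g a :=
  ite (Primrec.to_comp hp.decide) hf hg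

/-- Finite sums of effective functions, with a primitive recursive number of terms. -/
theorem sum {f : α × ℕ → ℝ} {L : α → ℕ} (hf : Eff f) (hL : Primrec L) :
    Eff fun a => ∑ k ∈ Finset.range (L a), f (a, k) :=
  sum_range hf hL.to_comp

/-- Powers of effective functions, with a computable natural exponent. -/
theorem pow {f : α → ℝ} {n : α → ℕ} (hf : Eff f) (hn : Computable n) :
    Eff fun a => f a ^ n a := by
  obtain ⟨F, hF, hF'⟩ := hf
  -- a bound on `f a` and on all approximations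
  let M : α → ℕ := fun a => natBound (F (a, 0)) + 2
  have hM : Computable M := by
    have h0 : Computable fun a : α => F (a, 0) := hF.comp (Computable.id.pair (Computable.const 0))
    have h1 : Computable fun r : RatCode => natBound r + 2 :=
      (prim_nadd (prim_natBound Primrec.id) (Primrec.const 2)).to_comp
    exact h1.comp h0
  have hx : ∀ a, |f a| ≤ (natBound (F (a, 0)) : ℝ) + 1 := by
    intro a
    have h1 : |f a - ((F (a, 0)).val : ℝ)| ≤ 1 := by simpa using hF' a 0
    have h2 := abs_val_le_natBound (F (a, 0))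
    calc |f a| = |(f a - ((F (a, 0)).val : ℝ)) + ((F (a, 0)).val : ℝ)| := by ring_nf
      _ ≤ |f a - ((F (a, 0)).val : ℝ)| + |((F (a, 0)).val : ℝ)| := abs_add_le _ _
      _ ≤ _ := by linarith
  have hr : ∀ a k, |(((F (a, k)).val : ℚ) : ℝ)| ≤ (natBound (F (a, 0)) : ℝ) + 2 := by
    intro a k
    have h1 : |f a - ((F (a, k)).val : ℝ)| ≤ 1 := by
      refine (hF' a k).trans ?_
      exact pow_le_one₀ (by norm_num) (by norm_num)
    have h2 := hx a
    calc |(((F (a, k)).val : ℚ) : ℝ)| = |f a - (f a - ((F (a, k)).val : ℝ))| := by ring_nf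
      _ ≤ |f a| + |f a - ((F (a, k)).val : ℝ)| := abs_sub _ _
      _ ≤ _ := by linarith
  let prec : α × ℕ → ℕ := fun q => q.2 + n q.1 + M q.1 * n q.1
  have hprec : Computable prec := by
    have hadd : Computable fun q : ℕ × ℕ => q.1 + q.2 := Primrec.nat_add.to_comp
    have hmul : Computable fun q : ℕ × ℕ => q.1 * q.2 := Primrec.nat_mul.to_comp
    have h1 : Computable fun q : α × ℕ => q.1 := Computable.fst
    have h2 : Computable fun q : α × ℕ => q.2 := Computable.snd
    exact hadd.comp ((hadd.comp (h2.pair (hn.comp h1))).pair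
      (hmul.comp ((hM.comp h1).pair (hn.comp h1))))
  refine ⟨fun q => rcPow (F (q.1, prec q)) (n q.1),
    computable_rcPow (hF.comp (Computable.fst.pair hprec)) (hn.comp Computable.fst), ?_⟩
  intro a k
  have hval : (((rcPow (F (a, prec (a, k))) (n a)).val : ℚ) : ℝ)
      = (((F (a, prec (a, k))).val : ℚ) : ℝ) ^ n a := by
    rw [rcPow_val]; push_cast; rfl
  simp only [hval]
  set r : ℝ := (((F (a, prec (a, k))).val : ℚ) : ℝ) with hrdef
  have hbound : max |f a| |r| ≤ (M a : ℝ) := by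
    have h1 := hx a
    have h2 := hr a (prec (a, k))
    simp only [M]
    push_cast
    refine max_le ?_ ?_
    · linarith
    · exact h2
  have hmain := _root_.abs_pow_sub_pow_le (f a) r (n a)
  have hM1 : (M a : ℝ) ≤ 2 ^ (M a) := nat_lt_two_pow' (M a)
  have hpow : max |f a| |r| ^ (n a - 1) ≤ (2 : ℝ) ^ (M a * n a) := by
    calc max |f a| |r| ^ (n a - 1) ≤ (M a : ℝ) ^ (n a - 1) := by
          gcongr
      _ ≤ ((2 : ℝ) ^ (M a)) ^ (n a - 1) := by gcongr
      _ = (2 : ℝ) ^ (M a * (n a - 1)) := (pow_mul _ _ _).symm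
      _ ≤ (2 : ℝ) ^ (M a * n a) := by
          apply pow_le_pow_right₀ (by norm_num)
          exact Nat.mul_le_mul_left _ (Nat.sub_le _ _)
  have hdiff : |f a - r| ≤ (1 / 2 : ℝ) ^ prec (a, k) := hF' a (prec (a, k))
  have hprec_eq : prec (a, k) = k + n a + M a * n a := rfl
  have h2pow : (2 : ℝ) ^ (M a * n a) * (1 / 2 : ℝ) ^ (k + n a + M a * n a)
      = (1 / 2 : ℝ) ^ (k + n a) := by
    rw [pow_add _ (k + n a), mul_comm ((1 / 2 : ℝ) ^ (k + n a)), ← mul_assoc, ← mul_pow]
    norm_num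
  calc |f a ^ n a - r ^ n a| ≤ |f a - r| * (n a : ℝ) * max |f a| |r| ^ (n a - 1) := hmain
    _ ≤ (1 / 2 : ℝ) ^ prec (a, k) * (n a : ℝ) * (2 : ℝ) ^ (M a * n a) := by gcongr
    _ = (n a : ℝ) * ((2 : ℝ) ^ (M a * n a) * (1 / 2 : ℝ) ^ (k + n a + M a * n a)) := by
        rw [hprec_eq]; ring
    _ = (n a : ℝ) * (1 / 2 : ℝ) ^ (k + n a) := by rw [h2pow]
    _ ≤ (1 / 2 : ℝ) ^ k := mul_half_pow_le le_rfl k

end Eff

end Vale.Agent.Lib.P113
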