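import Vale.Agent.Lib.P113.Orbit

/-!
The path of the program of shears of a machine reaches the halting set iff the machine halts.
-/

namespace Vale.Agent.Lib.P113

open Tbl

/-- The table of a machine with its numbers of modes and digits. -/
def tblOf (M : Machine) : Tbl := ⟨modeCount M, digitCount M, tableOf M⟩

/-- The open subset of the torus to be reached. -/
def haltSet : Set E3 := {x | ∃ n : ℤ, 5 / 8 < x 2 - (n : ℝ) ∧ x 2 - (n : ℝ) < 7 / 8}

lemma isOpen_haltSet : IsOpen haltSet := by
  have : haltSet = ⋃ n : ℤ, {x : E3 | 5 / 8 < x 2 - (n : ℝ) ∧ x 2 - (n : ℝ) < 7 / 8} := by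
    ext x; simp [haltSet]
  rw [this]
  refine isOpen_iUnion (fun n => ?_)
  have hc : Continuous (fun x : E3 => x 2 - (n : ℝ)) := (continuous_apply 2).sub continuous_const
  exact (isOpen_lt continuous_const hc).inter (isOpen_lt hc continuous_const)

lemma periodic_haltSet : ZPeriodicSet haltSet := by
  intro n x
  constructor
  · rintro ⟨m, h1, h2⟩
    refine ⟨m - n 2, ?_, ?_⟩
    · push_cast; simp only at h1; linarith
    · push_cast; simp only at h2; linarith
  · rintro ⟨m, h1, h2⟩
    refine ⟨m + n 2, ?_, ?_⟩
    · push_cast; linarith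
    · push_cast; linarith

lemma not_mem_haltSet {x : E3} (h0 : 0 ≤ x 2) (h1 : x 2 ≤ 1 / 2) : x ∉ haltSet := by
  rintro ⟨n, h2, h3⟩
  rcases lt_or_ge n 0 with h | h
  · have : (n : ℝ) ≤ -1 := by exact_mod_cast Int.le_sub_one_of_lt h
    linarith
  · have : (0 : ℝ) ≤ n := by exact_mod_cast h
    linarith

lemma mem_haltSet {x : E3} (h : x 2 = 3 / 4) : x ∈ haltSet :=
  ⟨0, by rw [h]; norm_num, by rw [h]; norm_num⟩

/-! ### Properties of the sigmoid -/

lemma sig_nonneg (t : ℝ) : 0 ≤ sig t := Real.smoothTransition.nonneg _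
lemma sig_le_one (t : ℝ) : sig t ≤ 1 := Real.smoothTransition.le_one _
lemma sig_zero : sig 0 = 0 := Real.smoothTransition.zero_of_nonpos (by norm_num)

/-! ### The path -/

variable {sh : ℕ → Shear} {P : ℕ} {v : E3}

lemma path_at (n : ℕ) : path sh P v (1 + (n : ℝ)) = orbit sh P v n := by
  have h1 : ¬ (1 + (n : ℝ) < 1) := by
    have : (0 : ℝ) ≤ n := Nat.cast_nonneg _
    linarith
  have h2 : ⌊1 + (n : ℝ) - 1⌋₊ = n := by
    have : 1 + (n : ℝ) - 1 = n := by ring
    rw [this]
    exact Nat.floor_natCast n
  unfold path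
  rw [if_neg h1]
  simp only [h2]
  have h3 : 1 + (n : ℝ) - 1 - n = 0 := by ring
  rw [h3, sig_zero]
  simp

/-- The height along the path lies between the heights at consecutive orbit points. -/
lemma path_height {t : ℝ} (ht : 1 ≤ t) {a b : ℝ}
    (h : ∀ n, a ≤ orbit sh P v n 2 ∧ orbit sh P v n 2 ≤ b) :
    a ≤ path sh P v t 2 ∧ path sh P v t 2 ≤ b := by
  have h1 : ¬ (t < 1) := not_lt.2 ht
  unfold path
  rw [if_neg h1]
  set n := ⌊t - 1⌋₊
  set s := sh (n % P)
  have hσ0 := sig_nonneg (t - 1 - (n : ℝ))
  have hσ1 := sig_le_one (t - 1 - (n : ℝ))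
  by_cases hi : s.i = 2
  · rw [hi, Function.update_self]
    have hn1 : orbit sh P v (n + 1) 2 = orbit sh P v n 2 + shearG s (orbit sh P v n) := by
      show shearMap s (orbit sh P v n) 2 = _
      unfold shearMap
      rw [hi, Function.update_self]
    have h2 := h n
    have h3 := h (n + 1)
    rw [hn1] at h3
    set z := orbit sh P v n 2
    set G := shearG s (orbit sh P v n)
    set σ := sig (t - 1 - (n : ℝ))
    constructor
    · nlinarith [mul_nonneg hσ0 (sub_nonneg.2 h3.1), mul_nonneg (sub_nonneg.2 hσ1) (sub_nonneg.2 h2.1)]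
    · nlinarith [mul_nonneg hσ0 (sub_nonneg.2 h3.2), mul_nonneg (sub_nonneg.2 hσ1) (sub_nonneg.2 h2.2)]
  · rw [Function.update_of_ne (Ne.symm hi)]
    exact h n

/-! ### The invariant of the run of a machine -/

variable {M : Machine}

/-- The invariant ensuring that the stack machine of `M` is never stuck. -/
def NotStuckInv (M : Machine) (g : GCfg) : Prop :=
  (g.1 % 4 = 1 → g.2.2.headD 0 < M.numSymbols) ∧ (g.1 % 4 = 3 → g.2.1.headD 0 < M.numSymbols)

lemma inv_step (hM : M.WF) {g g' : GCfg} (hq : g.1 / 4 < M.numStates) (hg : NotStuckInv M g)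
    (hdig : ∀ x ∈ g.2.1, x < digitCount M) (hdigY : ∀ x ∈ g.2.2, x < digitCount M)
    (hs : gstep (tableOf M) g = some g') : NotStuckInv M g' := by
  obtain ⟨m, X, Y⟩ := g
  simp only at hq hg hdig hdigY
  have hlt4 : m % 4 < 4 := Nat.mod_lt _ (by norm_num)
  by_cases hk : m % 4 < 2
  · simp only [gstep, hk, if_true] at hs
    cases ht : tableOf M m (Y.headD 0) with
    | stuck =>
      simp only [ht, Option.some.injEq] at hs
      subst hs
      exact hg
    | halt => simp only [ht] at hs; cases hs
    | push m' l =>
      simp only [ht, Option.some.injEq] at hs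
      subst hs
      rcases tableOf_cases M ht with h | h | h | h | h
      · obtain ⟨h1, h2, h3, h4⟩ := h
        subst h3 h4
        constructor
        · intro h5; omega
        · intro h5; omega
      · obtain ⟨h1, h2, h3, h4⟩ := h
        subst h4
        have hA : (M.transition (m / 4) (Y.headD 0)).2.1 < M.numSymbols :=
          (transition_lt M hM hq h2).2
        constructor
        · intro h5; rcases h3 with h3 | h3 <;> omega
        · intro _; simpa using hA
      · omega
      · omega
      · omega
  · simp only [gstep, hk, if_false] at hs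
    cases ht : tableOf M m (X.headD 0) with
    | stuck =>
      simp only [ht, Option.some.injEq] at hs
      subst hs
      exact hg
    | halt => simp only [ht] at hs; cases hs
    | push m' l =>
      simp only [ht, Option.some.injEq] at hs
      subst hs
      rcases tableOf_cases M ht with h | h | h | h | h
      · omega
      · omega
      · obtain ⟨h1, h2, h3, h4⟩ := h
        subst h3 h4
        constructor
        · intro h5; omega
        · intro h5; omega
      · obtain ⟨h1, h2, h3, h4⟩ := h
        subst h4
        constructor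
        · intro _; simpa using h2
        · intro h5; omega
      · obtain ⟨h1, h2, h3, h4⟩ := h
        constructor
        · intro h5; omega
        · intro h5; omega

lemma tableOf_stuck_cases {m d : ℕ} (h : tableOf M m d = Outcome.stuck) :
    (m % 4 = 1 ∧ M.numSymbols ≤ d) ∨ (m % 4 = 3 ∧ M.numSymbols ≤ d) := by
  have hlt4 : m % 4 < 4 := Nat.mod_lt _ (by norm_num)
  unfold tableOf ruleOut at h
  simp only at h
  split_ifs at h <;> first | omega | (exfalso; cases h)

lemma inv_not_stuck {g : GCfg} (hg : NotStuckInv M g) :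
    tableOf M g.1 (topDigit g) ≠ Outcome.stuck := by
  obtain ⟨m, X, Y⟩ := g
  obtain ⟨h1, h3⟩ := hg
  simp only at h1 h3
  intro h
  rcases tableOf_stuck_cases h with ⟨h4, h5⟩ | ⟨h4, h5⟩
  · have := h1 h4
    simp only [topDigit, h4] at h5
    rw [if_pos (by norm_num)] at h5
    omega
  · have := h3 h4
    simp only [topDigit, h4] at h5
    rw [if_neg (by norm_num)] at h5
    omega

lemma digit_bound (hM : M.WF) : M.numSymbols ≤ digitCount M := by
  unfold digitCount; omega

/-- The run of the stack machine of `M` from a word is never stuck and stays valid. -/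
lemma run_inv (hM : M.WF) (w : List ℕ) (hw : M.ValidInput w) (c : ℕ) :
    ∀ g, giter (tableOf M) c (0, [], w) = some g →
      NotStuckInv M g ∧ (tblOf M).ValidCfg g := by
  have hTS := tableOf_spec M hM
  have hD : 0 < digitCount M := lt_of_lt_of_le hM.2.1 (digit_bound hM)
  induction c with
  | zero =>
    intro g hg
    simp only [giter, Option.some.injEq] at hg
    subst hg
    refine ⟨⟨by simp, by simp⟩, ?_, by simp, ?_⟩
    · show 0 < modeCount M
      unfold modeCount
      have := hM.1
      omega
    · intro x hx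
      exact lt_of_lt_of_le (hw x hx) (digit_bound hM)
  | succ c ih =>
    intro g' hg'
    rw [giter_succ_right] at hg'
    cases hgc : giter (tableOf M) c (0, [], w) with
    | none => rw [hgc] at hg'; cases hg'
    | some g =>
      rw [hgc] at hg'
      have hstep : gstep (tableOf M) g = some g' := hg'
      obtain ⟨h1, h2⟩ := ih g hgc
      have hq : g.1 / 4 < M.numStates := by
        have := h2.1
        change g.1 < modeCount M at this
        unfold modeCount at this
        omega
      refine ⟨inv_step hM hq h1 h2.2.1 h2.2.2 hstep, ?_⟩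
      exact (period_some (T := tblOf M) hTS hD h2 (inv_not_stuck h1) hstep).2

/-- The theorem of the combinatorial part: the path of the program of shears of `M` meets the set
`haltSet` exactly when `M` halts. -/
theorem path_mem_iff (hM : M.WF) (w : List ℕ) (hw : M.ValidInput w) :
    (∃ t, 0 ≤ t ∧ path (tblOf M).shearAt ((tblOf M).L + 1)
        (castP ((tblOf M).pt (0, [], w))) t ∈ haltSet) ↔ M.Halts w := by
  have hTS : TableSpec (tblOf M).Mc (tblOf M).D (tblOf M).tr := tableOf_spec M hM
  have hD : 0 < (tblOf M).D := lt_of_lt_of_le hM.2.1 (digit_bound hM)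
  have hMc : 0 < (tblOf M).Mc := by
    show 0 < modeCount M
    unfold modeCount
    have := hM.1
    omega
  have hNS : ∀ c g, giter (tblOf M).tr c (0, [], w) = some g →
      (tblOf M).tr g.1 (topDigit g) ≠ Outcome.stuck :=
    fun c g hg => inv_not_stuck (run_inv hM w hw c g hg).1
  have hg₀ : (tblOf M).ValidCfg (0, [], w) := by
    obtain ⟨-, h⟩ := run_inv hM w hw 0 (0, [], w) (by simp [giter])
    exact h
  rw [halts_iff_giter M hM w hw]
  constructor
  · rintro ⟨t, ht, hmem⟩
    by_contra hno
    push_neg at hno
    have hrange := orbit_range hTS hMc hD hg₀ hNS hno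
    have hheight : ∀ n, (0 : ℝ) ≤ orbit (tblOf M).shearAt ((tblOf M).L + 1)
        (castP ((tblOf M).pt (0, [], w))) n 2 ∧
        orbit (tblOf M).shearAt ((tblOf M).L + 1) (castP ((tblOf M).pt (0, [], w))) n 2 ≤ 1 / 2 := by
      intro n
      obtain ⟨r, hr, he⟩ := hrange n
      rw [he]
      have h2 := hr.2.2
      constructor
      · have : (0 : ℚ) ≤ r 2 := by linarith [h2.1]
        simpa [castP] using this
      · have : r 2 ≤ 1 / 2 := h2.2
        have : ((r 2 : ℚ) : ℝ) ≤ ((1 / 2 : ℚ) : ℝ) := by exact_mod_cast this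
        simpa [castP] using this
    by_cases ht1 : t < 1
    · have h3 : path (tblOf M).shearAt ((tblOf M).L + 1) (castP ((tblOf M).pt (0, [], w))) t 2
          = sig t * castP ((tblOf M).pt (0, [], w)) 2 := by
        unfold path
        rw [if_pos ht1]
      have h0 := hheight 0
      have h00 : orbit (tblOf M).shearAt ((tblOf M).L + 1) (castP ((tblOf M).pt (0, [], w))) 0
          = castP ((tblOf M).pt (0, [], w)) := rfl
      rw [h00] at h0
      apply not_mem_haltSet _ _ hmem
      · rw [h3]
        exact mul_nonneg (sig_nonneg t) h0.1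
      · rw [h3]
        have := mul_le_of_le_one_left h0.1 (sig_le_one t)
        linarith [h0.2]
    · have := path_height (sh := (tblOf M).shearAt) (P := (tblOf M).L + 1)
        (v := castP ((tblOf M).pt (0, [], w))) (t := t) (not_lt.1 ht1) hheight
      exact not_mem_haltSet this.1 this.2 hmem
  · rintro ⟨c, hc⟩
    obtain ⟨n, hn⟩ := orbit_halt hTS hMc hD hg₀ hNS hc
    refine ⟨1 + (n : ℝ), by positivity, ?_⟩
    rw [path_at]
    exact mem_haltSet hn

end Vale.Agent.Lib.P113
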