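import Vale.Agent.Lib.P113.ForceEff
import Vale.Agent.Lib.P113.Halting

/-!
The force programs of the table of a machine: a computable compiler from the primitive recursive
description of the shears.
-/

namespace Vale.Agent.Lib.P113

open Tbl

theorem exists_compile_of (ν : ℝ) (hν : IsComputableReal ν)
    (hsh : ShearPrim fun a : Machine × ℕ => (tblOf a.1).shearAt a.2)
    (hL : Primrec fun M : Machine => (tblOf M).L)
    (hpt : ∀ j : Fin 3, RatPrim fun a : Machine × List ℕ => (tblOf a.1).pt (0, [], a.2) j) :
    ∃ compile : Machine × List ℕ → Nat.Partrec.Code, Computable compile ∧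
      ∀ M w, M.WF → M.ValidInput w →
        IsForceProgram (compile (M, w))
          (force ν (tblOf M).shearAt (tblOf M).L (castP ((tblOf M).pt (0, [], w)))) := by
  have hsh' : ShearPrim fun a : (Machine × List ℕ) × ℕ => (tblOf a.1.1).shearAt a.2 :=
    hsh.comp ((Primrec.fst.comp Primrec.fst).pair Primrec.snd)
  have hL' : Primrec fun b : Machine × List ℕ => (tblOf b.1).L := hL.comp Primrec.fst
  obtain ⟨compile, hc, h⟩ := exists_force_compiler (β := Machine × List ℕ) hν
    (sh := fun b k => (tblOf b.1).shearAt k) (L := fun b => (tblOf b.1).L)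
    (v := fun b => (tblOf b.1).pt (0, [], b.2)) hsh' hL' hpt
  refine ⟨compile, hc, fun M w hM _ => ?_⟩
  have hgood : ∀ k < (tblOf M).L, ((tblOf M).shearAt k).Good := by
    intro k _
    have hD : 0 < digitCount M := lt_of_lt_of_le hM.2.1 (digit_bound hM)
    have hMc : 0 < modeCount M := by
      unfold modeCount
      have := hM.1
      omega
    exact shearAt_good (T := tblOf M) (tableOf_spec M hM) hMc hD k
  exact h (M, w) hgood

end Vale.Agent.Lib.P113
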