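import Vale.Agent.Lib.P113.Pulse

/-!
The pulsed shear flows of `Pulse.lean`: smoothness, the equations with zero pressure, the explicit
trajectories.
-/

open Set
open scoped ContDiff

namespace Vale.Agent.Lib.P113

namespace FlowAux

/-! ### Reduction modulo a period -/

lemma pc_eq_of {P t τ : ℝ} {m : ℤ} (hP : 0 < P) (h : t = τ + P * m) (h0 : 0 ≤ τ) (h1 : τ < P) :
    pc P t = τ := by
  have hfl : ⌊t / P⌋ = m := by
    rw [Int.floor_eq_iff]
    have e : t / P = τ / P + m := by
      rw [h]
      field_simp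
    rw [e]
    have h2 : 0 ≤ τ / P := div_nonneg h0 hP.le
    have h3 : τ / P < 1 := (div_lt_one hP).mpr h1
    constructor <;> linarith
  unfold pc
  rw [hfl, h]
  ring

lemma pc_mem {P : ℝ} (hP : 0 < P) (t : ℝ) : 0 ≤ pc P t ∧ pc P t < P := by
  unfold pc
  have h1 := Int.floor_le (t / P)
  have h2 := Int.lt_floor_add_one (t / P)
  have h3 : t = (t / P) * P := by field_simp
  constructor
  · have : P * (⌊t / P⌋ : ℝ) ≤ P * (t / P) := mul_le_mul_of_nonneg_left h1 hP.le
    have h4 : P * (t / P) = t := by field_simp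
    linarith
  · have : P * (t / P) < P * ((⌊t / P⌋ : ℝ) + 1) := mul_lt_mul_of_pos_left h2 hP
    have h4 : P * (t / P) = t := by field_simp
    nlinarith

lemma pc_add_period {P : ℝ} (hP : 0 < P) (t : ℝ) : pc P (t + P) = pc P t := by
  have h := pc_mem hP t
  refine pc_eq_of (m := ⌊t / P⌋ + 1) hP ?_ h.1 h.2
  unfold pc
  push_cast
  ring

lemma pc_add_int {P : ℝ} (hP : 0 < P) (t : ℝ) (n : ℤ) : pc P (t + P * n) = pc P t := by
  have h := pc_mem hP t
  refine pc_eq_of (m := ⌊t / P⌋ + n) hP ?_ h.1 h.2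
  unfold pc
  push_cast
  ring

/-- Near any point, a function vanishing near the ends of the period, composed with the
reduction modulo the period, is a translate of the function. -/
lemma comp_pc_eventuallyEq {g : ℝ → ℝ} {P c d : ℝ} (hP : 0 < P) (hc : 0 ≤ c) (hd : d < P)
    (hg0 : ∀ y ≤ c, g y = 0) (hg1 : ∀ y, d ≤ y → g y = 0) (t₀ : ℝ) :
    (fun t => g (pc P t)) =ᶠ[nhds t₀] fun t => g (t - P * (⌊t₀ / P⌋ : ℝ)) := by
  set m : ℤ := ⌊t₀ / P⌋ with hm
  have h₀ := pc_mem hP t₀
  have hτ : pc P t₀ = t₀ - P * (m : ℝ) := rfl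
  set ε := min (P - pc P t₀) (P - d) with hε
  have hε0 : 0 < ε := lt_min (by linarith [h₀.2]) (by linarith)
  filter_upwards [Metric.ball_mem_nhds t₀ hε0] with t ht
  rw [Metric.mem_ball, Real.dist_eq, abs_lt] at ht
  have h1 : ε ≤ P - pc P t₀ := min_le_left _ _
  have h2 : ε ≤ P - d := min_le_right _ _
  by_cases hpos : 0 ≤ t - P * (m : ℝ)
  · have : pc P t = t - P * (m : ℝ) := pc_eq_of (m := m) hP (by ring) hpos (by linarith [ht.2])
    rw [this]
  · push Not at hpos
    have h3 : pc P t = t - P * (m : ℝ) + P :=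
      pc_eq_of (m := m - 1) hP (by push_cast; ring) (by linarith [ht.1, h₀.1]) (by linarith)
    rw [h3, hg1 _ (by linarith [ht.1, h₀.1]), hg0 _ (by linarith)]

lemma contDiff_comp_pc {g : ℝ → ℝ} {P c d : ℝ} (hP : 0 < P) (hc : 0 ≤ c) (hd : d < P)
    (hg0 : ∀ y ≤ c, g y = 0) (hg1 : ∀ y, d ≤ y → g y = 0) (hg : ContDiff ℝ ∞ g) :
    ContDiff ℝ ∞ (fun t => g (pc P t)) := by
  rw [contDiff_iff_contDiffAt]
  intro t₀
  refine ContDiffAt.congr_of_eventuallyEq ?_ (comp_pc_eventuallyEq hP hc hd hg0 hg1 t₀)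
  exact (hg.comp (contDiff_id.sub contDiff_const)).contDiffAt

lemma iteratedDeriv_comp_pc {g : ℝ → ℝ} {P c d : ℝ} (hP : 0 < P) (hc : 0 ≤ c) (hd : d < P)
    (hg0 : ∀ y ≤ c, g y = 0) (hg1 : ∀ y, d ≤ y → g y = 0) (n : ℕ) (t₀ : ℝ) :
    iteratedDeriv n (fun t => g (pc P t)) t₀ = iteratedDeriv n g (pc P t₀) := by
  rw [(comp_pc_eventuallyEq hP hc hd hg0 hg1 t₀).iteratedDeriv_eq n, iteratedDeriv_comp_sub_const]
  rfl

/-! ### The time profile -/

lemma deriv_eq_zero_of_const_Iic {f : ℝ → ℝ} (hf : Continuous (deriv f)) {a c : ℝ}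
    (h : ∀ t ≤ a, f t = c) : ∀ t ≤ a, deriv f t = 0 := by
  have h1 : ∀ t ∈ Iio a, deriv f t = 0 := by
    intro t ht
    have : f =ᶠ[nhds t] fun _ => c := by
      filter_upwards [Iio_mem_nhds ht] with y hy
      exact h y (le_of_lt hy)
    rw [this.deriv_eq]
    simp
  have hcl : IsClosed {t | deriv f t = 0} := isClosed_eq hf continuous_const
  have hsub : closure (Iio a) ⊆ {t | deriv f t = 0} := hcl.closure_subset_iff.mpr h1
  rw [closure_Iio] at hsub
  intro t ht
  exact hsub ht

lemma deriv_eq_zero_of_const_Ici {f : ℝ → ℝ} (hf : Continuous (deriv f)) {a c : ℝ}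
    (h : ∀ t, a ≤ t → f t = c) : ∀ t, a ≤ t → deriv f t = 0 := by
  have h1 : ∀ t ∈ Ioi a, deriv f t = 0 := by
    intro t ht
    have : f =ᶠ[nhds t] fun _ => c := by
      filter_upwards [Ioi_mem_nhds ht] with y hy
      exact h y (le_of_lt hy)
    rw [this.deriv_eq]
    simp
  have hcl : IsClosed {t | deriv f t = 0} := isClosed_eq hf continuous_const
  have hsub : closure (Ioi a) ⊆ {t | deriv f t = 0} := hcl.closure_subset_iff.mpr h1
  rw [closure_Ioi] at hsub
  intro t ht
  exact hsub ht

lemma contDiff_stp : ContDiff ℝ ∞ stp := Real.smoothTransition.contDiff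

lemma contDiff_sig : ContDiff ℝ ∞ sig := by
  unfold sig
  exact contDiff_stp.comp ((contDiff_const.mul contDiff_id).sub contDiff_const)

lemma contDiff_deriv_of {f : ℝ → ℝ} (hf : ContDiff ℝ ∞ f) : ContDiff ℝ ∞ (deriv f) :=
  (contDiff_infty_iff_deriv.mp hf).2

lemma contDiff_chi : ContDiff ℝ ∞ chi := contDiff_deriv_of contDiff_sig

lemma contDiff_deriv_chi : ContDiff ℝ ∞ (deriv chi) := contDiff_deriv_of contDiff_chi

lemma sig_of_le {s : ℝ} (hs : s ≤ 1 / 4) : sig s = 0 := by
  unfold sig stp
  exact Real.smoothTransition.zero_of_nonpos (by linarith)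

lemma sig_of_ge {s : ℝ} (hs : 1 / 2 ≤ s) : sig s = 1 := by
  unfold sig stp
  exact Real.smoothTransition.one_of_one_le (by linarith)

lemma sig_mem (s : ℝ) : 0 ≤ sig s ∧ sig s ≤ 1 :=
  ⟨Real.smoothTransition.nonneg _, Real.smoothTransition.le_one _⟩

lemma chi_of_le {s : ℝ} (hs : s ≤ 1 / 4) : chi s = 0 :=
  deriv_eq_zero_of_const_Iic contDiff_chi.continuous (fun _ h => sig_of_le h) s hs

lemma chi_of_ge {s : ℝ} (hs : 1 / 2 ≤ s) : chi s = 0 :=
  deriv_eq_zero_of_const_Ici contDiff_chi.continuous (fun _ h => sig_of_ge h) s hs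

lemma deriv_chi_of_le {s : ℝ} (hs : s ≤ 1 / 4) : deriv chi s = 0 :=
  deriv_eq_zero_of_const_Iic contDiff_deriv_chi.continuous (fun _ h => chi_of_le h) s hs

lemma deriv_chi_of_ge {s : ℝ} (hs : 1 / 2 ≤ s) : deriv chi s = 0 :=
  deriv_eq_zero_of_const_Ici contDiff_deriv_chi.continuous (fun _ h => chi_of_ge h) s hs

lemma hasDerivAt_sig (s : ℝ) : HasDerivAt sig (chi s) s :=
  (contDiff_sig.differentiable (by simp)).differentiableAt.hasDerivAt

/-! ### Windows and their periodizations -/

lemma contDiff_wnd (w : Win) : ContDiff ℝ ∞ (wnd w) := by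
  unfold wnd
  refine ContDiff.sub ?_ ?_
  · exact contDiff_stp.comp ((contDiff_id.sub contDiff_const).div_const _)
  · exact contDiff_stp.comp ((contDiff_id.sub contDiff_const).div_const _)

lemma wnd_of_le {w : Win} (hw : w.Good) {y : ℝ} (h : y ≤ (w.a : ℝ) - w.δ) : wnd w y = 0 := by
  obtain ⟨hδ, hab, -, -⟩ := hw
  have hδ' : (0 : ℝ) < w.δ := by exact_mod_cast hδ
  have hab' : (w.a : ℝ) ≤ w.b := by exact_mod_cast hab
  unfold wnd stp
  rw [Real.smoothTransition.zero_of_nonpos, Real.smoothTransition.zero_of_nonpos]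
  · simp
  · exact div_nonpos_of_nonpos_of_nonneg (by linarith) hδ'.le
  · exact div_nonpos_of_nonpos_of_nonneg (by linarith) hδ'.le

lemma wnd_of_ge {w : Win} (hw : w.Good) {y : ℝ} (h : (w.b : ℝ) + w.δ ≤ y) : wnd w y = 0 := by
  obtain ⟨hδ, hab, -, -⟩ := hw
  have hδ' : (0 : ℝ) < w.δ := by exact_mod_cast hδ
  have hab' : (w.a : ℝ) ≤ w.b := by exact_mod_cast hab
  unfold wnd stp
  rw [Real.smoothTransition.one_of_one_le, Real.smoothTransition.one_of_one_le]
  · simp
  · rw [le_div_iff₀ hδ']
    linarith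
  · rw [le_div_iff₀ hδ']
    linarith

lemma win_bounds {w : Win} (hw : w.Good) :
    (0 : ℝ) ≤ (w.a : ℝ) - w.δ ∧ (w.b : ℝ) + w.δ < 1 := by
  obtain ⟨-, -, h1, h2⟩ := hw
  constructor
  · exact_mod_cast h1.le
  · exact_mod_cast h2

lemma contDiff_fac₁ (s : Shear) : ContDiff ℝ ∞ (fac₁ s) := contDiff_wnd _

lemma contDiff_fac₂ (s : Shear) : ContDiff ℝ ∞ (fac₂ s) :=
  ((contDiff_const.mul contDiff_id).add contDiff_const).mul (contDiff_wnd _)

lemma contDiff_per₁ {s : Shear} (hs : s.Good) : ContDiff ℝ ∞ (per₁ s) :=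
  contDiff_comp_pc one_pos (win_bounds hs.2.2.2.1).1 (win_bounds hs.2.2.2.1).2
    (fun _ h => wnd_of_le hs.2.2.2.1 h) (fun _ h => wnd_of_ge hs.2.2.2.1 h) (contDiff_fac₁ s)

lemma fac₂_of_le {s : Shear} (hs : s.Good) {y : ℝ} (h : y ≤ (s.w₂.a : ℝ) - s.w₂.δ) : fac₂ s y = 0 := by
  unfold fac₂
  rw [wnd_of_le hs.2.2.2.2 h, mul_zero]

lemma fac₂_of_ge {s : Shear} (hs : s.Good) {y : ℝ} (h : (s.w₂.b : ℝ) + s.w₂.δ ≤ y) :
    fac₂ s y = 0 := by
  unfold fac₂
  rw [wnd_of_ge hs.2.2.2.2 h, mul_zero]

lemma contDiff_per₂ {s : Shear} (hs : s.Good) : ContDiff ℝ ∞ (per₂ s) :=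
  contDiff_comp_pc one_pos (win_bounds hs.2.2.2.2).1 (win_bounds hs.2.2.2.2).2
    (fun _ h => fac₂_of_le hs h) (fun _ h => fac₂_of_ge hs h) (contDiff_fac₂ s)

end FlowAux

open FlowAux

/-- Derivatives of the periodization of the first factor. -/
theorem iteratedDeriv_per₁ {s : Shear} (hs : s.Good) (n : ℕ) (y : ℝ) :
    iteratedDeriv n (per₁ s) y = iteratedDeriv n (fac₁ s) (pc 1 y) :=
  iteratedDeriv_comp_pc one_pos (win_bounds hs.2.2.2.1).1 (win_bounds hs.2.2.2.1).2
    (fun _ h => wnd_of_le hs.2.2.2.1 h) (fun _ h => wnd_of_ge hs.2.2.2.1 h) n y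

/-- Derivatives of the periodization of the second factor. -/
theorem iteratedDeriv_per₂ {s : Shear} (hs : s.Good) (n : ℕ) (y : ℝ) :
    iteratedDeriv n (per₂ s) y = iteratedDeriv n (fac₂ s) (pc 1 y) :=
  iteratedDeriv_comp_pc one_pos (win_bounds hs.2.2.2.2).1 (win_bounds hs.2.2.2.2).2
    (fun _ h => fac₂_of_le hs h) (fun _ h => fac₂_of_ge hs h) n y

namespace FlowAux

/-! ### Pulses -/

lemma period_pos (L : ℕ) : (0 : ℝ) < (L : ℝ) + 1 := by positivity

lemma contDiff_pulse (L k : ℕ) : ContDiff ℝ ∞ (pulse L k) := by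
  have h1 : ContDiff ℝ ∞ (fun t => chi (pc ((L : ℝ) + 1) t)) := by
    refine contDiff_comp_pc (c := 1 / 4) (d := 1 / 2) (period_pos L) (by norm_num) ?_
      (fun _ h => chi_of_le h) (fun _ h => chi_of_ge h) contDiff_chi
    have : (0 : ℝ) ≤ L := Nat.cast_nonneg L
    linarith
  unfold pulse
  have h2 : ContDiff ℝ ∞ (fun t : ℝ => t - 1 - (k : ℝ)) :=
    (contDiff_id.sub contDiff_const).sub contDiff_const
  exact h1.comp h2

lemma contDiff_deriv_pulse (L k : ℕ) : ContDiff ℝ ∞ (deriv (pulse L k)) :=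
  contDiff_deriv_of (contDiff_pulse L k)

lemma pulse_add_period (L k : ℕ) (t : ℝ) : pulse L k (t + ((L : ℝ) + 1)) = pulse L k t := by
  unfold pulse
  have : t + ((L : ℝ) + 1) - 1 - (k : ℝ) = (t - 1 - k) + ((L : ℝ) + 1) := by ring
  rw [this, pc_add_period (period_pos L)]

lemma deriv_pulse_add_period (L k : ℕ) (t : ℝ) :
    deriv (pulse L k) (t + ((L : ℝ) + 1)) = deriv (pulse L k) t := by
  have h : (fun s => pulse L k (s + ((L : ℝ) + 1))) = pulse L k :=
    funext fun s => pulse_add_period L k s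
  have h2 := deriv_comp_add_const (pulse L k) ((L : ℝ) + 1) t
  rw [h] at h2
  exact h2.symm

/-- The profile of a pulse during a slot. -/
lemma pulse_slot {L k n : ℕ} (hk : k ≤ L) {s : ℝ} (h1 : (n : ℝ) + 1 ≤ s) (h2 : s < (n : ℝ) + 2) :
    pulse L k s = if n % (L + 1) = k then chi (s - 1 - n) else 0 := by
  unfold pulse
  have hP := period_pos L
  have hL : (0 : ℝ) ≤ L := Nat.cast_nonneg L
  have hkL : (k : ℝ) ≤ L := by exact_mod_cast hk
  have hdiv : (n : ℝ) = ((L : ℝ) + 1) * ((n / (L + 1) : ℕ) : ℝ) + ((n % (L + 1) : ℕ) : ℝ) := by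
    have := Nat.div_add_mod n (L + 1)
    exact_mod_cast this.symm
  set q := n / (L + 1) with hq
  set r := n % (L + 1) with hr
  have hrL : r ≤ L := by
    have : r < L + 1 := Nat.mod_lt _ (by omega)
    omega
  have hrL' : (r : ℝ) ≤ L := by exact_mod_cast hrL
  have hr0 : (0 : ℝ) ≤ r := Nat.cast_nonneg r
  rcases lt_trichotomy r k with hlt | heq | hgt
  · -- the slot has not come yet in this period
    rw [if_neg (by omega)]
    have hlt' : (r : ℝ) + 1 ≤ k := by exact_mod_cast hlt
    have hpc : pc ((L : ℝ) + 1) (s - 1 - k) = s - 1 - n + r - k + ((L : ℝ) + 1) :=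
      pc_eq_of (m := (q : ℤ) - 1) hP (by rw [hdiv]; push_cast; ring) (by linarith) (by linarith)
    rw [hpc]
    exact chi_of_ge (by linarith)
  · rw [if_pos heq]
    congr 1
    refine pc_eq_of (m := (q : ℤ)) hP ?_ (by linarith) (by linarith)
    rw [hdiv, ← heq]
    push_cast
    ring
  · rw [if_neg (by omega)]
    have hgt' : (k : ℝ) + 1 ≤ r := by exact_mod_cast hgt
    have hpc : pc ((L : ℝ) + 1) (s - 1 - k) = s - 1 - n + r - k :=
      pc_eq_of (m := (q : ℤ)) hP (by rw [hdiv]; push_cast; ring) (by linarith) (by linarith)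
    rw [hpc]
    exact chi_of_ge (by linarith)

/-- No pulse during the kick. -/
lemma pulse_kick {L k : ℕ} (hk : k < L) {s : ℝ} (h1 : 0 ≤ s) (h2 : s < 1) : pulse L k s = 0 := by
  unfold pulse
  have hP := period_pos L
  have hk' : (k : ℝ) + 1 ≤ L := by exact_mod_cast hk
  have hk0 : (0 : ℝ) ≤ k := Nat.cast_nonneg k
  have hpc : pc ((L : ℝ) + 1) (s - 1 - k) = s - 1 - k + ((L : ℝ) + 1) :=
    pc_eq_of (m := -1) hP (by push_cast; ring) (by linarith) (by linarith)
  rw [hpc]
  exact chi_of_ge (by linarith)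

/-- Every time after the kick lies in a slot. -/
lemma exists_slot {t : ℝ} (ht : 1 ≤ t) : ∃ n : ℕ, (n : ℝ) + 1 ≤ t ∧ t < (n : ℝ) + 2 := by
  have h0 : 0 ≤ t - 1 := by linarith
  refine ⟨⌊t - 1⌋₊, ?_, ?_⟩
  · have := Nat.floor_le h0
    linarith
  · have := Nat.lt_floor_add_one (t - 1)
    linarith

/-- At each time at most one pulse is active, and not during the kick. -/
lemma time_cases (L : ℕ) {t : ℝ} (ht : 0 ≤ t) :
    (∀ k < L, pulse L k t = 0) ∨ (∃ r < L, chi t = 0 ∧ ∀ k < L, k ≠ r → pulse L k t = 0) := by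
  rcases lt_or_ge t 1 with h1 | h1
  · exact Or.inl fun k hk => pulse_kick hk ht h1
  · obtain ⟨n, hn1, hn2⟩ := exists_slot h1
    by_cases hr : n % (L + 1) < L
    · refine Or.inr ⟨_, hr, chi_of_ge (by linarith), fun k hk hne => ?_⟩
      rw [pulse_slot (le_of_lt hk) hn1 hn2, if_neg (Ne.symm hne)]
    · refine Or.inl fun k hk => ?_
      rw [pulse_slot (le_of_lt hk) hn1 hn2, if_neg (by omega)]

/-! ### Derivatives of products of functions of two coordinates -/

lemma pd_prod {f g : ℝ → ℝ} (hf : Differentiable ℝ f) (hg : Differentiable ℝ g) (p q m : Fin 3)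
    (x : E3) :
    pd m (fun x : E3 => f (x p) * g (x q)) x =
      (if m = p then deriv f (x p) * g (x q) else 0) +
        (if m = q then f (x p) * deriv g (x q) else 0) := by
  have hp : HasFDerivAt (fun y : E3 => f (y p))
      (deriv f (x p) • (ContinuousLinearMap.proj p : E3 →L[ℝ] ℝ)) x :=
    (hf (x p)).hasDerivAt.comp_hasFDerivAt x (hasFDerivAt_apply p x)
  have hq : HasFDerivAt (fun y : E3 => g (y q))
      (deriv g (x q) • (ContinuousLinearMap.proj q : E3 →L[ℝ] ℝ)) x :=
    (hg (x q)).hasDerivAt.comp_hasFDerivAt x (hasFDerivAt_apply q x)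
  have h3 : HasFDerivAt (fun y : E3 => f (y p) * g (y q)) _ x := hp.mul hq
  unfold pd
  rw [h3.fderiv]
  simp only [add_apply, smul_apply,
    ContinuousLinearMap.proj_apply, smul_eq_mul, unitVec, Pi.single_apply]
  by_cases h1 : m = p
  · by_cases h2 : m = q
    · subst h1
      subst h2
      simp
      ring
    · subst h1
      simp [h2, Ne.symm h2]
      ring
  · by_cases h2 : m = q
    · subst h2
      simp [h1, Ne.symm h1]
    · simp [h1, h2, Ne.symm h1, Ne.symm h2]

/-! ### The amplitudes of the shears -/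

lemma contDiff_coord (j : Fin 3) : ContDiff ℝ ∞ (fun x : E3 => x j) := contDiff_apply ℝ ℝ j

lemma contDiff_shearG {s : Shear} (hs : s.Good) : ContDiff ℝ ∞ (shearG s) :=
  ((contDiff_per₁ hs).comp (contDiff_coord s.p)).mul ((contDiff_per₂ hs).comp (contDiff_coord s.q))

lemma contDiff_iteratedDeriv_of {f : ℝ → ℝ} (hf : ContDiff ℝ ∞ f) (n : ℕ) :
    ContDiff ℝ ∞ (iteratedDeriv n f) := by
  rw [iteratedDeriv_eq_iterate]
  exact ContDiff.iterate_deriv n hf

lemma contDiff_shearLap {s : Shear} (hs : s.Good) : ContDiff ℝ ∞ (shearLap s) := by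
  unfold shearLap
  refine ContDiff.add ?_ ?_
  · exact ((contDiff_iteratedDeriv_of (contDiff_per₁ hs) 2).comp (contDiff_coord s.p)).mul
      ((contDiff_per₂ hs).comp (contDiff_coord s.q))
  · exact ((contDiff_per₁ hs).comp (contDiff_coord s.p)).mul
      ((contDiff_iteratedDeriv_of (contDiff_per₂ hs) 2).comp (contDiff_coord s.q))

lemma pc_one_add_int' (y : ℝ) (n : ℤ) : pc 1 (y + n) = pc 1 y := by
  have := pc_add_int (P := 1) one_pos y n
  simpa using this

lemma per₁_add_int (s : Shear) (y : ℝ) (n : ℤ) : per₁ s (y + n) = per₁ s y := by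
  unfold per₁
  rw [pc_one_add_int']

lemma per₂_add_int (s : Shear) (y : ℝ) (n : ℤ) : per₂ s (y + n) = per₂ s y := by
  unfold per₂
  rw [pc_one_add_int']

lemma iteratedDeriv_add_int {f : ℝ → ℝ} (hf : ∀ (y : ℝ) (n : ℤ), f (y + n) = f y) (k : ℕ) (y : ℝ)
    (n : ℤ) : iteratedDeriv k f (y + n) = iteratedDeriv k f y := by
  have h : (fun z => f (z + (n : ℝ))) = f := funext fun z => hf z n
  have h2 := congrFun (iteratedDeriv_comp_add_const k f (n : ℝ)) y
  simp only [h] at h2
  exact h2.symm

lemma shearG_periodic (s : Shear) : ZPeriodic (shearG s) := by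
  intro n x
  unfold shearG
  simp only
  rw [per₁_add_int, per₂_add_int]

lemma shearLap_periodic (s : Shear) : ZPeriodic (shearLap s) := by
  intro n x
  unfold shearLap
  simp only
  rw [per₁_add_int, per₂_add_int, iteratedDeriv_add_int (per₁_add_int s),
    iteratedDeriv_add_int (per₂_add_int s)]

lemma shearG_congr (s : Shear) {x y : E3} (hp : x s.p = y s.p) (hq : x s.q = y s.q) :
    shearG s x = shearG s y := by
  unfold shearG
  rw [hp, hq]

lemma pd_shearG {s : Shear} (hs : s.Good) (m : Fin 3) (x : E3) :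
    pd m (shearG s) x =
      (if m = s.p then deriv (per₁ s) (x s.p) * per₂ s (x s.q) else 0) +
        (if m = s.q then per₁ s (x s.p) * deriv (per₂ s) (x s.q) else 0) :=
  pd_prod ((contDiff_per₁ hs).differentiable (by simp)) ((contDiff_per₂ hs).differentiable (by simp))
    s.p s.q m x

lemma pd_shearG_i {s : Shear} (hs : s.Good) (x : E3) : pd s.i (shearG s) x = 0 := by
  rw [pd_shearG hs, if_neg hs.1, if_neg hs.2.1, add_zero]

lemma pd_pd_shearG {s : Shear} (hs : s.Good) (m : Fin 3) (x : E3) :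
    pd m (pd m (shearG s)) x =
      (if m = s.p then iteratedDeriv 2 (per₁ s) (x s.p) * per₂ s (x s.q) else 0) +
        (if m = s.q then per₁ s (x s.p) * iteratedDeriv 2 (per₂ s) (x s.q) else 0) := by
  have h1 := (contDiff_per₁ hs).differentiable (by simp)
  have h2 := (contDiff_per₂ hs).differentiable (by simp)
  have h1' : Differentiable ℝ (deriv (per₁ s)) :=
    (contDiff_deriv_of (contDiff_per₁ hs)).differentiable (by simp)
  have h2' : Differentiable ℝ (deriv (per₂ s)) :=
    (contDiff_deriv_of (contDiff_per₂ hs)).differentiable (by simp)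
  have hp := hs.2.2.1
  have e1 : iteratedDeriv 2 (per₁ s) = deriv (deriv (per₁ s)) := by
    simp [iteratedDeriv_succ]
  have e2 : iteratedDeriv 2 (per₂ s) = deriv (deriv (per₂ s)) := by
    simp [iteratedDeriv_succ]
  rw [e1, e2]
  have hf : pd m (shearG s) = fun x =>
      (if m = s.p then deriv (per₁ s) (x s.p) * per₂ s (x s.q) else 0) +
        (if m = s.q then per₁ s (x s.p) * deriv (per₂ s) (x s.q) else 0) :=
    funext fun x => pd_shearG hs m x
  rw [hf]
  by_cases hmp : m = s.p
  · have hmq : m ≠ s.q := fun h => hp (hmp.symm.trans h)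
    simp only [hmp, if_true, if_neg (hmp ▸ hmq), add_zero]
    rw [pd_prod h1' h2 s.p s.q s.p x]
    simp [hp]
  · by_cases hmq : m = s.q
    · simp only [hmq, if_true, if_neg (hmq ▸ hmp), zero_add]
      rw [pd_prod h1 h2' s.p s.q s.q x]
      simp [Ne.symm hp]
    · simp only [if_neg hmp, if_neg hmq, add_zero]
      simp [pd]

lemma sum_pd_pd_shearG {s : Shear} (hs : s.Good) (x : E3) :
    ∑ m, pd m (pd m (shearG s)) x = shearLap s x := by
  simp only [pd_pd_shearG hs, Finset.sum_add_distrib, Finset.sum_ite_eq', Finset.mem_univ, if_true]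
  rfl

/-- Differentiation in space of the sums occurring in the velocity. -/
lemma pd_sum_form {L : ℕ} {A : ℝ} {c : ℕ → Prop} [DecidablePred c] {a : ℕ → ℝ} {G : ℕ → E3 → ℝ}
    (hG : ∀ k < L, Differentiable ℝ (G k)) (m : Fin 3) (x : E3) :
    pd m (fun y => A + ∑ k ∈ Finset.range L, if c k then a k * G k y else 0) x =
      ∑ k ∈ Finset.range L, if c k then a k * pd m (G k) x else 0 := by
  have hk : ∀ k ∈ Finset.range L, HasFDerivAt (fun y => if c k then a k * G k y else 0)
      (if c k then a k • fderiv ℝ (G k) x else 0) x := by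
    intro k hk
    by_cases hc : c k
    · simp only [hc, if_true]
      exact ((hG k (Finset.mem_range.mp hk)) x).hasFDerivAt.const_mul (a k)
    · simp only [hc, if_false]
      exact hasFDerivAt_const _ _
  have h := (HasFDerivAt.fun_sum hk).const_add A
  unfold pd
  rw [h.fderiv, sum_apply]
  refine Finset.sum_congr rfl fun k _ => ?_
  by_cases hc : c k <;> simp [hc]

end FlowAux

section velocity

variable {sh : ℕ → Shear} {L : ℕ} {v : E3} {ν : ℝ}

/-- A time factor times a function of the position. -/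
private lemma contDiff_term {a : ℝ → ℝ} (ha : ContDiff ℝ ∞ a) {G : E3 → ℝ} (hG : ContDiff ℝ ∞ G) :
    ContDiff ℝ ∞ (fun z : ℝ × E3 => a z.1 * G z.2) :=
  (ha.comp contDiff_fst).mul (hG.comp contDiff_snd)

theorem contDiff_velocity (hG : ∀ k < L, (sh k).Good) :
    ContDiff ℝ ∞ (fun z : ℝ × E3 => velocity sh L v z.1 z.2) := by
  rw [contDiff_pi]
  intro j
  unfold velocity
  refine ContDiff.add (contDiff_term contDiff_chi contDiff_const) ?_
  refine ContDiff.sum fun k hk => ?_
  by_cases hc : (sh k).i = j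
  · simp only [hc, if_true]
    exact contDiff_term (contDiff_pulse L k) (contDiff_shearG (hG k (Finset.mem_range.mp hk)))
  · simp only [hc, if_false]
    exact contDiff_const

theorem contDiff_force (hG : ∀ k < L, (sh k).Good) :
    ContDiff ℝ ∞ (fun z : ℝ × E3 => force ν sh L v z.1 z.2) := by
  rw [contDiff_pi]
  intro j
  unfold force
  refine ContDiff.add (contDiff_term contDiff_deriv_chi contDiff_const) ?_
  refine ContDiff.sum fun k hk => ?_
  by_cases hc : (sh k).i = j
  · simp only [hc, if_true]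
    have hk' := hG k (Finset.mem_range.mp hk)
    exact (contDiff_term (contDiff_deriv_pulse L k) (contDiff_shearG hk')).sub
      (contDiff_const.mul (contDiff_term (contDiff_pulse L k) (contDiff_shearLap hk')))
  · simp only [hc, if_false]
    exact contDiff_const

theorem periodic_force (_hG : ∀ k < L, (sh k).Good) (t : ℝ) : ZPeriodic (force ν sh L v t) := by
  intro n x
  funext j
  unfold force
  simp only [shearG_periodic _ n x, shearLap_periodic _ n x]

theorem periodic_velocity (_hG : ∀ k < L, (sh k).Good) (t : ℝ) :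
    ZPeriodic (velocity sh L v t) := by
  intro n x
  funext j
  unfold velocity
  simp only [shearG_periodic _ n x]

theorem force_tail_periodic (_hG : ∀ k < L, (sh k).Good) {t : ℝ} (ht : 1 ≤ t) (x : E3) :
    force ν sh L v (t + ((L : ℝ) + 1)) x = force ν sh L v t x := by
  have hL : (0 : ℝ) ≤ L := Nat.cast_nonneg L
  funext j
  unfold force
  simp only [pulse_add_period, deriv_pulse_add_period]
  rw [deriv_chi_of_ge (s := t + ((L : ℝ) + 1)) (by linarith), deriv_chi_of_ge (s := t) (by linarith)]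

theorem force_tail_indep (_hG : ∀ k < L, (sh k).Good) {t : ℝ} (ht : 1 ≤ t) (x : E3) (v' : E3) :
    force ν sh L v t x = force ν sh L v' t x := by
  funext j
  unfold force
  rw [deriv_chi_of_ge (s := t) (by linarith)]
  simp

end velocity

section equations

variable {sh : ℕ → Shear} {L : ℕ} {v : E3} {ν : ℝ}

namespace FlowAux

/-- The time derivative of the velocity. -/
noncomputable def velT (sh : ℕ → Shear) (L : ℕ) (v : E3) (t : ℝ) (x : E3) : E3 := fun j =>
  deriv chi t * v j + ∑ k ∈ Finset.range L,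
    if (sh k).i = j then deriv (pulse L k) t * shearG (sh k) x else 0

lemma contDiff_velT (hG : ∀ k < L, (sh k).Good) :
    ContDiff ℝ ∞ (fun z : ℝ × E3 => velT sh L v z.1 z.2) := by
  rw [contDiff_pi]
  intro j
  unfold velT
  refine ContDiff.add
    ((contDiff_deriv_chi.comp contDiff_fst).mul contDiff_const) ?_
  refine ContDiff.sum fun k hk => ?_
  by_cases hc : (sh k).i = j
  · simp only [hc, if_true]
    exact ((contDiff_deriv_pulse L k).comp contDiff_fst).mul
      ((contDiff_shearG (hG k (Finset.mem_range.mp hk))).comp contDiff_snd)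
  · simp only [hc, if_false]
    exact contDiff_const

lemma hasDerivAt_velocity_time (t : ℝ) (x : E3) :
    HasDerivAt (fun s => velocity sh L v s x) (velT sh L v t x) t := by
  rw [hasDerivAt_pi]
  intro j
  unfold velocity velT
  refine HasDerivAt.add ?_ ?_
  · exact (contDiff_chi.differentiable (by simp) t).hasDerivAt.mul_const (v j)
  · refine HasDerivAt.fun_sum fun k _ => ?_
    by_cases hc : (sh k).i = j
    · simp only [hc, if_true]
      exact ((contDiff_pulse L k).differentiable (by simp) t).hasDerivAt.mul_const _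
    · simp only [hc, if_false]
      exact hasDerivAt_const _ _

lemma contDiff_fderiv_joint {F : Type*} [NormedAddCommGroup F] [NormedSpace ℝ F] {u : ℝ → E3 → F}
    (h : ContDiff ℝ ∞ (fun z : ℝ × E3 => u z.1 z.2)) :
    ContDiff ℝ ∞ (fun z : ℝ × E3 => fderiv ℝ (u z.1) z.2) := by
  have h1 : ContDiff ℝ ∞ (Function.uncurry (fun (z : ℝ × E3) (y : E3) => u z.1 y)) := by
    have h2 : ContDiff ℝ ∞ (fun p : (ℝ × E3) × E3 => (p.1.1, p.2)) :=
      (contDiff_fst.comp contDiff_fst).prodMk contDiff_snd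
    exact h.comp h2
  exact ContDiff.fderiv (m := ∞) (n := ∞) h1 contDiff_snd (by simp)

lemma contDiff_section {F : Type*} [NormedAddCommGroup F] [NormedSpace ℝ F] {u : ℝ → E3 → F}
    (h : ContDiff ℝ ∞ (fun z : ℝ × E3 => u z.1 z.2)) (t : ℝ) : ContDiff ℝ ∞ (u t) := by
  have h2 : ContDiff ℝ ∞ (fun y : E3 => (t, y)) := contDiff_const.prodMk contDiff_id
  exact h.comp h2

lemma two_le_infty : (2 : WithTop ℕ∞) ≤ ∞ := by
  norm_cast

lemma contDiff_pd {F : E3 → ℝ} (hF : ContDiff ℝ ∞ F) (j : Fin 3) : ContDiff ℝ ∞ (pd j F) := by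
  unfold pd
  exact (hF.fderiv_right (m := ∞) (by simp)).clm_apply contDiff_const

lemma differentiable_shearG (hG : ∀ k < L, (sh k).Good) :
    ∀ k < L, Differentiable ℝ (shearG (sh k)) := fun k hk =>
  (contDiff_shearG (hG k hk)).differentiable (by simp)

lemma pd_velocity (hG : ∀ k < L, (sh k).Good) (t : ℝ) (j m : Fin 3) (x : E3) :
    pd m (fun y => velocity sh L v t y j) x =
      ∑ k ∈ Finset.range L, if (sh k).i = j then pulse L k t * pd m (shearG (sh k)) x else 0 :=
  pd_sum_form (A := chi t * v j) (c := fun k => (sh k).i = j) (a := fun k => pulse L k t)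
    (G := fun k => shearG (sh k)) (differentiable_shearG hG) m x

lemma pd_pd_velocity (hG : ∀ k < L, (sh k).Good) (t : ℝ) (j m : Fin 3) (x : E3) :
    pd m (pd m (fun y => velocity sh L v t y j)) x =
      ∑ k ∈ Finset.range L,
        if (sh k).i = j then pulse L k t * pd m (pd m (shearG (sh k))) x else 0 := by
  have h : pd m (fun y => velocity sh L v t y j) = fun x => 0 + ∑ k ∈ Finset.range L,
      if (sh k).i = j then pulse L k t * pd m (shearG (sh k)) x else 0 := by
    funext y
    rw [pd_velocity hG, zero_add]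
  rw [h]
  exact pd_sum_form (A := 0) (c := fun k => (sh k).i = j) (a := fun k => pulse L k t)
    (G := fun k => pd m (shearG (sh k)))
    (fun k hk => (contDiff_pd (contDiff_shearG (hG k hk)) m).differentiable (by simp)) m x

lemma sum_single_form {a F : ℕ → ℝ} {c : ℕ → Prop} [DecidablePred c] {r : ℕ} (hr : r < L)
    (h : ∀ k < L, k ≠ r → a k = 0) :
    ∑ k ∈ Finset.range L, (if c k then a k * F k else 0) = if c r then a r * F r else 0 := by
  rw [Finset.sum_eq_single r]
  · intro k hk hne
    rw [h k (Finset.mem_range.mp hk) hne]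
    simp
  · intro hn
    exact absurd (Finset.mem_range.mpr hr) hn

lemma flow_divergence (hG : ∀ k < L, (sh k).Good) (t : ℝ) (x : E3) :
    ∑ i, pd i (fun y => velocity sh L v t y i) x = 0 := by
  simp only [pd_velocity hG]
  rw [Finset.sum_comm]
  refine Finset.sum_eq_zero fun k hk => ?_
  rw [Finset.sum_ite_eq, if_pos (Finset.mem_univ _),
    pd_shearG_i (hG k (Finset.mem_range.mp hk)), mul_zero]

lemma flow_advection (hG : ∀ k < L, (sh k).Good) {t : ℝ} (ht : 0 ≤ t) (x : E3) (j : Fin 3) :
    ∑ m, velocity sh L v t x m * pd m (fun y => velocity sh L v t y j) x = 0 := by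
  simp only [pd_velocity hG]
  rcases time_cases L ht with h | ⟨r, hr, hchi, hother⟩
  · refine Finset.sum_eq_zero fun m _ => ?_
    have : ∑ k ∈ Finset.range L,
        (if (sh k).i = j then pulse L k t * pd m (shearG (sh k)) x else 0) = 0 := by
      refine Finset.sum_eq_zero fun k hk => ?_
      rw [h k (Finset.mem_range.mp hk)]
      simp
    rw [this, mul_zero]
  · have hu : ∀ m, velocity sh L v t x m =
        if (sh r).i = m then pulse L r t * shearG (sh r) x else 0 := by
      intro m
      unfold velocity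
      rw [hchi, zero_mul, zero_add]
      exact sum_single_form (c := fun k => (sh k).i = m) (a := fun k => pulse L k t)
        (F := fun k => shearG (sh k) x) hr hother
    have hD : ∀ m, ∑ k ∈ Finset.range L,
        (if (sh k).i = j then pulse L k t * pd m (shearG (sh k)) x else 0) =
        if (sh r).i = j then pulse L r t * pd m (shearG (sh r)) x else 0 := fun m =>
      sum_single_form (c := fun k => (sh k).i = j) (a := fun k => pulse L k t)
        (F := fun k => pd m (shearG (sh k)) x) hr hother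
    simp only [hD, hu]
    rw [Finset.sum_eq_single (sh r).i]
    · simp [pd_shearG_i (hG r hr)]
    · intro m _ hm
      rw [if_neg (Ne.symm hm), zero_mul]
    · intro hn
      exact absurd (Finset.mem_univ _) hn

lemma flow_momentum (hG : ∀ k < L, (sh k).Good) {t : ℝ} (ht : 0 ≤ t) (x : E3) (j : Fin 3) :
    velT sh L v t x j + ∑ m, velocity sh L v t x m * pd m (fun y => velocity sh L v t y j) x
      = ν * ∑ m, pd m (pd m (fun y => velocity sh L v t y j)) x + force ν sh L v t x j := by
  rw [flow_advection hG ht, add_zero]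
  simp only [pd_pd_velocity hG]
  rw [Finset.sum_comm]
  have hlap : ∀ k ∈ Finset.range L, ∑ m : Fin 3,
      (if (sh k).i = j then pulse L k t * pd m (pd m (shearG (sh k))) x else 0) =
      if (sh k).i = j then pulse L k t * shearLap (sh k) x else 0 := by
    intro k hk
    by_cases hc : (sh k).i = j
    · simp only [hc, if_true]
      rw [← Finset.mul_sum, sum_pd_pd_shearG (hG k (Finset.mem_range.mp hk))]
    · simp [hc]
  rw [Finset.sum_congr rfl hlap]
  unfold velT force
  rw [Finset.mul_sum, add_left_comm, ← Finset.sum_add_distrib]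
  congr 1
  refine Finset.sum_congr rfl fun k _ => ?_
  by_cases hc : (sh k).i = j
  · simp only [hc, if_true]
    ring
  · simp [hc]

end FlowAux

theorem isClassicalSolution (hG : ∀ k < L, (sh k).Good) (T : ℝ) (hT : 0 < T) :
    IsClassicalSolution ν (force ν sh L v) T (velocity sh L v) (fun _ _ => 0) := by
  have hU := contDiff_velocity (v := v) hG
  have hUt := contDiff_velT (v := v) hG
  have hderiv : ∀ t ∈ Icc (0 : ℝ) T, ∀ x,
      derivWithin (fun s => velocity sh L v s x) (Icc 0 T) t = velT sh L v t x := fun t ht x =>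
    (hasDerivAt_velocity_time t x).hasDerivWithinAt.derivWithin (uniqueDiffOn_Icc hT t ht)
  have hspace : ∀ t, ContDiff ℝ ∞ (velocity sh L v t) := fun t => contDiff_section hU t
  constructor
  · exact fun t _ => periodic_velocity hG t
  · exact fun _ _ _ _ => rfl
  · intro x
    funext j
    unfold velocity
    rw [chi_of_le (by norm_num), zero_mul, zero_add]
    refine Finset.sum_eq_zero fun k hk => ?_
    rw [pulse_kick (Finset.mem_range.mp hk) le_rfl one_pos]
    simp
  · exact hU.continuous.continuousOn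
  · exact fun t _ x => (hasDerivAt_velocity_time t x).hasDerivWithinAt.differentiableWithinAt
  · refine hUt.continuous.continuousOn.congr ?_
    rintro ⟨t, x⟩ ⟨ht, _⟩
    exact hderiv t ht x
  · exact fun t _ => (hspace t).of_le two_le_infty
  · exact (contDiff_fderiv_joint hU).continuous.continuousOn
  · exact (contDiff_fderiv_joint (u := fun t => fderiv ℝ (velocity sh L v t))
      (contDiff_fderiv_joint hU)).continuous.continuousOn
  · exact continuousOn_const
  · exact fun _ _ => contDiff_const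
  · simpa using continuousOn_const
  · intro _ _
    simp [torusMean]
  · exact fun t _ x => flow_divergence hG t x
  · intro t ht x i
    rw [hderiv t ht x]
    have hp : pd i (fun _ : E3 => (0 : ℝ)) x = 0 := by simp [pd]
    have hp' : pd i ((fun _ _ => 0 : ℝ → E3 → ℝ) t) x = 0 := hp
    rw [hp', neg_zero, zero_add]
    exact flow_momentum hG ht.1 x i

end equations

section trajectories

variable {sh : ℕ → Shear} {L : ℕ} {v : E3}

namespace FlowAux

/-- The segment of the path during the slot `[n + 1, n + 2]`. -/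
noncomputable def seg (sh : ℕ → Shear) (P : ℕ) (v : E3) (n : ℕ) (s : ℝ) : E3 :=
  Function.update (orbit sh P v n) (sh (n % P)).i
    (orbit sh P v n (sh (n % P)).i + sig (s - 1 - n) * shearG (sh (n % P)) (orbit sh P v n))

lemma path_of_lt_one {P : ℕ} {t : ℝ} (ht : t < 1) : path sh P v t = fun j => sig t * v j :=
  if_pos ht

lemma path_of_slot {P n : ℕ} {t : ℝ} (h1 : (n : ℝ) + 1 ≤ t) (h2 : t < (n : ℝ) + 2) :
    path sh P v t = seg sh P v n t := by
  have h3 : ¬ t < 1 := by
    have : (0 : ℝ) ≤ n := Nat.cast_nonneg n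
    linarith
  have h4 : ⌊t - 1⌋₊ = n := by
    rw [Nat.floor_eq_iff (by
      have : (0 : ℝ) ≤ n := Nat.cast_nonneg n
      linarith)]
    constructor <;> linarith
  unfold path seg
  rw [if_neg h3]
  simp only [h4]

lemma seg_start {P n : ℕ} {s : ℝ} (hs : s ≤ (n : ℝ) + 1 + 1 / 4) :
    seg sh P v n s = orbit sh P v n := by
  unfold seg
  rw [sig_of_le (by linarith), zero_mul, add_zero, Function.update_eq_self]

lemma seg_end {P n : ℕ} {s : ℝ} (hs : (n : ℝ) + 1 + 1 / 2 ≤ s) :
    seg sh P v n s = orbit sh P v (n + 1) := by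
  unfold seg
  rw [sig_of_ge (by linarith), one_mul]
  rfl

lemma path_closed_slot {P n : ℕ} {t : ℝ} (h1 : (n : ℝ) + 1 ≤ t) (h2 : t ≤ (n : ℝ) + 2) :
    path sh P v t = seg sh P v n t := by
  rcases lt_or_eq_of_le h2 with h | h
  · exact path_of_slot h1 h
  · rw [h, seg_end (by linarith), path_of_slot (n := n + 1) (by push_cast; linarith)
      (by push_cast; linarith), seg_start (by push_cast; linarith)]

lemma seg_apply {P n : ℕ} {s : ℝ} (j : Fin 3) :
    seg sh P v n s j = if j = (sh (n % P)).i then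
      orbit sh P v n (sh (n % P)).i + sig (s - 1 - n) * shearG (sh (n % P)) (orbit sh P v n)
      else orbit sh P v n j := by
  unfold seg
  rw [Function.update_apply]

lemma hasDerivAt_sig_shift (c s : ℝ) : HasDerivAt (fun s => sig (s - 1 - c)) (chi (s - 1 - c)) s := by
  have h1 := (hasDerivAt_sig (s - 1 - c)).comp s (((hasDerivAt_id s).sub_const 1).sub_const c)
  simpa [Function.comp_def] using h1

lemma hasDerivAt_seg {P n : ℕ} (s : ℝ) :
    HasDerivAt (seg sh P v n) (fun j => if (sh (n % P)).i = j then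
      chi (s - 1 - n) * shearG (sh (n % P)) (orbit sh P v n) else 0) s := by
  rw [hasDerivAt_pi]
  intro j
  simp only [seg_apply]
  by_cases hj : j = (sh (n % P)).i
  · rw [if_pos hj.symm]
    simp only [if_pos hj]
    exact ((hasDerivAt_sig_shift (n : ℝ) s).mul_const _).const_add _
  · rw [if_neg (Ne.symm hj)]
    simp only [if_neg hj]
    exact hasDerivAt_const _ _

/-- Under the assumption on the idle shears: the amplitudes in the slots. -/
lemma good_of_mod (hG : ∀ k < L, (sh k).Good)
    (hI : ∀ k, L ≤ k → (sh k).α = 0 ∧ (sh k).β = 0 ∧ (sh k).Good) (n : ℕ) :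
    (sh (n % (L + 1))).Good := by
  by_cases h : n % (L + 1) < L
  · exact hG _ h
  · exact (hI _ (by omega)).2.2

lemma shearG_idle {s : Shear} (h1 : s.α = 0) (h2 : s.β = 0) (x : E3) : shearG s x = 0 := by
  unfold shearG per₂ fac₂
  rw [h1, h2]
  simp

/-- The velocity during a slot. -/
lemma velocity_slot (hI : ∀ k, L ≤ k → (sh k).α = 0 ∧ (sh k).β = 0 ∧ (sh k).Good) {n : ℕ} {s : ℝ}
    (h1 : (n : ℝ) + 1 ≤ s) (h2 : s < (n : ℝ) + 2) (y : E3) :
    velocity sh L v s y = fun j => if (sh (n % (L + 1))).i = j then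
      chi (s - 1 - n) * shearG (sh (n % (L + 1))) y else 0 := by
  have hn : (0 : ℝ) ≤ n := Nat.cast_nonneg n
  funext j
  unfold velocity
  rw [chi_of_ge (s := s) (by linarith), zero_mul, zero_add]
  by_cases hr : n % (L + 1) < L
  · have hother : ∀ k < L, k ≠ n % (L + 1) → pulse L k s = 0 := by
      intro k hk hne
      rw [pulse_slot (le_of_lt hk) h1 h2, if_neg (Ne.symm hne)]
    rw [sum_single_form (c := fun k => (sh k).i = j) (a := fun k => pulse L k s)
      (F := fun k => shearG (sh k) y) hr hother]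
    rw [pulse_slot (le_of_lt hr) h1 h2, if_pos rfl]
  · have hL : L ≤ n % (L + 1) := by omega
    obtain ⟨h3, h4, _⟩ := hI _ hL
    rw [shearG_idle h3 h4]
    simp only [mul_zero, ite_self]
    refine Finset.sum_eq_zero fun k hk => ?_
    have hk' := Finset.mem_range.mp hk
    have hne : n % (L + 1) ≠ k := by omega
    simp [pulse_slot (le_of_lt hk') h1 h2, hne]

/-- The velocity during the kick. -/
lemma velocity_kick {s : ℝ} (h1 : 0 ≤ s) (h2 : s < 1) (y : E3) :
    velocity sh L v s y = fun j => chi s * v j := by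
  funext j
  unfold velocity
  rw [Finset.sum_eq_zero, add_zero]
  intro k hk
  rw [pulse_kick (Finset.mem_range.mp hk) h1 h2]
  simp

lemma shearG_update {s : Shear} (hs : s.Good) (x : E3) (c : ℝ) :
    shearG s (Function.update x s.i c) = shearG s x :=
  shearG_congr s (Function.update_of_ne (Ne.symm hs.1) _ _)
    (Function.update_of_ne (Ne.symm hs.2.1) _ _)

lemma path_locally_const {n : ℕ} {s : ℝ} (h1 : (n : ℝ) + 1 / 2 < s)
    (h2 : s < (n : ℝ) + 1 + 1 / 4) :
    path sh (L + 1) v s = orbit sh (L + 1) v n := by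
  rcases le_or_gt ((n : ℝ) + 1) s with h | h
  · rw [path_of_slot h (by linarith), seg_start (by linarith)]
  · cases n with
    | zero =>
      have h' : s < 1 := by simpa using h
      have h'' : 1 / 2 ≤ s := by
        simp only [Nat.cast_zero, zero_add] at h1
        linarith
      rw [path_of_lt_one h']
      funext j
      rw [sig_of_ge h'', one_mul]
      rfl
    | succ m =>
      push_cast at h h1
      rw [path_of_slot (n := m) (by linarith) (by linarith), seg_end (by linarith)]

end FlowAux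

theorem path_isTrajectory (hG : ∀ k < L, (sh k).Good)
    (hI : ∀ k, L ≤ k → (sh k).α = 0 ∧ (sh k).β = 0 ∧ (sh k).Good) :
    IsTrajectory (velocity sh L v) 0 (path sh (L + 1) v) := by
  constructor
  · rw [path_of_lt_one one_pos]
    funext j
    rw [sig_of_le (by norm_num), zero_mul]
    rfl
  · intro t ht
    refine HasDerivAt.hasDerivWithinAt ?_
    rcases lt_or_ge t 1 with h1 | h1
    · -- the kick
      rw [velocity_kick ht h1]
      have hev : path sh (L + 1) v =ᶠ[nhds t] fun s j => sig s * v j := by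
        filter_upwards [Iio_mem_nhds h1] with s hs
        exact path_of_lt_one hs
      refine HasDerivAt.congr_of_eventuallyEq ?_ hev
      rw [hasDerivAt_pi]
      intro j
      exact (hasDerivAt_sig t).mul_const (v j)
    · obtain ⟨n, hn1, hn2⟩ := exists_slot h1
      rw [velocity_slot hI hn1 hn2]
      rcases lt_or_eq_of_le hn1 with hlt | heq
      · -- inside the slot
        have hev : path sh (L + 1) v =ᶠ[nhds t] seg sh (L + 1) v n := by
          filter_upwards [Ioo_mem_nhds hlt hn2] with s hs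
          exact path_of_slot (le_of_lt hs.1) hs.2
        refine HasDerivAt.congr_of_eventuallyEq ?_ hev
        have e : (fun j => if (sh (n % (L + 1))).i = j then
            chi (t - 1 - n) * shearG (sh (n % (L + 1))) (path sh (L + 1) v t) else 0) =
            fun j => if (sh (n % (L + 1))).i = j then
            chi (t - 1 - n) * shearG (sh (n % (L + 1))) (orbit sh (L + 1) v n) else 0 := by
          funext j
          rw [path_of_slot hn1 hn2]
          unfold seg
          rw [shearG_update (good_of_mod hG hI n)]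
        rw [e]
        exact hasDerivAt_seg t
      · -- the left end of the slot: the path is locally constant
        have hev : path sh (L + 1) v =ᶠ[nhds t] fun _ => orbit sh (L + 1) v n := by
          filter_upwards [Ioo_mem_nhds (a := (n : ℝ) + 1 / 2) (b := (n : ℝ) + 1 + 1 / 4)
            (by linarith) (by linarith)] with s hs
          exact path_locally_const hs.1 hs.2
        refine HasDerivAt.congr_of_eventuallyEq ?_ hev
        have hzero : (fun j => if (sh (n % (L + 1))).i = j then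
            chi (t - 1 - n) * shearG (sh (n % (L + 1))) (path sh (L + 1) v t) else 0) = 0 := by
          funext j
          rw [chi_of_le (by linarith), zero_mul, ite_self]
          rfl
        rw [hzero]
        exact hasDerivAt_const _ _

namespace FlowAux

/-- Integration of an equation with known right-hand side. -/
lemma eq_of_hasDerivWithinAt {X Y : ℝ → E3} {t₀ t₁ : ℝ} {X' Y' : ℝ → E3}
    (hX : ∀ t ∈ Icc t₀ t₁, HasDerivWithinAt X (X' t) (Ici t) t)
    (hXl : ContinuousOn X (Icc t₀ t₁))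
    (hY : ∀ t, HasDerivAt Y (Y' t) t)
    (hXY : ∀ t ∈ Ico t₀ t₁, X' t = Y' t) :
    ∀ t ∈ Icc t₀ t₁, X t - Y t = X t₀ - Y t₀ := by
  refine constant_of_has_deriv_right_zero ?_ ?_
  · exact hXl.sub (fun t _ => (hY t).continuousAt.continuousWithinAt)
  · intro t ht
    have h1 := (hX t (Ico_subset_Icc_self ht)).sub (hY t).hasDerivWithinAt
    rw [hXY t ht, sub_self] at h1
    exact h1

/-- A trajectory is continuous on every interval of nonnegative times. -/
lemma traj_continuousOn {u : ℝ → E3 → E3} {X : ℝ → E3} {a : E3} (h : IsTrajectory u a X)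
    {t₀ t₁ : ℝ} (h0 : 0 ≤ t₀) : ContinuousOn X (Icc t₀ t₁) := by
  intro t ht
  have ht0 : 0 ≤ t := le_trans h0 ht.1
  exact ((h.2 t ht0).continuousWithinAt).mono (fun s hs => le_trans h0 hs.1)

lemma traj_deriv_right {u : ℝ → E3 → E3} {X : ℝ → E3} {a : E3} (h : IsTrajectory u a X)
    {t : ℝ} (ht : 0 ≤ t) : HasDerivWithinAt X (u t (X t)) (Ici t) t :=
  (h.2 t ht).mono (fun _ hs => le_trans ht hs)

/-- A trajectory during the kick. -/
lemma traj_kick {X : ℝ → E3} (hX : IsTrajectory (velocity sh L v) 0 X) :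
    ∀ t ∈ Icc (0 : ℝ) 1, X t = fun j => sig t * v j := by
  have hY : ∀ t, HasDerivAt (fun t j => sig t * v j) (fun j => chi t * v j) t := fun t => by
    rw [hasDerivAt_pi]
    intro j
    exact (hasDerivAt_sig t).mul_const (v j)
  have h := eq_of_hasDerivWithinAt (X := X) (X' := fun t => velocity sh L v t (X t))
    (fun t ht => traj_deriv_right hX ht.1) (traj_continuousOn hX le_rfl) hY
    (fun t ht => velocity_kick ht.1 ht.2 _)
  intro t ht
  have h1 := h t ht
  have h2 : X 0 = 0 := hX.1
  rw [h2, sub_eq_iff_eq_add] at h1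
  rw [h1]
  funext j
  simp [sig_of_le (s := 0) (by norm_num)]

/-- A trajectory during a slot. -/
lemma traj_slot (hG : ∀ k < L, (sh k).Good)
    (hI : ∀ k, L ≤ k → (sh k).α = 0 ∧ (sh k).β = 0 ∧ (sh k).Good) {X : ℝ → E3}
    (hX : IsTrajectory (velocity sh L v) 0 X) (n : ℕ)
    (h0 : X ((n : ℝ) + 1) = orbit sh (L + 1) v n) :
    ∀ t ∈ Icc ((n : ℝ) + 1) ((n : ℝ) + 2), X t = seg sh (L + 1) v n t := by
  have hn0 : (0 : ℝ) ≤ n := Nat.cast_nonneg n
  have hr := good_of_mod hG hI n
  set r := sh (n % (L + 1)) with hrdef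
  -- the coordinates other than the direction of the shear do not move
  have hcoord : ∀ j, j ≠ r.i → ∀ t ∈ Icc ((n : ℝ) + 1) ((n : ℝ) + 2),
      X t j = orbit sh (L + 1) v n j := by
    intro j hj
    have hX' : ∀ t ∈ Ico ((n : ℝ) + 1) ((n : ℝ) + 2),
        HasDerivWithinAt (fun s => X s j) 0 (Ici t) t := by
      intro t ht
      have h1 := traj_deriv_right hX (t := t) (by linarith [ht.1])
      have h2 := (hasDerivWithinAt_pi.mp h1) j
      rw [velocity_slot hI ht.1 ht.2] at h2
      simp only [← hrdef] at h2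
      rw [if_neg (Ne.symm hj)] at h2
      exact h2
    have hc : ContinuousOn (fun s => X s j) (Icc ((n : ℝ) + 1) ((n : ℝ) + 2)) :=
      continuousOn_pi.mp (traj_continuousOn hX (by linarith)) j
    intro t ht
    have := constant_of_has_deriv_right_zero hc hX' t ht
    rw [this, h0]
  -- hence the amplitude is constant along the trajectory
  have hamp : ∀ t ∈ Icc ((n : ℝ) + 1) ((n : ℝ) + 2),
      shearG r (X t) = shearG r (orbit sh (L + 1) v n) := fun t ht =>
    shearG_congr r (hcoord _ (Ne.symm hr.1) t ht) (hcoord _ (Ne.symm hr.2.1) t ht)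
  have h := eq_of_hasDerivWithinAt (X := X) (X' := fun t => velocity sh L v t (X t))
    (Y := seg sh (L + 1) v n) (t₀ := (n : ℝ) + 1) (t₁ := (n : ℝ) + 2)
    (fun t ht => traj_deriv_right hX (by linarith [ht.1])) (traj_continuousOn hX (by linarith))
    (fun t => hasDerivAt_seg t)
    (fun t ht => by
      rw [velocity_slot hI ht.1 ht.2]
      funext j
      rw [← hrdef, hamp t (Ico_subset_Icc_self ht)])
  intro t ht
  have h1 := h t ht
  rw [h0, seg_start (s := (n : ℝ) + 1) (by linarith), sub_self, sub_eq_zero] at h1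
  exact h1

end FlowAux

theorem trajectory_unique (hG : ∀ k < L, (sh k).Good)
    (hI : ∀ k, L ≤ k → (sh k).α = 0 ∧ (sh k).β = 0 ∧ (sh k).Good) {X : ℝ → E3}
    (hX : IsTrajectory (velocity sh L v) 0 X) :
    ∀ t, 0 ≤ t → X t = path sh (L + 1) v t := by
  have hslots : ∀ n : ℕ, ∀ t ∈ Icc ((n : ℝ) + 1) ((n : ℝ) + 2), X t = seg sh (L + 1) v n t := by
    intro n
    induction n with
    | zero =>
      apply traj_slot hG hI hX 0
      have h1 := traj_kick hX 1 ⟨zero_le_one, le_rfl⟩
      simp only [Nat.cast_zero, zero_add]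
      rw [h1]
      funext j
      rw [sig_of_ge (by norm_num), one_mul]
      rfl
    | succ n ih =>
      apply traj_slot hG hI hX (n + 1)
      have hn0 : (0 : ℝ) ≤ n := Nat.cast_nonneg n
      have h1 := ih ((n : ℝ) + 2) ⟨by linarith, le_rfl⟩
      have e : ((n + 1 : ℕ) : ℝ) + 1 = (n : ℝ) + 2 := by
        push_cast
        ring
      rw [e, h1, seg_end (by linarith)]
  intro t ht
  rcases lt_or_ge t 1 with h1 | h1
  · rw [path_of_lt_one h1]
    exact traj_kick hX t ⟨ht, le_of_lt h1⟩
  · obtain ⟨n, hn1, hn2⟩ := exists_slot h1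
    rw [path_of_slot hn1 hn2]
    exact hslots n t ⟨hn1, le_of_lt hn2⟩

end trajectories

/-- Derivatives of a pulse. -/
theorem iteratedDeriv_pulse (L k n : ℕ) (t : ℝ) :
    iteratedDeriv n (pulse L k) t = iteratedDeriv n chi (pc ((L : ℝ) + 1) (t - 1 - (k : ℝ))) := by
  have hL : (0 : ℝ) ≤ L := Nat.cast_nonneg L
  have h1 : (fun s => chi (pc ((L : ℝ) + 1) (s - (1 + (k : ℝ))))) = pulse L k := by
    funext s
    unfold pulse
    congr 2
    ring
  have h2 := congrFun (iteratedDeriv_comp_sub_const n (fun t => chi (pc ((L : ℝ) + 1) t))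
    (1 + (k : ℝ))) t
  rw [h1] at h2
  rw [h2]
  have h3 := iteratedDeriv_comp_pc (c := 1 / 4) (d := 1 / 2) (period_pos L) (by norm_num)
    (by linarith) (fun _ h => chi_of_le h) (fun _ h => chi_of_ge h) n (t - (1 + (k : ℝ)))
  rw [h3]
  congr 2
  ring

end Vale.Agent.Lib.P113
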