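import Vale.Agent.Lib.P113.Pulse

/-!
Closed form of the mixed derivatives of the force of a pulsed shear flow.
-/

open Filter Topology
open scoped ContDiff

namespace Vale.Agent.Lib.P113

/-- The derivative of order `n` of the plateau function of a window. -/
noncomputable def wndD (w : Win) (n : ℕ) (y : ℝ) : ℝ :=
  ((w.δ : ℝ)⁻¹) ^ n * (iteratedDeriv n stp ((y - ((w.a : ℝ) - (w.δ : ℝ))) / (w.δ : ℝ)) -
    iteratedDeriv n stp ((y - (w.b : ℝ)) / (w.δ : ℝ)))

/-- The derivative of order `n` of the first factor of a shear. -/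
noncomputable def per₁D (s : Shear) (n : ℕ) (y : ℝ) : ℝ := wndD s.w₁ n (pc 1 y)

/-- The derivative of order `n` of the second factor of a shear. -/
noncomputable def per₂D (s : Shear) (n : ℕ) (y : ℝ) : ℝ :=
  ((s.α : ℝ) * pc 1 y + (s.β : ℝ)) * wndD s.w₂ n (pc 1 y) +
    (n : ℝ) * (s.α : ℝ) * wndD s.w₂ (n - 1) (pc 1 y)

/-- The derivative of order `n` of the pulse profile. -/
noncomputable def chiD (n : ℕ) (y : ℝ) : ℝ := 4 ^ (n + 1) * iteratedDeriv (n + 1) stp (4 * y - 1)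

/-- The mixed derivative of the displacement function of a shear. -/
noncomputable def shearD (s : Shear) (ord : Fin 3 → ℕ) (x : E3) : ℝ :=
  if ord s.i = 0 then per₁D s (ord s.p) (x s.p) * per₂D s (ord s.q) (x s.q) else 0

/-- The mixed derivative of the Laplacian of the displacement function of a shear. -/
noncomputable def shearDLap (s : Shear) (ord : Fin 3 → ℕ) (x : E3) : ℝ :=
  if ord s.i = 0 then
    per₁D s (ord s.p + 2) (x s.p) * per₂D s (ord s.q) (x s.q) +
      per₁D s (ord s.p) (x s.p) * per₂D s (ord s.q + 2) (x s.q)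
  else 0

namespace MD

/-! ### Smooth functions that vanish near the ends of a period -/

/-- `g` is smooth and vanishes outside a compact subinterval of `(0, P)`. -/
structure Flat (g : ℝ → ℝ) (P : ℝ) : Prop where
  smooth : ContDiff ℝ ∞ g
  low : ∃ c, 0 < c ∧ ∀ y, y ≤ c → g y = 0
  high : ∃ d, d < P ∧ ∀ y, d ≤ y → g y = 0

lemma pc_eq (L t : ℝ) : pc L t = t - L * (⌊t / L⌋ : ℝ) := rfl

lemma Flat.eventuallyEq {g : ℝ → ℝ} {P : ℝ} (hP : 0 < P) (hg : Flat g P) (t : ℝ) :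
    (fun s => g (pc P s)) =ᶠ[𝓝 t] fun s => g (s - P * (⌊t / P⌋ : ℝ)) := by
  obtain ⟨c, hc, hlow⟩ := hg.low
  obtain ⟨d, hd, hhigh⟩ := hg.high
  set m : ℤ := ⌊t / P⌋ with hm
  have hm1 : (m : ℝ) * P ≤ t := by
    have := Int.floor_le (t / P)
    rw [le_div_iff₀ hP] at this
    exact this
  have hm2 : t < ((m : ℝ) + 1) * P := by
    have := Int.lt_floor_add_one (t / P)
    rw [div_lt_iff₀ hP] at this
    exact this
  obtain ⟨ε, hε0, hε1, hε2, hε3⟩ : ∃ ε : ℝ, 0 < ε ∧ ε ≤ c ∧ ε ≤ P - d ∧ ε ≤ P :=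
    ⟨min c (min (P - d) P), lt_min hc (lt_min (by linarith) hP), min_le_left _ _,
      (min_le_right _ _).trans (min_le_left _ _), (min_le_right _ _).trans (min_le_right _ _)⟩
  have hopen : Set.Ioo ((m : ℝ) * P - ε) (((m : ℝ) + 1) * P) ∈ 𝓝 t :=
    Ioo_mem_nhds (by linarith) hm2
  filter_upwards [hopen] with s hs
  obtain ⟨hs1, hs2⟩ := hs
  by_cases hsm : (m : ℝ) * P ≤ s
  · -- same period
    have hfl : ⌊s / P⌋ = m := by
      rw [Int.floor_eq_iff]
      constructor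
      · rw [le_div_iff₀ hP]; exact hsm
      · rw [div_lt_iff₀ hP]; exact hs2
    simp only [pc, hfl]
  · -- just before the period: both values vanish
    push Not at hsm
    have hfl : ⌊s / P⌋ = m - 1 := by
      rw [Int.floor_eq_iff]
      push_cast
      constructor
      · rw [le_div_iff₀ hP]
        nlinarith
      · rw [div_lt_iff₀ hP]
        nlinarith
    have h1 : g (pc P s) = 0 := by
      apply hhigh
      simp only [pc, hfl]
      push_cast
      nlinarith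
    have h2 : g (s - P * (m : ℝ)) = 0 := by
      apply hlow
      nlinarith
    rw [h1, h2]

lemma Flat.contDiff_pc {g : ℝ → ℝ} {P : ℝ} (hP : 0 < P) (hg : Flat g P) :
    ContDiff ℝ ∞ (fun s => g (pc P s)) := by
  rw [contDiff_iff_contDiffAt]
  intro t
  have h : ContDiffAt ℝ ∞ (fun s => g (s - P * (⌊t / P⌋ : ℝ))) t :=
    (hg.smooth.comp (contDiff_id.sub contDiff_const)).contDiffAt
  exact h.congr_of_eventuallyEq (hg.eventuallyEq hP t)

lemma Flat.iteratedDeriv_pc {g : ℝ → ℝ} {P : ℝ} (hP : 0 < P) (hg : Flat g P) (n : ℕ) (t : ℝ) :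
    iteratedDeriv n (fun s => g (pc P s)) t = iteratedDeriv n g (pc P t) := by
  rw [(hg.eventuallyEq hP t).iteratedDeriv_eq n, iteratedDeriv_comp_sub_const]
  rfl

/-! ### The step and its derivatives -/

lemma contDiff_stp : ContDiff ℝ ∞ stp := Real.smoothTransition.contDiff

lemma stp_zero {y : ℝ} (hy : y ≤ 0) : stp y = 0 := Real.smoothTransition.zero_of_nonpos hy

lemma stp_one {y : ℝ} (hy : 1 ≤ y) : stp y = 1 := Real.smoothTransition.one_of_one_le hy

lemma contDiff_sig : ContDiff ℝ ∞ sig := by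
  unfold sig
  exact contDiff_stp.comp ((contDiff_const.mul contDiff_id).sub contDiff_const)

lemma contDiff_chi : ContDiff ℝ ∞ chi := by
  exact (contDiff_infty_iff_deriv.1 contDiff_sig).2

lemma iteratedDeriv_sig (n : ℕ) (y : ℝ) :
    iteratedDeriv n sig y = 4 ^ n * iteratedDeriv n stp (4 * y - 1) := by
  have h1 : sig = fun x => (fun z => stp (z - 1)) (4 * x) := by
    funext x; rfl
  have hc : ContDiff ℝ n (fun z => stp (z - 1)) :=
    (contDiff_stp.comp (contDiff_id.sub contDiff_const)).of_le (by exact_mod_cast le_top)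
  rw [h1, iteratedDeriv_comp_const_mul hc]
  simp only
  rw [iteratedDeriv_comp_sub_const]

lemma iteratedDeriv_chi (n : ℕ) (y : ℝ) : iteratedDeriv n chi y = chiD n y := by
  have : chi = deriv sig := rfl
  rw [this, ← iteratedDeriv_succ', iteratedDeriv_sig]
  rfl

/-- A smooth function that is constant on a closed half line has vanishing derivative there. -/
lemma deriv_zero_of_const_le {g : ℝ → ℝ} (hg : ContDiff ℝ ∞ g) {a b : ℝ}
    (h : ∀ y, y ≤ a → g y = b) {y : ℝ} (hy : y ≤ a) : deriv g y = 0 := by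
  have hd : Continuous (deriv g) := hg.continuous_deriv (by simp)
  have h1 : ∀ z, z < a → deriv g z = 0 := by
    intro z hz
    have : g =ᶠ[𝓝 z] fun _ => b := by
      filter_upwards [Iio_mem_nhds hz] with w hw
      exact h w (le_of_lt hw)
    rw [this.deriv_eq]
    simp
  rcases lt_or_eq_of_le hy with hlt | rfl
  · exact h1 y hlt
  · have : Tendsto (deriv g) (𝓝[<] y) (𝓝 (deriv g y)) :=
      (hd.tendsto y).mono_left nhdsWithin_le_nhds
    have h2 : Tendsto (deriv g) (𝓝[<] y) (𝓝 0) := by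
      apply tendsto_const_nhds.congr'
      filter_upwards [self_mem_nhdsWithin] with z hz
      exact (h1 z hz).symm
    exact tendsto_nhds_unique this h2

lemma deriv_zero_of_const_ge {g : ℝ → ℝ} (hg : ContDiff ℝ ∞ g) {a b : ℝ}
    (h : ∀ y, a ≤ y → g y = b) {y : ℝ} (hy : a ≤ y) : deriv g y = 0 := by
  have hd : Continuous (deriv g) := hg.continuous_deriv (by simp)
  have h1 : ∀ z, a < z → deriv g z = 0 := by
    intro z hz
    have : g =ᶠ[𝓝 z] fun _ => b := by
      filter_upwards [Ioi_mem_nhds hz] with w hw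
      exact h w (le_of_lt hw)
    rw [this.deriv_eq]
    simp
  rcases lt_or_eq_of_le hy with hlt | rfl
  · exact h1 y hlt
  · have : Tendsto (deriv g) (𝓝[>] a) (𝓝 (deriv g a)) :=
      (hd.tendsto a).mono_left nhdsWithin_le_nhds
    have h2 : Tendsto (deriv g) (𝓝[>] a) (𝓝 0) := by
      apply tendsto_const_nhds.congr'
      filter_upwards [self_mem_nhdsWithin] with z hz
      exact (h1 z hz).symm
    exact tendsto_nhds_unique this h2

lemma chi_flat {P : ℝ} (hP : 1 / 2 < P) : Flat chi P where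
  smooth := contDiff_chi
  low := ⟨1 / 4, by norm_num, fun y hy => by
    apply deriv_zero_of_const_le contDiff_sig (a := 1 / 4) (b := 0) _ hy
    intro z hz
    exact stp_zero (by linarith)⟩
  high := ⟨1 / 2, hP, fun y hy => by
    apply deriv_zero_of_const_ge contDiff_sig (a := 1 / 2) (b := 1) _ hy
    intro z hz
    exact stp_one (by linarith)⟩

/-! ### Windows -/

lemma contDiff_wnd (w : Win) : ContDiff ℝ ∞ (wnd w) := by
  unfold wnd
  apply ContDiff.sub
  · exact contDiff_stp.comp ((contDiff_id.sub contDiff_const).div_const _)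
  · exact contDiff_stp.comp ((contDiff_id.sub contDiff_const).div_const _)

lemma wnd_flat {w : Win} (hw : w.Good) : Flat (wnd w) 1 := by
  obtain ⟨hδ, hab, h1, h2⟩ := hw
  have hδ' : (0 : ℝ) < w.δ := by exact_mod_cast hδ
  have hab' : (w.a : ℝ) ≤ w.b := by exact_mod_cast hab
  have h1' : (0 : ℝ) < (w.a : ℝ) - w.δ := by exact_mod_cast h1
  have h2' : (w.b : ℝ) + w.δ < 1 := by exact_mod_cast h2
  refine ⟨contDiff_wnd w, ⟨(w.a : ℝ) - w.δ, h1', fun y hy => ?_⟩, ⟨(w.b : ℝ) + w.δ, h2', fun y hy => ?_⟩⟩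
  · unfold wnd
    rw [stp_zero, stp_zero, sub_zero]
    · apply div_nonpos_of_nonpos_of_nonneg _ hδ'.le
      linarith
    · apply div_nonpos_of_nonpos_of_nonneg _ hδ'.le
      linarith
  · unfold wnd
    rw [stp_one, stp_one, sub_self]
    · rw [le_div_iff₀ hδ']; linarith
    · rw [le_div_iff₀ hδ']; linarith

lemma iteratedDeriv_wnd (w : Win) (n : ℕ) (y : ℝ) : iteratedDeriv n (wnd w) y = wndD w n y := by
  have hsh : ∀ c : ℝ, iteratedDeriv n (fun x : ℝ => stp ((x - c) / (w.δ : ℝ))) y =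
      ((w.δ : ℝ)⁻¹) ^ n * iteratedDeriv n stp ((y - c) / (w.δ : ℝ)) := by
    intro c
    have h1 : (fun x : ℝ => stp ((x - c) / (w.δ : ℝ))) =
        fun x => (fun z => (fun u => stp (u * (w.δ : ℝ)⁻¹)) (z - c)) x := by
      funext x; simp [div_eq_mul_inv]
    have h2 : (fun u => stp (u * (w.δ : ℝ)⁻¹)) = fun u => stp ((w.δ : ℝ)⁻¹ * u) := by
      funext u; rw [mul_comm]
    rw [h1, iteratedDeriv_comp_sub_const, h2, iteratedDeriv_comp_const_mul
      (contDiff_stp.of_le (by exact_mod_cast le_top))]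
    simp [div_eq_mul_inv, mul_comm]
  have hd : ∀ c : ℝ, ContDiffAt ℝ n (fun x : ℝ => stp ((x - c) / (w.δ : ℝ))) y := by
    intro c
    exact ((contDiff_stp.comp ((contDiff_id.sub contDiff_const).div_const _)).of_le
      (by exact_mod_cast le_top)).contDiffAt
  unfold wnd wndD
  rw [iteratedDeriv_fun_sub (hd _) (hd _), hsh, hsh, mul_sub]

/-! ### The factors of a shear -/

lemma per₁_eq (s : Shear) : per₁ s = fun y => wnd s.w₁ (pc 1 y) := rfl

lemma contDiff_per₁ {s : Shear} (hs : s.Good) : ContDiff ℝ ∞ (per₁ s) :=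
  (wnd_flat hs.2.2.2.1).contDiff_pc one_pos

lemma iteratedDeriv_per₁ {s : Shear} (hs : s.Good) (n : ℕ) (y : ℝ) :
    iteratedDeriv n (per₁ s) y = per₁D s n y := by
  rw [per₁_eq, (wnd_flat hs.2.2.2.1).iteratedDeriv_pc one_pos, iteratedDeriv_wnd]
  rfl

lemma contDiff_fac₂ (s : Shear) : ContDiff ℝ ∞ (fac₂ s) := by
  unfold fac₂
  exact ((contDiff_const.mul contDiff_id).add contDiff_const).mul (contDiff_wnd s.w₂)

lemma fac₂_flat {s : Shear} (hs : s.Good) : Flat (fac₂ s) 1 := by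
  obtain ⟨c, hc, hlow⟩ := (wnd_flat hs.2.2.2.2).low
  obtain ⟨d, hd, hhigh⟩ := (wnd_flat hs.2.2.2.2).high
  refine ⟨contDiff_fac₂ s, ⟨c, hc, fun y hy => ?_⟩, ⟨d, hd, fun y hy => ?_⟩⟩
  · simp [fac₂, hlow y hy]
  · simp [fac₂, hhigh y hy]

lemma iteratedDeriv_fac₂_aux (s : Shear) (n : ℕ) (y : ℝ) :
    iteratedDeriv n (fac₂ s) y =
      ((s.α : ℝ) * y + (s.β : ℝ)) * iteratedDeriv n (wnd s.w₂) y +
        (n : ℝ) * (s.α : ℝ) * iteratedDeriv (n - 1) (wnd s.w₂) y := by
  have hW : ∀ k (z : ℝ), HasDerivAt (iteratedDeriv k (wnd s.w₂))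
      (iteratedDeriv (k + 1) (wnd s.w₂) z) z := by
    intro k z
    rw [iteratedDeriv_succ]
    apply DifferentiableAt.hasDerivAt
    exact ((contDiff_wnd s.w₂).differentiable_iteratedDeriv k
      (by exact_mod_cast WithTop.coe_lt_top _)) z
  induction n generalizing y with
  | zero =>
    simp only [iteratedDeriv_zero, Nat.cast_zero, zero_mul, add_zero]
    rfl
  | succ n ih =>
    have h0 : iteratedDeriv n (fac₂ s) = fun y =>
        ((s.α : ℝ) * y + (s.β : ℝ)) * iteratedDeriv n (wnd s.w₂) y +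
          (n : ℝ) * (s.α : ℝ) * iteratedDeriv (n - 1) (wnd s.w₂) y := by
      funext z
      exact ih z
    rw [iteratedDeriv_succ, h0]
    have h1 : HasDerivAt (fun y : ℝ => (s.α : ℝ) * y + (s.β : ℝ)) (s.α : ℝ) y := by
      simpa using ((hasDerivAt_id y).const_mul (s.α : ℝ)).add_const (s.β : ℝ)
    have h2 := (h1.mul (hW n y)).add ((hW (n - 1) y).const_mul ((n : ℝ) * (s.α : ℝ)))
    have h3 := h2.deriv
    refine h3.trans ?_
    rcases n with _ | m
    · simp
      ring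
    · simp only [Nat.add_sub_cancel]
      push_cast
      ring

lemma iteratedDeriv_fac₂ (s : Shear) (n : ℕ) (y : ℝ) :
    iteratedDeriv n (fac₂ s) y =
      ((s.α : ℝ) * y + (s.β : ℝ)) * wndD s.w₂ n y + (n : ℝ) * (s.α : ℝ) * wndD s.w₂ (n - 1) y := by
  rw [iteratedDeriv_fac₂_aux, iteratedDeriv_wnd, iteratedDeriv_wnd]

lemma per₂_eq (s : Shear) : per₂ s = fun y => fac₂ s (pc 1 y) := rfl

lemma contDiff_per₂ {s : Shear} (hs : s.Good) : ContDiff ℝ ∞ (per₂ s) :=
  (fac₂_flat hs).contDiff_pc one_pos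

lemma iteratedDeriv_per₂ {s : Shear} (hs : s.Good) (n : ℕ) (y : ℝ) :
    iteratedDeriv n (per₂ s) y = per₂D s n y := by
  rw [per₂_eq, (fac₂_flat hs).iteratedDeriv_pc one_pos, iteratedDeriv_fac₂]
  rfl

/-! ### The pulse -/

lemma pulse_eq (L k : ℕ) : pulse L k =
    fun t => (fun u => chi (pc ((L : ℝ) + 1) u)) (t - (1 + (k : ℝ))) := by
  funext t
  simp only [pulse]
  congr 2
  ring

lemma hPL (L : ℕ) : (0 : ℝ) < (L : ℝ) + 1 := by positivity

lemma chi_flat' (L : ℕ) : Flat chi ((L : ℝ) + 1) :=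
  chi_flat (by have : (0 : ℝ) ≤ L := Nat.cast_nonneg L; linarith)

lemma contDiff_pulse (L k : ℕ) : ContDiff ℝ ∞ (pulse L k) := by
  rw [pulse_eq]
  exact ((chi_flat' L).contDiff_pc (hPL L)).comp (contDiff_id.sub contDiff_const)

lemma iteratedDeriv_pulse (L k n : ℕ) (t : ℝ) :
    iteratedDeriv n (pulse L k) t = chiD n (pc ((L : ℝ) + 1) (t - 1 - (k : ℝ))) := by
  rw [pulse_eq, iteratedDeriv_comp_sub_const (f := fun u => chi (pc ((L : ℝ) + 1) u))]
  simp only []
  rw [(chi_flat' L).iteratedDeriv_pc (hPL L), iteratedDeriv_chi]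
  congr 2
  ring

lemma iteratedDeriv_iteratedDeriv (f : ℝ → ℝ) (m n : ℕ) :
    iteratedDeriv m (iteratedDeriv n f) = iteratedDeriv (m + n) f := by
  induction m with
  | zero => simp
  | succ m ih =>
    rw [iteratedDeriv_succ, ih, ← iteratedDeriv_succ]
    congr 1
    omega

lemma contDiff_iteratedDeriv {f : ℝ → ℝ} (hf : ContDiff ℝ ∞ f) (n : ℕ) :
    ContDiff ℝ ∞ (iteratedDeriv n f) := by
  rw [iteratedDeriv_eq_iterate]
  exact ContDiff.iterate_deriv n hf

/-! ### Mixed derivatives of sums of separated terms -/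

lemma iteratedDeriv_sum_sep {ι : Type*} (S : Finset ι) (c : ι → ℝ) (B : ι → ℝ → ℝ)
    (hB : ∀ l, ContDiff ℝ ∞ (B l)) (n : ℕ) (x : ℝ) :
    iteratedDeriv n (fun y => ∑ l ∈ S, c l * B l y) x =
      ∑ l ∈ S, c l * iteratedDeriv n (B l) x := by
  have h1 : ∀ l ∈ S, ContDiffAt ℝ n (fun y => c l * B l y) x := fun l _ =>
    ((contDiff_const.mul (hB l)).of_le (by exact_mod_cast le_top)).contDiffAt
  rw [iteratedDeriv_fun_sum h1]
  refine Finset.sum_congr rfl fun l _ => ?_
  exact iteratedDeriv_const_mul_field _ _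

lemma mixed_sum {ι : Type*} (S : Finset ι) (A B₁ B₂ B₃ : ι → ℝ → ℝ)
    (hA : ∀ l, ContDiff ℝ ∞ (A l)) (hB₁ : ∀ l, ContDiff ℝ ∞ (B₁ l))
    (hB₂ : ∀ l, ContDiff ℝ ∞ (B₂ l)) (hB₃ : ∀ l, ContDiff ℝ ∞ (B₃ l))
    (n₀ n₁ n₂ n₃ : ℕ) (t x₁ x₂ x₃ : ℝ) :
    iteratedDeriv n₀ (fun s =>
      iteratedDeriv n₁ (fun y₁ =>
        iteratedDeriv n₂ (fun y₂ =>
          iteratedDeriv n₃ (fun y₃ => ∑ l ∈ S, A l s * B₁ l y₁ * B₂ l y₂ * B₃ l y₃) x₃) x₂) x₁) t =
      ∑ l ∈ S, iteratedDeriv n₀ (A l) t * iteratedDeriv n₁ (B₁ l) x₁ *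
        iteratedDeriv n₂ (B₂ l) x₂ * iteratedDeriv n₃ (B₃ l) x₃ := by
  have h3 : ∀ s y₁ y₂, iteratedDeriv n₃
      (fun y₃ => ∑ l ∈ S, A l s * B₁ l y₁ * B₂ l y₂ * B₃ l y₃) x₃ =
      ∑ l ∈ S, (A l s * B₁ l y₁ * iteratedDeriv n₃ (B₃ l) x₃) * B₂ l y₂ := by
    intro s y₁ y₂
    rw [iteratedDeriv_sum_sep S (fun l => A l s * B₁ l y₁ * B₂ l y₂) B₃ hB₃]
    refine Finset.sum_congr rfl fun l _ => ?_
    ring
  simp_rw [h3]
  have h2 : ∀ s y₁, iteratedDeriv n₂
      (fun y₂ => ∑ l ∈ S, (A l s * B₁ l y₁ * iteratedDeriv n₃ (B₃ l) x₃) * B₂ l y₂) x₂ =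
      ∑ l ∈ S, (A l s * iteratedDeriv n₂ (B₂ l) x₂ * iteratedDeriv n₃ (B₃ l) x₃) * B₁ l y₁ := by
    intro s y₁
    rw [iteratedDeriv_sum_sep S (fun l => A l s * B₁ l y₁ * iteratedDeriv n₃ (B₃ l) x₃) B₂ hB₂]
    refine Finset.sum_congr rfl fun l _ => ?_
    ring
  simp_rw [h2]
  have h1 : ∀ s, iteratedDeriv n₁
      (fun y₁ => ∑ l ∈ S, (A l s * iteratedDeriv n₂ (B₂ l) x₂ * iteratedDeriv n₃ (B₃ l) x₃) *
        B₁ l y₁) x₁ =
      ∑ l ∈ S, (iteratedDeriv n₁ (B₁ l) x₁ * iteratedDeriv n₂ (B₂ l) x₂ *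
        iteratedDeriv n₃ (B₃ l) x₃) * A l s := by
    intro s
    rw [iteratedDeriv_sum_sep S (fun l => A l s * iteratedDeriv n₂ (B₂ l) x₂ *
      iteratedDeriv n₃ (B₃ l) x₃) B₁ hB₁]
    refine Finset.sum_congr rfl fun l _ => ?_
    ring
  simp_rw [h1]
  rw [iteratedDeriv_sum_sep S (fun l => iteratedDeriv n₁ (B₁ l) x₁ * iteratedDeriv n₂ (B₂ l) x₂ *
      iteratedDeriv n₃ (B₃ l) x₃) A hA]
  refine Finset.sum_congr rfl fun l _ => ?_
  ring

/-! ### Factors placed on coordinates -/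

/-- The one-variable factors on the three coordinates of a product `f (x_p) * g (x_q)`. -/
noncomputable def sepB (s : Shear) (f g : ℝ → ℝ) (j : Fin 3) : ℝ → ℝ :=
  if j = s.p then f else if j = s.q then g else fun _ => 1

lemma contDiff_sepB (s : Shear) {f g : ℝ → ℝ} (hf : ContDiff ℝ ∞ f) (hg : ContDiff ℝ ∞ g)
    (j : Fin 3) : ContDiff ℝ ∞ (sepB s f g j) := by
  unfold sepB
  split_ifs
  · exact hf
  · exact hg
  · exact contDiff_const

lemma sep_prod {s : Shear} (hs : s.Good) (f g : ℝ → ℝ) (y₁ y₂ y₃ : ℝ) :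
    f ((![y₁, y₂, y₃] : E3) s.p) * g ((![y₁, y₂, y₃] : E3) s.q) =
      sepB s f g 0 y₁ * sepB s f g 1 y₂ * sepB s f g 2 y₃ := by
  obtain ⟨-, -, hpq, -, -⟩ := hs
  unfold sepB
  generalize s.p = p at *
  generalize s.q = q at *
  fin_cases p <;> fin_cases q <;> simp_all <;> ring

lemma sep_deriv {s : Shear} (hs : s.Good) (f g : ℝ → ℝ) (n₁ n₂ n₃ : ℕ) (x₁ x₂ x₃ : ℝ) :
    iteratedDeriv n₁ (sepB s f g 0) x₁ * iteratedDeriv n₂ (sepB s f g 1) x₂ *
        iteratedDeriv n₃ (sepB s f g 2) x₃ =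
      if (![n₁, n₂, n₃] : Fin 3 → ℕ) s.i = 0 then
        iteratedDeriv ((![n₁, n₂, n₃] : Fin 3 → ℕ) s.p) f ((![x₁, x₂, x₃] : E3) s.p) *
          iteratedDeriv ((![n₁, n₂, n₃] : Fin 3 → ℕ) s.q) g ((![x₁, x₂, x₃] : E3) s.q)
      else 0 := by
  obtain ⟨hip, hiq, hpq, -, -⟩ := hs
  unfold sepB
  generalize s.p = p at *
  generalize s.q = q at *
  generalize s.i = i at *
  fin_cases p <;> fin_cases q <;> fin_cases i <;> simp_all [iteratedDeriv_const] <;>
    split_ifs <;> simp_all <;> ring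

end MD

open MD

/-- The index set of the separated terms of the force. -/
abbrev Idx (L : ℕ) := Option (Fin L × Fin 3)

/-- The two space factors of the three terms attached to a shear. -/
noncomputable def pairOf (s : Shear) (e : Fin 3) : (ℝ → ℝ) × (ℝ → ℝ) :=
  if e = 0 then (per₁ s, per₂ s)
  else if e = 1 then (iteratedDeriv 2 (per₁ s), per₂ s)
  else (per₁ s, iteratedDeriv 2 (per₂ s))

theorem mixedDeriv_force {sh : ℕ → Shear} {L : ℕ} (hG : ∀ k < L, (sh k).Good) (ν : ℝ) (v : E3)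
    (i : Fin 3) (n₀ n₁ n₂ n₃ : ℕ) (t x₁ x₂ x₃ : ℝ) :
    mixedDeriv (force ν sh L v) i n₀ n₁ n₂ n₃ t x₁ x₂ x₃ =
      (if n₁ = 0 ∧ n₂ = 0 ∧ n₃ = 0 then chiD (n₀ + 1) t * v i else 0) +
      ∑ k ∈ Finset.range L, if (sh k).i = i then
        chiD (n₀ + 1) (pc ((L:ℝ) + 1) (t - 1 - k)) * shearD (sh k) ![n₁, n₂, n₃] ![x₁, x₂, x₃]
          - ν * (chiD n₀ (pc ((L:ℝ) + 1) (t - 1 - k)) *
              shearDLap (sh k) ![n₁, n₂, n₃] ![x₁, x₂, x₃])
      else 0 := by
  classical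
  -- the separated terms
  let A : Idx L → ℝ → ℝ := fun l => match l with
    | none => fun s => deriv chi s * v i
    | some (k, e) =>
      if e = 0 then fun s => (if (sh k).i = i then 1 else 0) * deriv (pulse L k) s
      else fun s => (if (sh k).i = i then - ν else 0) * pulse L k s
  let B : Fin 3 → Idx L → ℝ → ℝ := fun j l => match l with
    | none => fun _ => 1
    | some (k, e) => sepB (sh k) (pairOf (sh k) e).1 (pairOf (sh k) e).2 j
  have hP : ∀ (k : Fin L) (e : Fin 3), ContDiff ℝ ∞ (pairOf (sh k) e).1 ∧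
      ContDiff ℝ ∞ (pairOf (sh k) e).2 := by
    intro k e
    have h1 := contDiff_per₁ (hG k k.2)
    have h2 := contDiff_per₂ (hG k k.2)
    unfold pairOf
    split_ifs
    · exact ⟨h1, h2⟩
    · exact ⟨contDiff_iteratedDeriv h1 2, h2⟩
    · exact ⟨h1, contDiff_iteratedDeriv h2 2⟩
  have hA : ∀ l, ContDiff ℝ ∞ (A l) := by
    intro l
    rcases l with _ | ⟨k, e⟩
    · exact (contDiff_infty_iff_deriv.1 contDiff_chi).2.mul contDiff_const
    · simp only [A]
      split_ifs <;> first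
        | exact contDiff_const.mul (contDiff_infty_iff_deriv.1 (contDiff_pulse L k)).2
        | exact contDiff_const.mul (contDiff_pulse L k)
  have hB : ∀ j l, ContDiff ℝ ∞ (B j l) := by
    intro j l
    rcases l with _ | ⟨k, e⟩
    · exact contDiff_const
    · exact contDiff_sepB _ (hP k e).1 (hP k e).2 j
  have p0 : ∀ k : Fin L, pairOf (sh k) 0 = (per₁ (sh k), per₂ (sh k)) := fun k => by
    simp [pairOf]
  have p1 : ∀ k : Fin L, pairOf (sh k) 1 = (iteratedDeriv 2 (per₁ (sh k)), per₂ (sh k)) :=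
    fun k => by simp [pairOf]
  have p2 : ∀ k : Fin L, pairOf (sh k) 2 = (per₁ (sh k), iteratedDeriv 2 (per₂ (sh k))) :=
    fun k => by simp [pairOf]
  have e0 : ∀ (k : Fin L), A (some (k, 0)) =
      fun s => (if (sh k).i = i then 1 else 0) * deriv (pulse L k) s := fun k => by simp [A]
  have e1 : ∀ (k : Fin L), A (some (k, 1)) =
      fun s => (if (sh k).i = i then - ν else 0) * pulse L k s := fun k => by simp [A]
  have e2 : ∀ (k : Fin L), A (some (k, 2)) =
      fun s => (if (sh k).i = i then - ν else 0) * pulse L k s := fun k => by simp [A]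
  -- the force is the sum of the separated terms
  have hF : ∀ s y₁ y₂ y₃, force ν sh L v s ![y₁, y₂, y₃] i =
      ∑ l : Idx L, A l s * B 0 l y₁ * B 1 l y₂ * B 2 l y₃ := by
    intro s y₁ y₂ y₃
    rw [Fintype.sum_option, Fintype.sum_prod_type]
    unfold force
    simp only [Finset.sum_range]
    congr 1
    · simp [A, B]
    · refine Finset.sum_congr rfl fun k _ => ?_
      have hk := hG k k.2
      have t : ∀ e : Fin 3, A (some (k, e)) s * B 0 (some (k, e)) y₁ * B 1 (some (k, e)) y₂ *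
            B 2 (some (k, e)) y₃ =
          A (some (k, e)) s * ((pairOf (sh k) e).1 ((![y₁, y₂, y₃] : E3) (sh k).p) *
            (pairOf (sh k) e).2 ((![y₁, y₂, y₃] : E3) (sh k).q)) := by
        intro e
        rw [sep_prod hk]
        simp only [B]
        ring
      simp only [Fin.sum_univ_three, t, e0, e1, e2, p0, p1, p2, shearG, shearLap]
      split_ifs <;> ring
  unfold mixedDeriv
  simp_rw [hF]
  rw [mixed_sum Finset.univ A (B 0) (B 1) (B 2) hA (hB 0) (hB 1) (hB 2)]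
  rw [Fintype.sum_option, Fintype.sum_prod_type]
  simp only [Finset.sum_range]
  congr 1
  · -- the kick
    have h1 : iteratedDeriv n₀ (A none) t = chiD (n₀ + 1) t * v i := by
      have : A none = fun s => deriv chi s * v i := rfl
      rw [this, iteratedDeriv_mul_const_field, ← iteratedDeriv_succ', iteratedDeriv_chi]
    have hb : ∀ (j : Fin 3) (n : ℕ) (x : ℝ), iteratedDeriv n (B j none) x = if n = 0 then 1 else 0 := by
      intro j n x
      exact iteratedDeriv_const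
    rw [h1, hb 0 n₁ x₁, hb 1 n₂ x₂, hb 2 n₃ x₃]
    by_cases h₁ : n₁ = 0 <;> by_cases h₂ : n₂ = 0 <;> by_cases h₃ : n₃ = 0 <;> simp [h₁, h₂, h₃]
  · refine Finset.sum_congr rfl fun k _ => ?_
    have hk := hG k k.2
    have t' : ∀ e : Fin 3, iteratedDeriv n₀ (A (some (k, e))) t *
          iteratedDeriv n₁ (B 0 (some (k, e))) x₁ * iteratedDeriv n₂ (B 1 (some (k, e))) x₂ *
            iteratedDeriv n₃ (B 2 (some (k, e))) x₃ =
        iteratedDeriv n₀ (A (some (k, e))) t *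
          (if (![n₁, n₂, n₃] : Fin 3 → ℕ) (sh k).i = 0 then
            iteratedDeriv ((![n₁, n₂, n₃] : Fin 3 → ℕ) (sh k).p) (pairOf (sh k) e).1
              ((![x₁, x₂, x₃] : E3) (sh k).p) *
            iteratedDeriv ((![n₁, n₂, n₃] : Fin 3 → ℕ) (sh k).q) (pairOf (sh k) e).2
              ((![x₁, x₂, x₃] : E3) (sh k).q)
          else 0) := by
      intro e
      rw [← sep_deriv hk]
      simp only [B]
      ring
    have a0 : iteratedDeriv n₀ (A (some (k, 0))) t =
        (if (sh k).i = i then 1 else 0) * chiD (n₀ + 1) (pc ((L : ℝ) + 1) (t - 1 - (k : ℕ))) := by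
      rw [e0, iteratedDeriv_const_mul_field, ← iteratedDeriv_succ', iteratedDeriv_pulse]
    have a1 : iteratedDeriv n₀ (A (some (k, 1))) t =
        (if (sh k).i = i then - ν else 0) * chiD n₀ (pc ((L : ℝ) + 1) (t - 1 - (k : ℕ))) := by
      rw [e1, iteratedDeriv_const_mul_field, iteratedDeriv_pulse]
    have a2 : iteratedDeriv n₀ (A (some (k, 2))) t =
        (if (sh k).i = i then - ν else 0) * chiD n₀ (pc ((L : ℝ) + 1) (t - 1 - (k : ℕ))) := by
      rw [e2, iteratedDeriv_const_mul_field, iteratedDeriv_pulse]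
    have d1 : ∀ m (y : ℝ), iteratedDeriv m (iteratedDeriv 2 (per₁ (sh k))) y =
        per₁D (sh k) (m + 2) y := by
      intro m y
      rw [iteratedDeriv_iteratedDeriv, iteratedDeriv_per₁ hk]
    have d2 : ∀ m (y : ℝ), iteratedDeriv m (iteratedDeriv 2 (per₂ (sh k))) y =
        per₂D (sh k) (m + 2) y := by
      intro m y
      rw [iteratedDeriv_iteratedDeriv, iteratedDeriv_per₂ hk]
    simp only [Fin.sum_univ_three, t', a0, a1, a2, p0, p1, p2, shearD, shearDLap, d1, d2,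
      iteratedDeriv_per₁ hk, iteratedDeriv_per₂ hk]
    split_ifs <;> ring

end Vale.Agent.Lib.P113
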