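import Vale.Agent.Lib.P113.Eff
import Vale.Agent.Lib.P113.Comp
import Vale.Agent.Lib.P113.MixedDeriv

/-!
The force of a primitive recursive family of shears is effective, uniformly in the family: from
the closed form of its mixed derivatives to a computable family of force programs.
-/

open Encodable

namespace Vale.Agent.Lib.P113

namespace Eff

variable {α : Type*} [Primcodable α]

theorem congr {f g : α → ℝ} (hf : Eff f) (h : ∀ a, g a = f a) : Eff g := by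
  have : g = f := funext h
  rwa [this]

end Eff

section

variable {α γ : Type*} [Primcodable α] [Primcodable γ]

/-- Effective derivatives of the smooth step at primitive recursive rational points. -/
theorem eff_stpD {n : α → ℕ} {y : α → ℚ} (hn : Primrec n) (hy : RatPrim y) :
    Eff fun a => iteratedDeriv (n a) stp ((y a : ℚ) : ℝ) := by
  obtain ⟨c, hc, hc'⟩ := hy
  have hcomp : Computable fun a => (n a, c a) := (hn.pair hc).to_comp
  refine (eff_smoothDeriv.comp hcomp).congr ?_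
  intro a
  simp only [hc']

/-- Reduction modulo `L` on rational numbers. -/
def pcQ (L y : ℚ) : ℚ := y - L * ((⌊y / L⌋ : ℤ) : ℚ)

theorem pc_cast (L y : ℚ) : pc (L : ℝ) (y : ℝ) = ((pcQ L y : ℚ) : ℝ) := by
  unfold pc pcQ
  have h : ⌊((y : ℝ) / (L : ℝ))⌋ = ⌊y / L⌋ := by
    rw [← Rat.cast_div, Rat.floor_cast]
  rw [h]
  push_cast
  rfl

theorem ratPrim_pcQ {L y : α → ℚ} (hL : RatPrim L) (hy : RatPrim y) :
    RatPrim fun a => pcQ (L a) (y a) :=
  hy.sub (hL.mul (hy.div hL).floor)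

/-- Primitive recursive rational data of a family of windows. -/
structure WinPrim (w : α → Win) : Prop where
  a : RatPrim fun x => (w x).a
  b : RatPrim fun x => (w x).b
  δ : RatPrim fun x => (w x).δ

theorem WinPrim.comp {w : γ → Win} (hw : WinPrim w) {h : α → γ} (hh : Primrec h) :
    WinPrim fun x => w (h x) :=
  ⟨hw.a.comp hh, hw.b.comp hh, hw.δ.comp hh⟩

/-- Primitive recursive data of a family of shears. -/
structure ShearPrim (s : α → Shear) : Prop where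
  i : Primrec fun x => (s x).i
  p : Primrec fun x => (s x).p
  q : Primrec fun x => (s x).q
  w₁ : WinPrim fun x => (s x).w₁
  w₂ : WinPrim fun x => (s x).w₂
  α : RatPrim fun x => (s x).α
  β : RatPrim fun x => (s x).β

theorem ShearPrim.comp {s : γ → Shear} (hs : ShearPrim s) {h : α → γ} (hh : Primrec h) :
    ShearPrim fun x => s (h x) :=
  ⟨hs.i.comp hh, hs.p.comp hh, hs.q.comp hh, hs.w₁.comp hh, hs.w₂.comp hh, hs.α.comp hh,
    hs.β.comp hh⟩

theorem eff_wndD {w : α → Win} (hw : WinPrim w) {n : α → ℕ} (hn : Primrec n) {y : α → ℚ}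
    (hy : RatPrim y) : Eff fun a => wndD (w a) (n a) ((y a : ℚ) : ℝ) := by
  have h1 : Eff fun a => (((((w a).δ)⁻¹ ^ n a : ℚ)) : ℝ) := Eff.ofRat (hw.δ.inv.pow hn)
  have h2 := eff_stpD hn ((hy.sub (hw.a.sub hw.δ)).div hw.δ)
  have h3 := eff_stpD hn ((hy.sub hw.b).div hw.δ)
  refine (h1.mul (h2.sub h3)).congr ?_
  intro a
  unfold wndD
  push_cast
  rfl

theorem eff_per₁D {s : α → Shear} (hs : ShearPrim s) {n : α → ℕ} (hn : Primrec n) {y : α → ℚ}
    (hy : RatPrim y) : Eff fun a => per₁D (s a) (n a) ((y a : ℚ) : ℝ) := by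
  refine (eff_wndD hs.w₁ hn (ratPrim_pcQ (RatPrim.const 1) hy)).congr ?_
  intro a
  unfold per₁D
  rw [← pc_cast]
  simp

theorem eff_per₂D {s : α → Shear} (hs : ShearPrim s) {n : α → ℕ} (hn : Primrec n) {y : α → ℚ}
    (hy : RatPrim y) : Eff fun a => per₂D (s a) (n a) ((y a : ℚ) : ℝ) := by
  have hpc := ratPrim_pcQ (L := fun _ : α => 1) (RatPrim.const 1) hy
  have h1 : Eff fun a => (((((s a).α * pcQ 1 (y a) + (s a).β : ℚ)) : ℝ)) :=
    Eff.ofRat ((hs.α.mul hpc).add hs.β)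
  have h2 := eff_wndD hs.w₂ hn hpc
  have h3 : Eff fun a => (((n a : ℚ) * (s a).α : ℚ) : ℝ) :=
    Eff.ofRat ((RatPrim.natCast hn).mul hs.α)
  have h4 := eff_wndD hs.w₂ (n := fun a => n a - 1)
    (Primrec.nat_sub.comp hn (Primrec.const 1)) hpc
  refine ((h1.mul h2).add (h3.mul h4)).congr ?_
  intro a
  unfold per₂D
  have hc : pc 1 ((y a : ℚ) : ℝ) = ((pcQ 1 (y a) : ℚ) : ℝ) := by
    rw [← pc_cast]; simp
  rw [hc]
  push_cast
  rfl

theorem eff_chiD {n : α → ℕ} (hn : Primrec n) {y : α → ℚ} (hy : RatPrim y) :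
    Eff fun a => chiD (n a) ((y a : ℚ) : ℝ) := by
  have hn1 : Primrec fun a => n a + 1 := Primrec.succ.comp hn
  have h1 : Eff fun a => (((4 : ℚ) ^ (n a + 1) : ℚ) : ℝ) :=
    Eff.ofRat ((RatPrim.const 4).pow hn1)
  have h2 := eff_stpD hn1 (((RatPrim.const 4).mul hy).sub (RatPrim.const 1))
  refine (h1.mul h2).congr ?_
  intro a
  unfold chiD
  push_cast
  rfl

theorem prim_vec3 {τ : Type*} [Primcodable τ] {f g h : α → τ} {j : α → Fin 3} (hf : Primrec f)
    (hg : Primrec g) (hh : Primrec h) (hj : Primrec j) :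
    Primrec fun a => ![f a, g a, h a] (j a) := by
  have h0 : PrimrecPred fun a => j a = 0 := Primrec.eq.comp hj (Primrec.const 0)
  have h1 : PrimrecPred fun a => j a = 1 := Primrec.eq.comp hj (Primrec.const 1)
  refine (Primrec.ite h0 hf (Primrec.ite h1 hg hh)).of_eq ?_
  intro a
  generalize j a = k
  fin_cases k <;> simp

theorem ratPrim_vec3 {f g h : α → ℚ} {j : α → Fin 3} (hf : RatPrim f)
    (hg : RatPrim g) (hh : RatPrim h) (hj : Primrec j) :
    RatPrim fun a => ![f a, g a, h a] (j a) := by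
  obtain ⟨F, hF, hF'⟩ := hf
  obtain ⟨G, hG, hG'⟩ := hg
  obtain ⟨H, hH, hH'⟩ := hh
  refine ⟨fun a => ![F a, G a, H a] (j a), prim_vec3 hF hG hH hj, ?_⟩
  intro a
  have key : ∀ k : Fin 3, (![F a, G a, H a] k).val = ![f a, g a, h a] k := by
    intro k
    fin_cases k <;> simp [hF', hG', hH']
  exact key (j a)

theorem vec3_cast (x₁ x₂ x₃ : ℚ) (j : Fin 3) :
    (![(x₁ : ℝ), (x₂ : ℝ), (x₃ : ℝ)] : E3) j = ((![x₁, x₂, x₃] j : ℚ) : ℝ) := by
  fin_cases j <;> simp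

theorem eff_shearD {s : α → Shear} (hs : ShearPrim s) {n₁ n₂ n₃ : α → ℕ} (h₁ : Primrec n₁)
    (h₂ : Primrec n₂) (h₃ : Primrec n₃) {x₁ x₂ x₃ : α → ℚ} (hx₁ : RatPrim x₁) (hx₂ : RatPrim x₂)
    (hx₃ : RatPrim x₃) :
    Eff fun a => shearD (s a) ![n₁ a, n₂ a, n₃ a] ![(x₁ a : ℝ), (x₂ a : ℝ), (x₃ a : ℝ)] := by
  have hi := prim_vec3 h₁ h₂ h₃ hs.i
  have hp := prim_vec3 h₁ h₂ h₃ hs.p
  have hq := prim_vec3 h₁ h₂ h₃ hs.q
  have hxp := ratPrim_vec3 hx₁ hx₂ hx₃ hs.p
  have hxq := ratPrim_vec3 hx₁ hx₂ hx₃ hs.q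
  have hpred : PrimrecPred fun a => ![n₁ a, n₂ a, n₃ a] (s a).i = 0 :=
    Primrec.eq.comp hi (Primrec.const 0)
  refine (Eff.ite_prim hpred ((eff_per₁D hs hp hxp).mul (eff_per₂D hs hq hxq))
    Eff.const_zero).congr ?_
  intro a
  unfold shearD
  simp only [vec3_cast]

theorem eff_shearDLap {s : α → Shear} (hs : ShearPrim s) {n₁ n₂ n₃ : α → ℕ} (h₁ : Primrec n₁)
    (h₂ : Primrec n₂) (h₃ : Primrec n₃) {x₁ x₂ x₃ : α → ℚ} (hx₁ : RatPrim x₁) (hx₂ : RatPrim x₂)
    (hx₃ : RatPrim x₃) :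
    Eff fun a => shearDLap (s a) ![n₁ a, n₂ a, n₃ a] ![(x₁ a : ℝ), (x₂ a : ℝ), (x₃ a : ℝ)] := by
  have hi := prim_vec3 h₁ h₂ h₃ hs.i
  have hp := prim_vec3 h₁ h₂ h₃ hs.p
  have hq := prim_vec3 h₁ h₂ h₃ hs.q
  have hp2 : Primrec fun a => ![n₁ a, n₂ a, n₃ a] (s a).p + 2 :=
    Primrec.nat_add.comp hp (Primrec.const 2)
  have hq2 : Primrec fun a => ![n₁ a, n₂ a, n₃ a] (s a).q + 2 :=
    Primrec.nat_add.comp hq (Primrec.const 2)
  have hxp := ratPrim_vec3 hx₁ hx₂ hx₃ hs.p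
  have hxq := ratPrim_vec3 hx₁ hx₂ hx₃ hs.q
  have hpred : PrimrecPred fun a => ![n₁ a, n₂ a, n₃ a] (s a).i = 0 :=
    Primrec.eq.comp hi (Primrec.const 0)
  refine (Eff.ite_prim hpred
    (((eff_per₁D hs hp2 hxp).mul (eff_per₂D hs hq hxq)).add
      ((eff_per₁D hs hp hxp).mul (eff_per₂D hs hq2 hxq)))
    Eff.const_zero).congr ?_
  intro a
  unfold shearDLap
  simp only [vec3_cast]

/-- The closed form of the mixed derivatives of the force, at rational points. -/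
noncomputable def forceClosed (ν : ℝ) (sh : ℕ → Shear) (L : ℕ) (v : QP) (i : Fin 3)
    (n₀ n₁ n₂ n₃ : ℕ) (t x₁ x₂ x₃ : ℚ) : ℝ :=
  (if n₁ = 0 ∧ n₂ = 0 ∧ n₃ = 0 then chiD (n₀ + 1) (t : ℝ) * ((v i : ℚ) : ℝ) else 0) +
    ∑ k ∈ Finset.range L, if (sh k).i = i then
      chiD (n₀ + 1) (pc ((L : ℝ) + 1) ((t : ℝ) - 1 - (k : ℝ))) *
          shearD (sh k) ![n₁, n₂, n₃] ![(x₁ : ℝ), (x₂ : ℝ), (x₃ : ℝ)]
        - ν * (chiD n₀ (pc ((L : ℝ) + 1) ((t : ℝ) - 1 - (k : ℝ))) *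
          shearDLap (sh k) ![n₁, n₂, n₃] ![(x₁ : ℝ), (x₂ : ℝ), (x₃ : ℝ)])
    else 0

/-- The closed form is effective, uniformly in all its data. -/
theorem eff_forceClosed {ν : ℝ} (hν : IsComputableReal ν) {sh : α → ℕ → Shear} {L : α → ℕ}
    {v : α → QP} (hsh : ShearPrim fun a : α × ℕ => sh a.1 a.2) (hL : Primrec L)
    {i : α → Fin 3} {n₀ n₁ n₂ n₃ : α → ℕ} {t x₁ x₂ x₃ : α → ℚ}
    (hi : Primrec i) (h₀ : Primrec n₀) (h₁ : Primrec n₁) (h₂ : Primrec n₂) (h₃ : Primrec n₃)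
    (hv : RatPrim fun a => v a (i a))
    (ht : RatPrim t) (hx₁ : RatPrim x₁) (hx₂ : RatPrim x₂) (hx₃ : RatPrim x₃) :
    Eff fun a => forceClosed ν (sh a) (L a) (v a) (i a) (n₀ a) (n₁ a) (n₂ a) (n₃ a)
      (t a) (x₁ a) (x₂ a) (x₃ a) := by
  have hfst : Primrec fun q : α × ℕ => q.1 := Primrec.fst
  have hsnd : Primrec fun q : α × ℕ => q.2 := Primrec.snd
  have h₀' : Primrec fun q : α × ℕ => n₀ q.1 := h₀.comp hfst
  have h₀s : Primrec fun q : α × ℕ => n₀ q.1 + 1 := Primrec.succ.comp h₀'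
  have h₁' := h₁.comp hfst
  have h₂' := h₂.comp hfst
  have h₃' := h₃.comp hfst
  have hx₁' := hx₁.comp hfst
  have hx₂' := hx₂.comp hfst
  have hx₃' := hx₃.comp hfst
  have hpcq : RatPrim fun q : α × ℕ =>
      pcQ ((L q.1 : ℚ) + 1) (t q.1 - 1 - (q.2 : ℚ)) :=
    ratPrim_pcQ ((RatPrim.natCast (hL.comp hfst)).add (RatPrim.const 1))
      (((ht.comp hfst).sub (RatPrim.const 1)).sub (RatPrim.natCast hsnd))
  have hsum_term : Eff fun q : α × ℕ =>
      if (sh q.1 q.2).i = i q.1 then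
        chiD (n₀ q.1 + 1) (((pcQ ((L q.1 : ℚ) + 1) (t q.1 - 1 - (q.2 : ℚ))) : ℚ) : ℝ) *
            shearD (sh q.1 q.2) ![n₁ q.1, n₂ q.1, n₃ q.1]
              ![(x₁ q.1 : ℝ), (x₂ q.1 : ℝ), (x₃ q.1 : ℝ)]
          - ν * (chiD (n₀ q.1) (((pcQ ((L q.1 : ℚ) + 1) (t q.1 - 1 - (q.2 : ℚ))) : ℚ) : ℝ) *
            shearDLap (sh q.1 q.2) ![n₁ q.1, n₂ q.1, n₃ q.1]
              ![(x₁ q.1 : ℝ), (x₂ q.1 : ℝ), (x₃ q.1 : ℝ)])
      else 0 := by
    have hpred : PrimrecPred fun q : α × ℕ => (sh q.1 q.2).i = i q.1 :=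
      Primrec.eq.comp hsh.i (hi.comp hfst)
    refine Eff.ite_prim hpred (Eff.sub ?_ (Eff.mul (Eff.const_computable hν) ?_)) Eff.const_zero
    · exact (eff_chiD h₀s hpcq).mul (eff_shearD hsh h₁' h₂' h₃' hx₁' hx₂' hx₃')
    · exact (eff_chiD h₀' hpcq).mul (eff_shearDLap hsh h₁' h₂' h₃' hx₁' hx₂' hx₃')
  have hfirst : Eff fun a =>
      if n₁ a = 0 ∧ n₂ a = 0 ∧ n₃ a = 0 then
        chiD (n₀ a + 1) (t a : ℝ) * ((v a (i a) : ℚ) : ℝ) else 0 := by
    have e0 : ∀ {n : α → ℕ}, Primrec n → PrimrecPred fun a => n a = 0 := fun hn =>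
      Primrec.eq.comp hn (Primrec.const 0)
    have hpred : PrimrecPred fun a => n₁ a = 0 ∧ n₂ a = 0 ∧ n₃ a = 0 :=
      (e0 h₁).and ((e0 h₂).and (e0 h₃))
    exact Eff.ite_prim hpred ((eff_chiD (Primrec.succ.comp h₀) ht).mul (Eff.ofRat hv))
      Eff.const_zero
  refine (hfirst.add (Eff.sum hsum_term hL)).congr ?_
  intro a
  unfold forceClosed
  congr 1
  refine Finset.sum_congr rfl ?_
  intro k _
  have hc : pc ((L a : ℝ) + 1) ((t a : ℝ) - 1 - (k : ℝ))
      = ((pcQ ((L a : ℚ) + 1) (t a - 1 - (k : ℚ)) : ℚ) : ℝ) := by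
    rw [← pc_cast]
    push_cast
    rfl
  simp only [hc]

/-- The inputs of a force program without the accuracy. -/
abbrev ForceInput := Fin 3 × (ℕ × ℕ × ℕ × ℕ) × (RatCode × RatCode × RatCode × RatCode)

/-- From the closed form of the mixed derivatives to a computable family of force programs. -/
theorem exists_force_compiler {β : Type*} [Primcodable β] {ν : ℝ} (hν : IsComputableReal ν)
    {sh : β → ℕ → Shear} {L : β → ℕ} {v : β → QP}
    (hsh : ShearPrim fun a : β × ℕ => sh a.1 a.2) (hL : Primrec L)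
    (hv : ∀ j, RatPrim fun b => v b j) :
    ∃ compile : β → Nat.Partrec.Code, Computable compile ∧
      ∀ b, (∀ k < L b, (sh b k).Good) →
        IsForceProgram (compile b)
          (force ν (sh b) (L b) (fun j => ((v b j : ℚ) : ℝ))) := by
  have hb : Primrec fun a : β × ForceInput => a.1 := Primrec.fst
  have hi : Primrec fun a : β × ForceInput => a.2.1 := Primrec.fst.comp Primrec.snd
  have hns : Primrec fun a : β × ForceInput => a.2.2.1 :=
    Primrec.fst.comp (Primrec.snd.comp Primrec.snd)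
  have hxs : Primrec fun a : β × ForceInput => a.2.2.2 :=
    Primrec.snd.comp (Primrec.snd.comp Primrec.snd)
  have h₀ : Primrec fun a : β × ForceInput => a.2.2.1.1 := Primrec.fst.comp hns
  have h₁ : Primrec fun a : β × ForceInput => a.2.2.1.2.1 :=
    Primrec.fst.comp (Primrec.snd.comp hns)
  have h₂ : Primrec fun a : β × ForceInput => a.2.2.1.2.2.1 :=
    Primrec.fst.comp (Primrec.snd.comp (Primrec.snd.comp hns))
  have h₃ : Primrec fun a : β × ForceInput => a.2.2.1.2.2.2 :=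
    Primrec.snd.comp (Primrec.snd.comp (Primrec.snd.comp hns))
  have ht : RatPrim fun a : β × ForceInput => a.2.2.2.1.val :=
    RatPrim.val (Primrec.fst.comp hxs)
  have hx₁ : RatPrim fun a : β × ForceInput => a.2.2.2.2.1.val :=
    RatPrim.val (Primrec.fst.comp (Primrec.snd.comp hxs))
  have hx₂ : RatPrim fun a : β × ForceInput => a.2.2.2.2.2.1.val :=
    RatPrim.val (Primrec.fst.comp (Primrec.snd.comp (Primrec.snd.comp hxs)))
  have hx₃ : RatPrim fun a : β × ForceInput => a.2.2.2.2.2.2.val :=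
    RatPrim.val (Primrec.snd.comp (Primrec.snd.comp (Primrec.snd.comp hxs)))
  have hvi : RatPrim fun a : β × ForceInput => v a.1 a.2.1 := by
    have h0 : PrimrecPred fun a : β × ForceInput => a.2.1 = 0 :=
      Primrec.eq.comp hi (Primrec.const 0)
    have h1 : PrimrecPred fun a : β × ForceInput => a.2.1 = 1 :=
      Primrec.eq.comp hi (Primrec.const 1)
    have := RatPrim.ite h0 ((hv 0).comp hb) (RatPrim.ite h1 ((hv 1).comp hb) ((hv 2).comp hb))
    obtain ⟨c, hc, hc'⟩ := this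
    refine ⟨c, hc, fun a => ?_⟩
    rw [hc']
    have key : ∀ k : Fin 3, (if k = 0 then v a.1 0 else if k = 1 then v a.1 1 else v a.1 2)
        = v a.1 k := by
      intro k
      fin_cases k <;> simp
    exact key a.2.1
  have hsh' : ShearPrim fun a : (β × ForceInput) × ℕ => sh a.1.1 a.2 :=
    hsh.comp (h := fun a : (β × ForceInput) × ℕ => (a.1.1, a.2))
      ((Primrec.fst.comp Primrec.fst).pair Primrec.snd)
  have heff := eff_forceClosed hν (sh := fun a : β × ForceInput => sh a.1)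
    (L := fun a : β × ForceInput => L a.1) (v := fun a : β × ForceInput => v a.1)
    hsh' (hL.comp hb) hi h₀ h₁ h₂ h₃ hvi ht hx₁ hx₂ hx₃
  obtain ⟨G, hG, hG'⟩ := Eff.final heff
  let H : β × (Fin 3 × (ℕ × ℕ × ℕ × ℕ) × (RatCode × RatCode × RatCode × RatCode) × RatCode)
      → RatCode := fun q => G ((q.1, q.2.1, q.2.2.1, q.2.2.2.1), q.2.2.2.2)
  have hH : Computable H := by
    have hq1 : Computable fun q : β × (Fin 3 × (ℕ × ℕ × ℕ × ℕ) ×
        (RatCode × RatCode × RatCode × RatCode) × RatCode) => q.2 := Computable.snd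
    refine hG.comp (Computable.pair (Computable.pair Computable.fst ?_) ?_)
    · exact (Computable.fst.comp hq1).pair
        ((Computable.fst.comp (Computable.snd.comp hq1)).pair
          (Computable.fst.comp (Computable.snd.comp (Computable.snd.comp hq1))))
    · exact Computable.snd.comp (Computable.snd.comp (Computable.snd.comp hq1))
  obtain ⟨compile, hcomp, hcomp'⟩ := exists_code_family hH
  refine ⟨compile, hcomp, ?_⟩
  intro b hgood i n₀ n₁ n₂ n₃ t x₁ x₂ x₃ ε hε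
  refine ⟨H (b, i, (n₀, n₁, n₂, n₃), (t, x₁, x₂, x₃), ε), hcomp' _ _, ?_⟩
  have h := hG' (b, i, (n₀, n₁, n₂, n₃), (t, x₁, x₂, x₃)) ε hε
  rw [mixedDeriv_force hgood]
  exact h

end

end Vale.Agent.Lib.P113
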