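import Vale.Agent.Lib.P113.Shear

/-!
Elementary facts on codes and windows.
-/

namespace Vale.Agent.Lib.P113

namespace Tbl

variable (T : Tbl)

lemma base_ge : (2 * (T.D : ℚ) + 2) ≤ T.base := by
  simp [base]

lemma base_pos : (0 : ℚ) < T.base := by
  have h := T.base_ge
  have : (0 : ℚ) ≤ T.D := Nat.cast_nonneg _
  linarith

lemma base_ge_two : (2 : ℚ) ≤ T.base := by
  have h := T.base_ge
  have : (0 : ℚ) ≤ T.D := Nat.cast_nonneg _
  linarith

lemma W_pos : 0 < T.W := by
  have : (0 : ℚ) ≤ T.N := Nat.cast_nonneg _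
  unfold W; positivity

lemma Z_pos : 0 < T.Z := by
  have : (0 : ℚ) ≤ T.Mc := Nat.cast_nonneg _
  unfold Z; positivity

lemma W_le : T.W ≤ 1 / 16 := by
  have h : (0 : ℚ) ≤ T.N := Nat.cast_nonneg _
  unfold W
  rw [div_le_div_iff₀ (by positivity) (by norm_num)]
  nlinarith

lemma mul_W_le {τ : ℕ} (hτ : τ ≤ T.N) : (τ : ℚ) * T.W ≤ 1 / 8 := by
  have h : (0 : ℚ) ≤ T.N := Nat.cast_nonneg _
  have hτ' : (τ : ℚ) ≤ T.N := by exact_mod_cast hτ
  unfold W
  rw [mul_one_div, div_le_div_iff₀ (by positivity) (by norm_num)]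
  nlinarith

lemma mul_Z_le {m : ℕ} (hm : m ≤ T.Mc) : (m : ℚ) * T.Z ≤ 1 / 8 := by
  have h : (0 : ℚ) ≤ T.Mc := Nat.cast_nonneg _
  have hτ' : (m : ℚ) ≤ T.Mc := by exact_mod_cast hm
  unfold Z
  rw [mul_one_div, div_le_div_iff₀ (by positivity) (by norm_num)]
  nlinarith

lemma code_nonneg (l : List ℕ) : 0 ≤ T.code l := by
  induction l with
  | nil => simp [code]
  | cons d l ih =>
    simp only [code]
    have := T.base_pos
    have hd : (0 : ℚ) ≤ d := Nat.cast_nonneg _
    positivity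

lemma code_hull {l : List ℕ} (h : ∀ d ∈ l, d < T.D) :
    T.code l + 1 / (2 * (T.base : ℚ) ^ l.length) ≤ 1 / 2 := by
  induction l with
  | nil => simp [code]
  | cons d l ih =>
    have ih' := ih (fun x hx => h x (List.mem_cons_of_mem _ hx))
    have hd : d < T.D := h d (by simp)
    have hd' : (d : ℚ) + 1 ≤ T.D := by exact_mod_cast hd
    have hb := T.base_ge
    have hb0 := T.base_pos
    simp only [code, List.length_cons, pow_succ]
    have e : ((d : ℚ) + T.code l) / (T.base : ℚ) + 1 / (2 * ((T.base : ℚ) ^ l.length * T.base))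
        = ((d : ℚ) + (T.code l + 1 / (2 * (T.base : ℚ) ^ l.length))) / T.base := by
      field_simp
      ring
    rw [e, div_le_iff₀ hb0]
    nlinarith

lemma code_le {l : List ℕ} (h : ∀ d ∈ l, d < T.D) : T.code l ≤ 1 / 2 := by
  have := T.code_hull h
  have hb0 := T.base_pos
  have : 0 ≤ 1 / (2 * (T.base : ℚ) ^ l.length) := by positivity
  linarith

lemma code_head_tail (l : List ℕ) :
    T.code l = (((l.headD 0 : ℕ) : ℚ) + T.code l.tail) / T.base := by
  cases l with
  | nil => simp [code]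
  | cons d l => simp [code]

lemma code_append (l X : List ℕ) :
    T.code (l ++ X) = T.code l + T.code X / (T.base : ℚ) ^ l.length := by
  have hb0 := T.base_pos
  induction l with
  | nil => simp [code]
  | cons d l ih =>
    simp only [List.cons_append, code, ih, List.length_cons, pow_succ]
    field_simp
    ring

/-- Position with tag `τ` and code value `v` on a stack coordinate. -/
def tv (τ : ℕ) (v : ℚ) : ℚ := 1 / 8 + (τ : ℚ) * T.W + T.W * v

lemma tv_zero (v : ℚ) : T.tv 0 v = 1 / 8 + T.W * v := by simp [tv]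

lemma tv_range {τ : ℕ} {v : ℚ} (hτ : τ ≤ T.N) (h0 : 0 ≤ v) (h1 : v ≤ 1 / 2) :
    1 / 16 ≤ T.tv τ v ∧ T.tv τ v ≤ 15 / 16 := by
  have hW := T.W_pos
  have hW' := T.W_le
  have h2 := T.mul_W_le hτ
  have h3 : (0 : ℚ) ≤ (τ : ℚ) * T.W := by positivity
  have h4 : 0 ≤ T.W * v := by positivity
  have h5 : T.W * v ≤ T.W * (1 / 2) := mul_le_mul_of_nonneg_left h1 hW.le
  unfold tv
  constructor <;> linarith

lemma tv_in {τ : ℕ} {v : ℚ} (h0 : 0 ≤ v) (h1 : v ≤ 1 / 2) : (T.tagWin τ).In (T.tv τ v) := by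
  have hW := T.W_pos
  have h4 : 0 ≤ T.W * v := by positivity
  have h5 : T.W * v ≤ T.W * (1 / 2) := mul_le_mul_of_nonneg_left h1 hW.le
  simp only [Win.In, tagWin, tv]
  constructor <;> linarith

lemma tv_out {τ τ' : ℕ} {v : ℚ} (h0 : 0 ≤ v) (h1 : v ≤ 1 / 2) (hne : τ ≠ τ') :
    (T.tagWin τ').Out (T.tv τ v) := by
  have hW := T.W_pos
  have h4 : 0 ≤ T.W * v := by positivity
  have h5 : T.W * v ≤ T.W * (1 / 2) := mul_le_mul_of_nonneg_left h1 hW.le
  simp only [Win.Out, tagWin, tv]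
  rcases lt_or_gt_of_ne hne with h | h
  · left
    have : (τ : ℚ) + 1 ≤ τ' := by exact_mod_cast h
    have := mul_le_mul_of_nonneg_right this hW.le
    linarith
  · right
    have : (τ' : ℚ) + 1 ≤ τ := by exact_mod_cast h
    have := mul_le_mul_of_nonneg_right this hW.le
    linarith

lemma big_in {y : ℚ} (h : 1 / 16 ≤ y ∧ y ≤ 15 / 16) : bigWin.In y := h

lemma sm_range {m : ℕ} (hm : m < T.Mc) : 1 / 8 ≤ T.sm m ∧ T.sm m ≤ 1 / 4 := by
  have h := T.mul_Z_le hm.le
  have h2 : 0 ≤ (m : ℚ) * T.Z := mul_nonneg (Nat.cast_nonneg _) T.Z_pos.le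
  unfold sm
  constructor <;> linarith

lemma mode_in (m : ℕ) : (T.modeWin m).In (T.sm m) := by
  simp [Win.In, modeWin]

lemma mode_out {m m' : ℕ} (h : m ≠ m') : (T.modeWin m').Out (T.sm m) := by
  have hZ := T.Z_pos
  simp only [Win.Out, modeWin, sm]
  rcases lt_or_gt_of_ne h with h | h
  · left
    have : (m : ℚ) + 1 ≤ m' := by exact_mod_cast h
    have := mul_le_mul_of_nonneg_right this hZ.le
    linarith
  · right
    have : (m' : ℚ) + 1 ≤ m := by exact_mod_cast h
    have := mul_le_mul_of_nonneg_right this hZ.le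
    linarith

lemma cyl_in {l X : List ℕ} (hX : ∀ d ∈ X, d < T.D) :
    (T.cylWin l).In (T.tv 0 (T.code (l ++ X))) := by
  have hW := T.W_pos
  have hb0 := T.base_pos
  have h0 := T.code_nonneg X
  have h1 := T.code_le hX
  have hp : 0 < (T.base : ℚ) ^ l.length := by positivity
  rw [tv_zero, code_append]
  simp only [Win.In, cylWin]
  constructor
  · have : 0 ≤ T.W * (T.code X / (T.base : ℚ) ^ l.length) := by positivity
    rw [mul_add]; linarith
  · have : T.W * (T.code X / (T.base : ℚ) ^ l.length) ≤ T.W / (2 * (T.base : ℚ) ^ l.length) := by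
      rw [mul_div_assoc', div_le_div_iff₀ hp (by positivity)]
      have := mul_le_mul_of_nonneg_left h1 (mul_pos hW hp).le
      nlinarith
    rw [mul_add]; linarith

/-- The core computation for words diverging at place `0`. -/
lemma out_aux0 {a a' c c' e : ℚ} {W b : ℚ} (hW : 0 < W) (hb : 2 ≤ b)
    (hc0 : 0 ≤ c) (hc : c ≤ 1 / 2) (hc'0 : 0 ≤ c') (he0 : 0 ≤ e) (hc'e : c' + e ≤ 1 / 2)
    (hne : a + 1 ≤ a' ∨ a' + 1 ≤ a) :
    1 / 8 + W * ((a + c) / b) ≤ 1 / 8 + W * ((a' + c') / b) - W / (4 * b ^ 2) ∨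
    1 / 8 + W * ((a' + c') / b) + W * (e / b) + W / (4 * b ^ 2) ≤ 1 / 8 + W * ((a + c) / b) := by
  have hb0 : 0 < b := by linarith
  set u := W / b with hu
  have hu0 : 0 < u := by positivity
  have e1 : ∀ y : ℚ, W * (y / b) = u * y := by
    intro y; rw [hu]; ring
  have e2 : W / (4 * b ^ 2) = u * (1 / (4 * b)) := by
    rw [hu]; field_simp
  have e3 : 1 / (4 * b) ≤ 1 / 2 := by
    rw [div_le_div_iff₀ (by positivity) (by norm_num)]; linarith
  rw [e1, e1, e1, e2]
  have e3' := mul_le_mul_of_nonneg_left e3 hu0.le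
  rcases hne with h | h
  · left
    nlinarith [mul_le_mul_of_nonneg_left (by linarith : a + c ≤ a' + c' - 1 / 2) hu0.le]
  · right
    nlinarith [mul_le_mul_of_nonneg_left (by linarith : a' + c' + e + 1 / 2 ≤ a + c) hu0.le]

/-- The core computation for words diverging at place `1`. -/
lemma out_aux1 {a e e' c c' f : ℚ} {W b : ℚ} (hW : 0 < W) (hb : 2 ≤ b)
    (hc0 : 0 ≤ c) (hc : c ≤ 1 / 2) (hc'0 : 0 ≤ c') (hf0 : 0 ≤ f) (hc'f : c' + f ≤ 1 / 2)
    (hne : e + 1 ≤ e' ∨ e' + 1 ≤ e) :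
    1 / 8 + W * ((a + (e + c) / b) / b) ≤ 1 / 8 + W * ((a + (e' + c') / b) / b) - W / (4 * b ^ 2) ∨
    1 / 8 + W * ((a + (e' + c') / b) / b) + W * (f / b ^ 2) + W / (4 * b ^ 2)
      ≤ 1 / 8 + W * ((a + (e + c) / b) / b) := by
  have hb0 : 0 < b := by linarith
  set u := W / b ^ 2 with hu
  have hu0 : 0 < u := by positivity
  have e1 : ∀ y : ℚ, W * ((a + y / b) / b) = W * (a / b) + u * y := by
    intro y; rw [hu]; field_simp
  have e2 : W / (4 * b ^ 2) = u * (1 / 4) := by
    rw [hu]; field_simp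
  have e3 : W * (f / b ^ 2) = u * f := by
    rw [hu]; field_simp
  rw [e1, e1, e2, e3]
  rcases hne with h | h
  · left
    nlinarith [mul_le_mul_of_nonneg_left (by linarith : e + c ≤ e' + c' - 1 / 2) hu0.le]
  · right
    nlinarith [mul_le_mul_of_nonneg_left (by linarith : e' + c' + f + 1 / 2 ≤ e + c) hu0.le]

/-- A stack beginning with a word is outside the window of any word diverging from it. -/
lemma cyl_out {l l' X : List ℕ} (hl : ∀ d ∈ l, d < T.D) (hl' : ∀ d ∈ l', d < T.D)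
    (hX : ∀ d ∈ X, d < T.D) (hdiv : Diverge l l') :
    (T.cylWin l').Out (T.tv 0 (T.code (l ++ X))) := by
  have hW := T.W_pos
  have hb2 := T.base_ge_two
  have hb0 := T.base_pos
  rw [tv_zero]
  simp only [Win.Out, cylWin]
  rcases hdiv with ⟨a, r, a', r', rfl, rfl, hne⟩ | ⟨a, e, r, e', r', rfl, rfl, hne⟩
  · have hvalid : ∀ d ∈ r ++ X, d < T.D := by
      intro d hd
      rcases List.mem_append.1 hd with h | h
      · exact hl d (List.mem_cons_of_mem _ h)
      · exact hX d h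
    have hr' : ∀ d ∈ r', d < T.D := fun d hd => hl' d (List.mem_cons_of_mem _ hd)
    have h1 := T.code_le hvalid
    have h2 := T.code_nonneg (r ++ X)
    have h3 := T.code_nonneg r'
    have h4 := T.code_hull hr'
    have hne' : (a : ℚ) + 1 ≤ a' ∨ (a' : ℚ) + 1 ≤ a := by
      rcases lt_or_gt_of_ne hne with h | h
      · left; exact_mod_cast h
      · right; exact_mod_cast h
    have hp : 0 < (T.base : ℚ) ^ r'.length := by positivity
    have := out_aux0 (e := 1 / (2 * (T.base : ℚ) ^ r'.length)) hW hb2 h2 h1 h3 (by positivity) h4 hne'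
    have e1 : T.W / (2 * (T.base : ℚ) ^ (a' :: r').length)
        = T.W * ((1 / (2 * (T.base : ℚ) ^ r'.length)) / T.base) := by
      simp only [List.length_cons, pow_succ]; field_simp
    simp only [List.cons_append, code]
    rw [e1]
    exact this
  · have hvalid : ∀ d ∈ r ++ X, d < T.D := by
      intro d hd
      rcases List.mem_append.1 hd with h | h
      · exact hl d (List.mem_cons_of_mem _ (List.mem_cons_of_mem _ h))
      · exact hX d h
    have hr' : ∀ d ∈ r', d < T.D := fun d hd =>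
      hl' d (List.mem_cons_of_mem _ (List.mem_cons_of_mem _ hd))
    have h1 := T.code_le hvalid
    have h2 := T.code_nonneg (r ++ X)
    have h3 := T.code_nonneg r'
    have h4 := T.code_hull hr'
    have hne' : (e : ℚ) + 1 ≤ e' ∨ (e' : ℚ) + 1 ≤ e := by
      rcases lt_or_gt_of_ne hne with h | h
      · left; exact_mod_cast h
      · right; exact_mod_cast h
    have hp : 0 < (T.base : ℚ) ^ r'.length := by positivity
    have := out_aux1 (a := (a : ℚ)) (f := 1 / (2 * (T.base : ℚ) ^ r'.length)) hW hb2 h2 h1 h3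
      (by positivity) h4 hne'
    have e1 : T.W / (2 * (T.base : ℚ) ^ (a :: e' :: r').length)
        = T.W * ((1 / (2 * (T.base : ℚ) ^ r'.length)) / (T.base : ℚ) ^ 2) := by
      simp only [List.length_cons, pow_succ]; field_simp
    simp only [List.cons_append, code]
    rw [e1]
    exact this

end Tbl

end Vale.Agent.Lib.P113
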