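import Vale.Agent.Lib.P113.Geo1

/-!
Runs of the program of shears on the rational points of stack configurations.
-/

namespace Vale.Agent.Lib.P113

namespace Tbl

variable (T : Tbl)

/-- A rational point given by its values on two stack coordinates `A`, `B` and the third one. -/
def P (A B : Fin 3) (vA vB vz : ℚ) : QP := fun i => if i = A then vA else if i = B then vB else vz

/-- Admissible pairs of stack coordinates. -/
def Sides (A B : Fin 3) : Prop := (A = 1 ∧ B = 0) ∨ (A = 0 ∧ B = 1)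

lemma sides_of_mode (m : ℕ) : Sides (sideA m) (sideB m) := by
  unfold Sides sideA sideB
  by_cases h : m % 4 < 2
  · left; simp [h]
  · right; simp [h]

section P
variable {A B : Fin 3} (h : Sides A B) (vA vB vz : ℚ)
include h

lemma P_A : P A B vA vB vz A = vA := by simp [P]
lemma P_B : P A B vA vB vz B = vB := by
  rcases h with ⟨rfl, rfl⟩ | ⟨rfl, rfl⟩ <;> simp [P]
lemma P_2 : P A B vA vB vz 2 = vz := by
  rcases h with ⟨rfl, rfl⟩ | ⟨rfl, rfl⟩ <;> simp [P]

lemma P_update_A (c : ℚ) : Function.update (P A B vA vB vz) A c = P A B c vB vz := by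
  funext i
  rcases h with ⟨rfl, rfl⟩ | ⟨rfl, rfl⟩ <;> fin_cases i <;> simp [P, Function.update]
lemma P_update_B (c : ℚ) : Function.update (P A B vA vB vz) B c = P A B vA c vz := by
  funext i
  rcases h with ⟨rfl, rfl⟩ | ⟨rfl, rfl⟩ <;> fin_cases i <;> simp [P, Function.update]
lemma P_update_2 (c : ℚ) : Function.update (P A B vA vB vz) 2 c = P A B vA vB c := by
  funext i
  rcases h with ⟨rfl, rfl⟩ | ⟨rfl, rfl⟩ <;> fin_cases i <;> simp [P, Function.update]

lemma P_OK (hA : 1 / 16 ≤ vA ∧ vA ≤ 15 / 16) (hB : 1 / 16 ≤ vB ∧ vB ≤ 15 / 16)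
    (hz : 1 / 16 ≤ vz ∧ vz ≤ 1 / 2) : OK (P A B vA vB vz) := by
  unfold OK
  rcases h with ⟨rfl, rfl⟩ | ⟨rfl, rfl⟩ <;> simp [P] <;> grind

end P

/-! ### Chains -/

variable {T}

lemma Chain.trans {i j k : ℕ} {p q r : QP} (h₁ : T.Chain i j p q) (h₂ : T.Chain j k q r) :
    T.Chain i k p r := by
  induction h₂ with
  | refl _ => exact h₁
  | step _ hm hok ih => exact Chain.step (ih h₁) hm hok

lemma Chain.le {i j : ℕ} {p q : QP} (h : T.Chain i j p q) : i ≤ j := by
  induction h with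
  | refl _ => exact le_rfl
  | step _ _ _ ih => omega

lemma Chain.ok_left {i j : ℕ} {p q : QP} (h : T.Chain i j p q) : OK p := by
  induction h with
  | refl h => exact h
  | step _ _ _ ih => exact ih

lemma Chain.ok_right {i j : ℕ} {p q : QP} (h : T.Chain i j p q) : OK q := by
  cases h with
  | refl h => exact h
  | step _ _ h => exact h

lemma Chain.single {j : ℕ} {p q : QP} (hp : OK p) (hm : (T.shearAt j).Moves p q) (hq : OK q) :
    T.Chain j (j + 1) p q := Chain.step (Chain.refl hp) hm hq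

lemma Chain.fix {i j : ℕ} {p : QP} (hp : OK p) (hij : i ≤ j)
    (hm : ∀ k, i ≤ k → k < j → (T.shearAt k).Moves p p) : T.Chain i j p p := by
  induction j, hij using Nat.le_induction with
  | base => exact Chain.refl hp
  | succ j hj ih =>
    exact Chain.step (ih (fun k h1 h2 => hm k h1 (by omega))) (hm j hj (by omega)) hp

/-! ### Moves -/

lemma moves_out₁ {s : Shear} {p : QP} (h : s.w₁.Out (p s.p)) : s.Moves p p :=
  Or.inl ⟨Or.inl h, rfl⟩

lemma moves_out₂ {s : Shear} {p : QP} (h : s.w₂.Out (p s.q)) : s.Moves p p :=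
  Or.inl ⟨Or.inr h, rfl⟩

lemma moves_in {s : Shear} {p p' : QP} (h₁ : s.w₁.In (p s.p)) (h₂ : s.w₂.In (p s.q))
    (h : p' = Function.update p s.i (p s.i + (s.α * p s.q + s.β))) : s.Moves p p' :=
  Or.inr ⟨h₁, h₂, h⟩

lemma moves_zero {s : Shear} {p : QP} (h₁ : s.w₁.In (p s.p)) (h₂ : s.w₂.In (p s.q))
    (hα : s.α = 0) (hβ : s.β = 0) : s.Moves p p := by
  refine moves_in h₁ h₂ ?_
  simp [hα, hβ]

/-! ### The program in slots -/

variable (T)

lemma shearAt_tag {k : ℕ} (h : k < T.N) : T.shearAt k = T.tagShear k := by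
  simp [shearAt, h]

lemma shearAt_mid' {k : ℕ} (h1 : T.N ≤ k) (h2 : k < 10 * T.N) :
    T.shearAt k = T.midShear ((k - T.N) / 9) ((k - T.N) % 9) := by
  have : ¬ k < T.N := by omega
  simp [shearAt, this, h2]

lemma shearAt_mid {r j : ℕ} (hr : r < T.N) (hj : j < 9) :
    T.shearAt (T.N + (9 * r + j)) = T.midShear r j := by
  rw [shearAt_mid' T (by omega) (by omega)]
  have h1 : T.N + (9 * r + j) - T.N = 9 * r + j := by omega
  rw [h1]
  congr 1 <;> omega

lemma shearAt_erase {r : ℕ} (hr : r < T.N) :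
    T.shearAt (10 * T.N + r) = T.eraseShear r := by
  have h1 : ¬ (10 * T.N + r < T.N) := by omega
  have h2 : ¬ (10 * T.N + r < 10 * T.N) := by omega
  have h3 : 10 * T.N + r < 11 * T.N := by omega
  simp [shearAt, h1, h2, h3]

lemma shearAt_idle {k : ℕ} (h : T.L ≤ k) : T.shearAt k = idleShear := by
  have h0 : T.L = 11 * T.N := rfl
  have h1 : ¬ (k < T.N) := by omega
  have h2 : ¬ (k < 10 * T.N) := by omega
  have h3 : ¬ (k < 11 * T.N) := by omega
  simp [shearAt, h1, h2, h3]

/-! ### Rule numbers -/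

section Rule

variable {T}

lemma rMode_digit {r : ℕ} : T.rMode r + T.Mc * T.rDigit r = r := Nat.mod_add_div r T.Mc

lemma rMode_lt {r : ℕ} (hMc : 0 < T.Mc) : T.rMode r < T.Mc := Nat.mod_lt _ hMc

lemma rDigit_lt {r : ℕ} (hr : r < T.N) : T.rDigit r < T.D := by
  unfold rDigit N at *
  exact Nat.div_lt_of_lt_mul hr

lemma rule_of {m d : ℕ} (hm : m < T.Mc) :
    T.rMode (m + T.Mc * d) = m ∧ T.rDigit (m + T.Mc * d) = d := by
  have hMc : 0 < T.Mc := by omega
  constructor
  · unfold rMode; simp [Nat.add_mul_mod_self_left, Nat.mod_eq_of_lt hm]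
  · unfold rDigit; rw [Nat.add_mul_div_left _ _ hMc, Nat.div_eq_of_lt hm]; simp

lemma rule_lt {m d : ℕ} (hm : m < T.Mc) (hd : d < T.D) : m + T.Mc * d < T.N := by
  unfold N
  calc m + T.Mc * d < T.Mc + T.Mc * d := by omega
    _ = T.Mc * (d + 1) := by ring
    _ ≤ T.Mc * T.D := Nat.mul_le_mul_left _ hd

lemma rule_ne_of_ne {r r' : ℕ} (h : r' ≠ r) : (T.rMode r', T.rDigit r') ≠ (T.rMode r, T.rDigit r) := by
  intro he
  simp only [Prod.mk.injEq] at he
  apply h
  rw [← rMode_digit (T := T) (r := r'), ← rMode_digit (T := T) (r := r), he.1, he.2]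

end Rule

end Tbl

end Vale.Agent.Lib.P113
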