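import Vale.Agent.Lib.P113.Geo2

/-!
Non-interference of the shears of other rules.
-/

namespace Vale.Agent.Lib.P113

namespace Tbl

variable {T : Tbl}

lemma midData_p (r j : ℕ) : (T.midData r j).2.1 = 0 ∨ (T.midData r j).2.1 = 1 := by
  have hA : sideA (T.rMode r) = 0 ∨ sideA (T.rMode r) = 1 := by
    unfold sideA; split_ifs <;> simp
  have hB : sideB (T.rMode r) = 0 ∨ sideB (T.rMode r) = 1 := by
    unfold sideB; split_ifs <;> simp
  simp only [midData]
  split
  · simpa using hB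
  · split_ifs <;> simpa using hB
  · split_ifs <;> first | simpa using hB | simpa using hA

lemma tag_other {r r' : ℕ} (hr' : r' < T.N) (hne : r' ≠ r) {p : QP} {As : List ℕ}
    (hz : p 2 = T.sm (T.rMode r)) (hA : p (sideA (T.rMode r)) = T.tv 0 (T.code As))
    (ha : As.headD 0 = T.rDigit r) (hd : T.rDigit r < T.D) (hAs : ∀ x ∈ As, x < T.D) :
    (T.tagShear r').Moves p p := by
  by_cases hm : T.rMode r' = T.rMode r
  · apply moves_out₁
    show (T.cylWin [T.rDigit r']).Out (p (sideA (T.rMode r')))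
    rw [hm, hA]
    have hc : T.code As = T.code ([T.rDigit r] ++ As.tail) := by
      rw [code_head_tail, ha]; simp [code]
    rw [hc]
    have hd' : T.rDigit r' ≠ T.rDigit r := by
      intro h
      exact rule_ne_of_ne hne (by rw [hm, h])
    refine T.cyl_out (by simpa using hd) (by simpa using rDigit_lt hr') ?_ ?_
    · intro x hx
      exact hAs x (List.mem_of_mem_tail hx)
    · left
      exact ⟨_, [], _, [], rfl, rfl, hd'.symm⟩
  · apply moves_out₂
    show (T.modeWin (T.rMode r')).Out (p 2)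
    rw [hz]
    exact T.mode_out (Ne.symm hm)

lemma mid_other {r' j : ℕ} {p : QP} {τ₀ τ₁ : ℕ} {v₀ v₁ : ℚ}
    (h0 : p 0 = T.tv τ₀ v₀) (h1 : p 1 = T.tv τ₁ v₁)
    (hv₀ : 0 ≤ v₀ ∧ v₀ ≤ 1 / 2) (hv₁ : 0 ≤ v₁ ∧ v₁ ≤ 1 / 2)
    (hτ₀ : τ₀ ≠ r' + 1) (hτ₁ : τ₁ ≠ r' + 1) :
    (T.midShear r' j).Moves p p := by
  apply moves_out₁
  show (T.tagWin (r' + 1)).Out (p (T.midData r' j).2.1)
  rcases midData_p (T := T) r' j with h | h
  · rw [h, h0]; exact T.tv_out hv₀.1 hv₀.2 hτ₀
  · rw [h, h1]; exact T.tv_out hv₁.1 hv₁.2 hτ₁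

lemma eraseShear_push {r m' : ℕ} {l : List ℕ}
    (h : T.tr (T.rMode r) (T.rDigit r) = Outcome.push m' l) :
    T.eraseShear r = ⟨sideA (T.rMode r), sideB (T.rMode r), 2, T.cylWin l, T.modeWin m', 0,
      - (((r : ℚ) + 1) * T.W)⟩ := by
  simp only [eraseShear, h]

lemma eraseShear_stuck {r : ℕ} (h : T.tr (T.rMode r) (T.rDigit r) = Outcome.stuck) :
    T.eraseShear r = ⟨sideA (T.rMode r), sideB (T.rMode r), 2, bigWin, bigWin, 0, 0⟩ := by
  simp only [eraseShear, h]

lemma eraseShear_halt {r : ℕ} (h : T.tr (T.rMode r) (T.rDigit r) = Outcome.halt) :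
    T.eraseShear r = ⟨sideA (T.rMode r), sideB (T.rMode r), 2, bigWin, bigWin, 0, 0⟩ := by
  simp only [eraseShear, h]

lemma erase_zero {r : ℕ} {p : QP} (hok : OK p) :
    Shear.Moves ⟨sideA (T.rMode r), sideB (T.rMode r), 2, bigWin, bigWin, 0, 0⟩ p p := by
  apply moves_zero _ _ rfl rfl
  · show bigWin.In (p (sideB (T.rMode r)))
    unfold sideB
    split_ifs
    · exact hok.1
    · exact hok.2.1
  · show bigWin.In (p 2)
    exact ⟨hok.2.2.1, hok.2.2.2.trans (by norm_num [bigWin])⟩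

lemma erase_other (hS : TableSpec T.Mc T.D T.tr) (hMc : 0 < T.Mc) {r r' : ℕ} (hr : r < T.N)
    (hr' : r' < T.N) (hne : r' ≠ r) {m' : ℕ} {l Bs : List ℕ}
    (ht : T.tr (T.rMode r) (T.rDigit r) = Outcome.push m' l)
    {p : QP} (hok : OK p) (hz : p 2 = T.sm m')
    (hB : p (sideB (T.rMode r)) = T.tv 0 (T.code (l ++ Bs))) (hBs : ∀ x ∈ Bs, x < T.D) :
    (T.eraseShear r').Moves p p := by
  have hm := rMode_lt (T := T) (r := r) hMc
  have hd := rDigit_lt (T := T) hr
  have hm' := rMode_lt (T := T) (r := r') hMc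
  have hd' := rDigit_lt (T := T) hr'
  obtain ⟨-, hl, -⟩ := hS.bound _ _ _ _ hm hd ht
  cases ht' : T.tr (T.rMode r') (T.rDigit r') with
  | stuck =>
    rw [eraseShear_stuck ht']
    exact erase_zero hok
  | halt =>
    rw [eraseShear_halt ht']
    exact erase_zero hok
  | push m₂ l₂ =>
    rw [eraseShear_push ht']
    by_cases he : m₂ = m'
    · subst he
      apply moves_out₁
      show (T.cylWin l₂).Out (p (sideB (T.rMode r')))
      obtain ⟨-, hl₂, -⟩ := hS.bound _ _ _ _ hm' hd' ht'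
      have hsame : sideB (T.rMode r') = sideB (T.rMode r) := by
        have h1 := hS.side _ _ _ _ ht
        have h2 := hS.side _ _ _ _ ht'
        unfold sideB
        by_cases h3 : T.rMode r % 4 < 2
        · have h4 := h2.2 (h1.1 h3)
          simp [h3, h4]
        · have h4 : ¬ T.rMode r' % 4 < 2 := fun h => h3 (h1.2 (h2.1 h))
          simp [h3, h4]
      rw [hsame, hB]
      exact T.cyl_out hl hl₂ hBs
        (hS.inj _ _ _ _ _ _ _ hm hd hm' hd' ht ht' (rule_ne_of_ne hne).symm)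
    · apply moves_out₂
      show (T.modeWin m₂).Out (p 2)
      rw [hz]
      exact T.mode_out (Ne.symm he)

end Tbl

end Vale.Agent.Lib.P113
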