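import Vale.Agent.Lib.P113.Geo3

/-!
One period of the program of shears acts on configuration points as one step of the stack machine.
-/

namespace Vale.Agent.Lib.P113

namespace Tbl

variable {T : Tbl}

lemma midShear_moves {r j : ℕ} {i pc qc : Fin 3} {α β : ℚ}
    (hdata : T.midData r j = (i, pc, qc, α, β)) {p p' : QP}
    (h₁ : (T.tagWin (r + 1)).In (p pc)) (h₂ : bigWin.In (p qc))
    (h : p' = Function.update p i (p i + (α * p qc + β))) : (T.midShear r j).Moves p p' := by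
  unfold midShear
  simp only [hdata]
  exact moves_in h₁ h₂ h

section Fix
variable (hMc : 0 < T.Mc)
include hMc

/-- The stage of tags, for a point of rule `r`, up to slot `r`. -/
lemma chain_tag_fix {r a b : ℕ} (hrN : b ≤ T.N) (hab : a ≤ b) (hr : r < a ∨ b ≤ r)
    {p : QP} {As : List ℕ} (hok : OK p)
    (hz : p 2 = T.sm (T.rMode r)) (hA : p (sideA (T.rMode r)) = T.tv 0 (T.code As))
    (ha : As.headD 0 = T.rDigit r) (hd : T.rDigit r < T.D) (hAs : ∀ x ∈ As, x < T.D) :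
    T.Chain a b p p := by
  refine Chain.fix hok hab (fun k h1 h2 => ?_)
  rw [T.shearAt_tag (by omega)]
  exact tag_other (by omega) (by omega) hz hA ha hd hAs

omit hMc in
/-- The middle stage, for rules other than `r`. -/
lemma chain_mid_fix {r a b : ℕ} (hb : b ≤ T.N) (hab : a ≤ b) (hr : r < a ∨ b ≤ r)
    {p : QP} {τ₀ τ₁ : ℕ} {v₀ v₁ : ℚ} (hok : OK p)
    (h0 : p 0 = T.tv τ₀ v₀) (h1 : p 1 = T.tv τ₁ v₁)
    (hv₀ : 0 ≤ v₀ ∧ v₀ ≤ 1 / 2) (hv₁ : 0 ≤ v₁ ∧ v₁ ≤ 1 / 2)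
    (hτ₀ : τ₀ = 0 ∨ τ₀ = r + 1) (hτ₁ : τ₁ = 0 ∨ τ₁ = r + 1) :
    T.Chain (T.N + 9 * a) (T.N + 9 * b) p p := by
  refine Chain.fix hok (by omega) (fun k h1' h2' => ?_)
  rw [T.shearAt_mid' (by omega) (by omega)]
  have hq : (k - T.N) / 9 ≠ r := by
    intro he
    have : (k - T.N) / 9 < b := by omega
    have : a ≤ (k - T.N) / 9 := by omega
    omega
  refine mid_other h0 h1 hv₀ hv₁ ?_ ?_
  · rcases hτ₀ with h | h <;> omega
  · rcases hτ₁ with h | h <;> omega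

end Fix

/-- The nine steps of the middle stage of a rule that pushes. -/
lemma chain_mid_push {r m d m' : ℕ} {l As Bs : List ℕ} (hrN : r < T.N) (hMc : 0 < T.Mc)
    (hS : TableSpec T.Mc T.D T.tr)
    (hm : T.rMode r = m) (hdig : T.rDigit r = d) (ha : As.headD 0 = d)
    (hAs : ∀ x ∈ As, x < T.D) (hBs : ∀ x ∈ Bs, x < T.D) (ht : T.tr m d = Outcome.push m' l) :
    T.Chain (T.N + (9 * r + 0)) (T.N + (9 * r + 9))
      (P (sideA m) (sideB m) (T.tv 0 (T.code As)) (T.tv (r + 1) (T.code Bs)) (T.sm m))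
      (P (sideA m) (sideB m) (T.tv (r + 1) (T.code As.tail)) (T.tv 0 (T.code (l ++ Bs))) (T.sm m')) := by
  have hs := sides_of_mode m
  have hdD : d < T.D := hdig ▸ rDigit_lt hrN
  have hmc : m < T.Mc := hm ▸ rMode_lt hMc
  obtain ⟨hm'c, hl, -⟩ := hS.bound _ _ _ _ hmc hdD ht
  have hW := T.W_pos
  have hW16 := T.W_le
  have hb := T.base_pos
  have hs1 := T.sm_range hmc
  have hs2 := T.sm_range hm'c
  set A := sideA m with hA
  set B := sideB m with hB
  set vA := T.code As with hvA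
  set vA' := T.code As.tail with hvA'
  set vB := T.code Bs with hvB
  set vB' := T.code (l ++ Bs) with hvB'
  set s := T.sm m with hss
  set s' := T.sm m' with hss'
  set τ := r + 1 with hτ
  have hτN : τ ≤ T.N := by omega
  have hAs' : ∀ x ∈ As.tail, x < T.D := fun x hx => hAs x (List.mem_of_mem_tail hx)
  have hBs' : ∀ x ∈ l ++ Bs, x < T.D := by
    intro x hx
    rcases List.mem_append.1 hx with h | h
    · exact hl x h
    · exact hBs x h
  have hvA0 : 0 ≤ vA ∧ vA ≤ 1 / 2 := ⟨T.code_nonneg _, T.code_le hAs⟩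
  have hvA'0 : 0 ≤ vA' ∧ vA' ≤ 1 / 2 := ⟨T.code_nonneg _, T.code_le hAs'⟩
  have hvB0 : 0 ≤ vB ∧ vB ≤ 1 / 2 := ⟨T.code_nonneg _, T.code_le hBs⟩
  have hvB'0 : 0 ≤ vB' ∧ vB' ≤ 1 / 2 := ⟨T.code_nonneg _, T.code_le hBs'⟩
  have htv : ∀ {t : ℕ} {v : ℚ}, t ≤ T.N → 0 ≤ v ∧ v ≤ 1 / 2 →
      1 / 16 ≤ T.tv t v ∧ T.tv t v ≤ 15 / 16 := fun ht hv => T.tv_range ht hv.1 hv.2
  have hz : ∀ {v : ℚ}, 0 ≤ v ∧ v ≤ 1 / 2 → 1 / 16 ≤ s + T.W * v ∧ s + T.W * v ≤ 1 / 2 := by
    intro v hv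
    have h1 : 0 ≤ T.W * v := mul_nonneg hW.le hv.1
    have h2 : T.W * v ≤ T.W * (1 / 2) := mul_le_mul_of_nonneg_left hv.2 hW.le
    constructor <;> linarith [hs1.1, hs1.2]
  have hzs : 1 / 16 ≤ s ∧ s ≤ 1 / 2 := ⟨by linarith [hs1.1], by linarith [hs1.2]⟩
  have hzs' : 1 / 16 ≤ s' ∧ s' ≤ 1 / 2 := ⟨by linarith [hs2.1], by linarith [hs2.2]⟩
  have h0N : (0 : ℕ) ≤ T.N := Nat.zero_le _
  have big : ∀ {y : ℚ}, 1 / 16 ≤ y ∧ y ≤ 1 / 2 → bigWin.In y := fun h =>
    ⟨h.1, h.2.trans (by norm_num [bigWin])⟩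
  -- the data of the rule
  have hdat : ∀ j, T.midData r j =
      (let b : ℚ := T.base
       let lam : ℚ := ((T.base : ℚ) ^ l.length)⁻¹
       let c : ℚ := T.code l
       let dq : ℚ := d
       let τW := ((r : ℚ) + 1) * T.W
       if j = 0 then (2, B, A, 1, - (1 / 8))
       else if j = 1 then (A, B, 2, b - 1, - (b - 1) * s - T.W * dq)
       else if j = 2 then (2, B, A, - 1 / b, (1 / 8 - T.W * dq) / b)
       else if j = 3 then (A, B, 2, 0, τW)
       else if j = 4 then (B, A, 2, 0, - τW)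
       else if j = 5 then (2, A, B, 1, - (1 / 8))
       else if j = 6 then (B, A, 2, lam - 1, - (lam - 1) * s + T.W * c)
       else if j = 7 then (2, A, B, - 1 / lam, (1 / 8 + T.W * c) / lam)
       else (2, A, B, 0, s' - s)) := by
    intro j
    subst hm hdig
    simp only [midData, ht]
    rfl
  have hvAe : vA * (T.base : ℚ) = (d : ℚ) + vA' := by
    rw [hvA, hvA', T.code_head_tail As, ha]
    field_simp
  set lam : ℚ := ((T.base : ℚ) ^ l.length)⁻¹ with hlam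
  have hlam0 : lam ≠ 0 := by rw [hlam]; positivity
  have hvBe : vB' = T.code l + lam * vB := by
    rw [hvB', T.code_append, hlam, hvB]; ring
  have d0 : T.midData r 0 = (2, B, A, 1, - (1 / 8)) := by rw [hdat]; rfl
  have d1 : T.midData r 1 = (A, B, 2, (T.base : ℚ) - 1, - ((T.base : ℚ) - 1) * s - T.W * (d : ℚ)) := by
    rw [hdat]; rfl
  have d2 : T.midData r 2 = (2, B, A, - 1 / (T.base : ℚ), (1 / 8 - T.W * (d : ℚ)) / (T.base : ℚ)) := by
    rw [hdat]; rfl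
  have d3 : T.midData r 3 = (A, B, 2, 0, ((r : ℚ) + 1) * T.W) := by rw [hdat]; rfl
  have d4 : T.midData r 4 = (B, A, 2, 0, - (((r : ℚ) + 1) * T.W)) := by rw [hdat]; rfl
  have d5 : T.midData r 5 = (2, A, B, 1, - (1 / 8)) := by rw [hdat]; rfl
  have d6 : T.midData r 6 = (B, A, 2, lam - 1, - (lam - 1) * s + T.W * T.code l) := by rw [hdat]; rfl
  have d7 : T.midData r 7 = (2, A, B, - 1 / lam, (1 / 8 + T.W * T.code l) / lam) := by rw [hdat]; rfl
  have d8 : T.midData r 8 = (2, A, B, 0, s' - s) := by rw [hdat]; rfl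
  have step : ∀ {j : ℕ} {p q q' : QP}, j < 9 →
      T.Chain (T.N + (9 * r + 0)) (T.N + (9 * r + j)) p q → (T.midShear r j).Moves q q' → OK q' →
      T.Chain (T.N + (9 * r + 0)) (T.N + (9 * r + (j + 1))) p q' := by
    intro j p q q' hj hc hmv hok
    have hmv' : (T.shearAt (T.N + (9 * r + j))).Moves q q' := by
      rw [T.shearAt_mid hrN hj]
      exact hmv
    exact Chain.step hc hmv' hok
  have mk : ∀ {vA vB vz : ℚ}, (1 / 16 ≤ vA ∧ vA ≤ 15 / 16) → (1 / 16 ≤ vB ∧ vB ≤ 15 / 16) →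
      (1 / 16 ≤ vz ∧ vz ≤ 1 / 2) → OK (P A B vA vB vz) := fun a b c => P_OK hs _ _ _ a b c
  have hIn : ∀ {v : ℚ}, 0 ≤ v ∧ v ≤ 1 / 2 → (T.tagWin τ).In (T.tv τ v) := fun h => T.tv_in h.1 h.2
  have hbig : ∀ {t : ℕ} {v : ℚ}, t ≤ T.N → 0 ≤ v ∧ v ≤ 1 / 2 → bigWin.In (T.tv t v) := fun ht hv =>
    htv ht hv
  have c0 : T.Chain (T.N + (9 * r + 0)) (T.N + (9 * r + 0))
      (P A B (T.tv 0 vA) (T.tv τ vB) s) (P A B (T.tv 0 vA) (T.tv τ vB) s) :=
    Chain.refl (mk (htv h0N hvA0) (htv hτN hvB0) hzs)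
  -- j = 0 : the third coordinate takes the popped value
  have c1 := step (j := 0) (q' := P A B (T.tv 0 vA) (T.tv τ vB) (s + T.W * vA)) (by norm_num) c0
    (midShear_moves d0
      (by rw [P_B hs]; exact hIn hvB0) (by rw [P_A hs]; exact hbig h0N hvA0)
      (by
        rw [P_update_2 hs, P_2 hs, P_A hs]
        refine congrArg (P A B _ _) ?_
        simp only [tv]; ring))
    (mk (htv h0N hvA0) (htv hτN hvB0) (hz hvA0))
  -- j = 1 : the popped coordinate is scaled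
  have c2 := step (j := 1) (q' := P A B (T.tv 0 vA') (T.tv τ vB) (s + T.W * vA)) (by norm_num) c1
    (midShear_moves d1
      (by rw [P_B hs]; exact hIn hvB0) (by rw [P_2 hs]; exact big (hz hvA0))
      (by
        rw [P_update_A hs, P_A hs, P_2 hs]
        refine congrArg (fun t => P A B t _ _) ?_
        simp only [tv]
        linear_combination (- T.W) * hvAe))
    (mk (htv h0N hvA'0) (htv hτN hvB0) (hz hvA0))
  -- j = 2 : the third coordinate comes back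
  have c3 := step (j := 2) (q' := P A B (T.tv 0 vA') (T.tv τ vB) s) (by norm_num) c2
    (midShear_moves d2
      (by rw [P_B hs]; exact hIn hvB0) (by rw [P_A hs]; exact hbig h0N hvA'0)
      (by
        rw [P_update_2 hs, P_2 hs, P_A hs]
        refine congrArg (P A B _ _) ?_
        simp only [tv]
        field_simp
        linear_combination (- 8 * T.W) * hvAe))
    (mk (htv h0N hvA'0) (htv hτN hvB0) hzs)
  -- j = 3 : move the tag, first part
  have c4 := step (j := 3) (q' := P A B (T.tv τ vA') (T.tv τ vB) s) (by norm_num) c3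
    (midShear_moves d3
      (by rw [P_B hs]; exact hIn hvB0) (by rw [P_2 hs]; exact big hzs)
      (by
        rw [P_update_A hs, P_A hs]
        refine congrArg (fun t => P A B t _ _) ?_
        simp only [tv, hτ]; push_cast; ring))
    (mk (htv hτN hvA'0) (htv hτN hvB0) hzs)
  -- j = 4 : move the tag, second part
  have c5 := step (j := 4) (q' := P A B (T.tv τ vA') (T.tv 0 vB) s) (by norm_num) c4
    (midShear_moves d4
      (by rw [P_A hs]; exact hIn hvA'0) (by rw [P_2 hs]; exact big hzs)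
      (by
        rw [P_update_B hs, P_B hs]
        refine congrArg (fun t => P A B _ t _) ?_
        simp only [tv, hτ]; push_cast; ring))
    (mk (htv hτN hvA'0) (htv h0N hvB0) hzs)
  -- j = 5 : the third coordinate takes the value to be scaled
  have c6 := step (j := 5) (q' := P A B (T.tv τ vA') (T.tv 0 vB) (s + T.W * vB)) (by norm_num) c5
    (midShear_moves d5
      (by rw [P_A hs]; exact hIn hvA'0) (by rw [P_B hs]; exact hbig h0N hvB0)
      (by
        rw [P_update_2 hs, P_2 hs, P_B hs]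
        refine congrArg (P A B _ _) ?_
        simp only [tv]; ring))
    (mk (htv hτN hvA'0) (htv h0N hvB0) (hz hvB0))
  -- j = 6 : scale and translate (push)
  have c7 := step (j := 6) (q' := P A B (T.tv τ vA') (T.tv 0 vB') (s + T.W * vB)) (by norm_num) c6
    (midShear_moves d6
      (by rw [P_A hs]; exact hIn hvA'0) (by rw [P_2 hs]; exact big (hz hvB0))
      (by
        rw [P_update_B hs, P_B hs, P_2 hs]
        refine congrArg (fun t => P A B _ t _) ?_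
        simp only [tv]
        rw [hvBe]
        ring))
    (mk (htv hτN hvA'0) (htv h0N hvB'0) (hz hvB0))
  -- j = 7 : the third coordinate comes back
  have c8 := step (j := 7) (q' := P A B (T.tv τ vA') (T.tv 0 vB') s) (by norm_num) c7
    (midShear_moves d7
      (by rw [P_A hs]; exact hIn hvA'0) (by rw [P_B hs]; exact hbig h0N hvB'0)
      (by
        rw [P_update_2 hs, P_2 hs, P_B hs]
        refine congrArg (P A B _ _) ?_
        simp only [tv]
        rw [hvBe]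
        field_simp
        ring))
    (mk (htv hτN hvA'0) (htv h0N hvB'0) hzs)
  -- j = 8 : the new mode
  have c9 := step (j := 8) (q' := P A B (T.tv τ vA') (T.tv 0 vB') s') (by norm_num) c8
    (midShear_moves d8
      (by rw [P_A hs]; exact hIn hvA'0) (by rw [P_B hs]; exact hbig h0N hvB'0)
      (by
        rw [P_update_2 hs, P_2 hs]
        refine congrArg (P A B _ _) ?_
        ring))
    (mk (htv hτN hvA'0) (htv h0N hvB'0) hzs')
  exact c9


lemma Chain.cast {i j i' j' : ℕ} {p q : QP} (h : T.Chain i j p q) (hi : i = i') (hj : j = j') :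
    T.Chain i' j' p q := by
  subst hi hj; exact h

lemma tagAmount_of {r : ℕ} (h : T.tr (T.rMode r) (T.rDigit r) ≠ Outcome.stuck) :
    T.tagAmount r = ((r : ℚ) + 1) * T.W := by
  unfold tagAmount
  cases ht : T.tr (T.rMode r) (T.rDigit r) with
  | stuck => exact absurd ht h
  | halt => rfl
  | push m l => rfl

/-- The move of the first stage for the rule of a point. -/
lemma tag_self {r m d : ℕ} {As : List ℕ} (hAs : ∀ x ∈ As, x < T.D) (hm : T.rMode r = m)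
    (hdig : T.rDigit r = d) (ha : As.headD 0 = d) (ht : T.tr m d ≠ Outcome.stuck) (vB : ℚ) :
    (T.tagShear r).Moves (P (sideA m) (sideB m) (T.tv 0 (T.code As)) (T.tv 0 vB) (T.sm m))
      (P (sideA m) (sideB m) (T.tv 0 (T.code As)) (T.tv (r + 1) vB) (T.sm m)) := by
  have hs := sides_of_mode m
  subst hm hdig
  apply moves_in
  · show (T.cylWin [T.rDigit r]).In
      (P (sideA (T.rMode r)) (sideB (T.rMode r)) (T.tv 0 (T.code As)) (T.tv 0 vB) (T.sm (T.rMode r))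
        (sideA (T.rMode r)))
    rw [P_A hs]
    have hc : T.code As = T.code ([T.rDigit r] ++ As.tail) := by
      rw [code_head_tail, ha]; simp [code]
    rw [hc]
    exact T.cyl_in (fun x hx => hAs x (List.mem_of_mem_tail hx))
  · show (T.modeWin (T.rMode r)).In
      (P (sideA (T.rMode r)) (sideB (T.rMode r)) (T.tv 0 (T.code As)) (T.tv 0 vB) (T.sm (T.rMode r)) 2)
    rw [P_2 hs]
    exact T.mode_in _
  · show _ = Function.update (P (sideA (T.rMode r)) (sideB (T.rMode r)) (T.tv 0 (T.code As)) (T.tv 0 vB)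
        (T.sm (T.rMode r))) (sideB (T.rMode r))
        (P (sideA (T.rMode r)) (sideB (T.rMode r)) (T.tv 0 (T.code As)) (T.tv 0 vB)
        (T.sm (T.rMode r)) (sideB (T.rMode r)) + (0 * _ + T.tagAmount r))
    rw [P_update_B hs, P_B hs, tagAmount_of ht]
    refine congrArg (fun t => P _ _ _ t _) ?_
    simp only [tv]; push_cast; ring

/-- The last stage, for rules other than `r`. -/
lemma chain_erase_fix {r a b m' : ℕ} {l Bs : List ℕ} (hS : TableSpec T.Mc T.D T.tr) (hMc : 0 < T.Mc)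
    (hr : r < T.N) (hb : b ≤ T.N) (hab : a ≤ b) (hra : r < a ∨ b ≤ r)
    (ht : T.tr (T.rMode r) (T.rDigit r) = Outcome.push m' l)
    {p : QP} (hok : OK p) (hz : p 2 = T.sm m')
    (hB : p (sideB (T.rMode r)) = T.tv 0 (T.code (l ++ Bs))) (hBs : ∀ x ∈ Bs, x < T.D) :
    T.Chain (10 * T.N + a) (10 * T.N + b) p p := by
  refine Chain.fix hok (by omega) (fun k h1 h2 => ?_)
  have hk : k = 10 * T.N + (k - 10 * T.N) := by omega
  rw [hk, T.shearAt_erase (by omega)]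
  exact erase_other hS hMc hr (by omega) (by omega) ht hok hz hB hBs

/-- A full period for a configuration whose rule pushes. -/
theorem chain_push (hS : TableSpec T.Mc T.D T.tr) {m d m' : ℕ} {l As Bs : List ℕ} (hmc : m < T.Mc)
    (hdD : d < T.D) (ha : As.headD 0 = d) (hAs : ∀ x ∈ As, x < T.D) (hBs : ∀ x ∈ Bs, x < T.D)
    (ht : T.tr m d = Outcome.push m' l) :
    T.Chain 0 T.L
      (P (sideA m) (sideB m) (T.tv 0 (T.code As)) (T.tv 0 (T.code Bs)) (T.sm m))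
      (P (sideA m) (sideB m) (T.tv 0 (T.code As.tail)) (T.tv 0 (T.code (l ++ Bs))) (T.sm m')) := by
  have hMc : 0 < T.Mc := by omega
  obtain ⟨hr_m, hr_d⟩ := rule_of (T := T) (d := d) hmc
  have hrN := rule_lt (T := T) hmc hdD
  set r := m + T.Mc * d with hr
  have hs := sides_of_mode m
  obtain ⟨hm'c, hl, -⟩ := hS.bound _ _ _ _ hmc hdD ht
  have hAs' : ∀ x ∈ As.tail, x < T.D := fun x hx => hAs x (List.mem_of_mem_tail hx)
  have hBs' : ∀ x ∈ l ++ Bs, x < T.D := by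
    intro x hx
    rcases List.mem_append.1 hx with h | h
    · exact hl x h
    · exact hBs x h
  have hvA0 : 0 ≤ T.code As ∧ T.code As ≤ 1 / 2 := ⟨T.code_nonneg _, T.code_le hAs⟩
  have hvA'0 : 0 ≤ T.code As.tail ∧ T.code As.tail ≤ 1 / 2 := ⟨T.code_nonneg _, T.code_le hAs'⟩
  have hvB0 : 0 ≤ T.code Bs ∧ T.code Bs ≤ 1 / 2 := ⟨T.code_nonneg _, T.code_le hBs⟩
  have hvB'0 : 0 ≤ T.code (l ++ Bs) ∧ T.code (l ++ Bs) ≤ 1 / 2 := ⟨T.code_nonneg _, T.code_le hBs'⟩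
  have hs1 := T.sm_range hmc
  have hs2 := T.sm_range hm'c
  have hτN : r + 1 ≤ T.N := hrN
  have h0N : (0 : ℕ) ≤ T.N := Nat.zero_le _
  have hzs : 1 / 16 ≤ T.sm m ∧ T.sm m ≤ 1 / 2 := ⟨by linarith [hs1.1], by linarith [hs1.2]⟩
  have hzs' : 1 / 16 ≤ T.sm m' ∧ T.sm m' ≤ 1 / 2 := ⟨by linarith [hs2.1], by linarith [hs2.2]⟩
  have hokP : ∀ {t₀ t₁ : ℕ} {v₀ v₁ z : ℚ}, t₀ ≤ T.N → t₁ ≤ T.N → 0 ≤ v₀ ∧ v₀ ≤ 1 / 2 →
      0 ≤ v₁ ∧ v₁ ≤ 1 / 2 → 1 / 16 ≤ z ∧ z ≤ 1 / 2 →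
      OK (P (sideA m) (sideB m) (T.tv t₀ v₀) (T.tv t₁ v₁) z) :=
    fun a b c d e => P_OK hs _ _ _ (T.tv_range a c.1 c.2) (T.tv_range b d.1 d.2) e
  have hdr : T.rDigit r = d := hr_d
  have hmr : T.rMode r = m := hr_m
  set vA := T.code As
  set vA' := T.code As.tail
  set vB := T.code Bs
  set vB' := T.code (l ++ Bs)
  set p0 := P (sideA m) (sideB m) (T.tv 0 vA) (T.tv 0 vB) (T.sm m) with hp0
  set p1 := P (sideA m) (sideB m) (T.tv 0 vA) (T.tv (r + 1) vB) (T.sm m) with hp1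
  set p10 := P (sideA m) (sideB m) (T.tv (r + 1) vA') (T.tv 0 vB') (T.sm m') with hp10
  set p11 := P (sideA m) (sideB m) (T.tv 0 vA') (T.tv 0 vB') (T.sm m') with hp11
  have hok0 : OK p0 := hokP h0N h0N hvA0 hvB0 hzs
  have hok1 : OK p1 := hokP h0N hτN hvA0 hvB0 hzs
  have hok10 : OK p10 := hokP hτN h0N hvA'0 hvB'0 hzs'
  have hok11 : OK p11 := hokP h0N h0N hvA'0 hvB'0 hzs'
  have hdd : T.rDigit r < T.D := by rwa [hdr]
  have ha' : As.headD 0 = T.rDigit r := by rw [hdr, ha]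
  -- first stage
  have c1 : T.Chain 0 r p0 p0 :=
    chain_tag_fix hMc hrN.le (Nat.zero_le _) (Or.inr le_rfl) hok0
      (by rw [hmr, hp0, P_2 hs]) (by rw [hmr, hp0, P_A hs]) ha' hdd hAs
  have c2 : T.Chain r (r + 1) p0 p1 := by
    refine Chain.single hok0 ?_ hok1
    rw [T.shearAt_tag hrN]
    exact tag_self hAs hmr hdr ha (by rw [ht]; simp)  _
  have c3 : T.Chain (r + 1) T.N p1 p1 :=
    chain_tag_fix hMc le_rfl hrN (Or.inl (by omega)) hok1
      (by rw [hmr, hp1, P_2 hs]) (by rw [hmr, hp1, P_A hs]) ha' hdd hAs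
  have hcoord : ∀ {vA vB z : ℚ} {tA tB : ℕ},
      (∀ i : Fin 3, (i = 0 ∨ i = 1) →
        ∃ τ v, P (sideA m) (sideB m) (T.tv tA vA) (T.tv tB vB) z i = T.tv τ v ∧
          ((τ = tA ∧ v = vA) ∨ (τ = tB ∧ v = vB))) := by
    intro vA vB z tA tB i hi
    rcases hs with ⟨h1, h2⟩ | ⟨h1, h2⟩ <;> rcases hi with rfl | rfl <;> simp [P, h1, h2] <;>
      first
        | exact ⟨_, _, rfl, Or.inl ⟨rfl, rfl⟩⟩
        | exact ⟨_, _, rfl, Or.inr ⟨rfl, rfl⟩⟩
  -- middle stage, before and after the rule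
  have c4 : T.Chain (T.N + 9 * 0) (T.N + 9 * r) p1 p1 := by
    obtain ⟨τ₀, v₀, h0, h0'⟩ := hcoord (vA := vA) (vB := vB) (z := T.sm m) (tA := 0) (tB := r + 1) 0 (Or.inl rfl)
    obtain ⟨τ₁, v₁, h1, h1'⟩ := hcoord (vA := vA) (vB := vB) (z := T.sm m) (tA := 0) (tB := r + 1) 1 (Or.inr rfl)
    refine chain_mid_fix hrN.le (Nat.zero_le _) (Or.inr le_rfl) hok1 h0 h1 ?_ ?_ ?_ ?_
    · rcases h0' with ⟨_, rfl⟩ | ⟨_, rfl⟩ <;> assumption
    · rcases h1' with ⟨_, rfl⟩ | ⟨_, rfl⟩ <;> assumption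
    · rcases h0' with ⟨h, _⟩ | ⟨h, _⟩ <;> simp [h]
    · rcases h1' with ⟨h, _⟩ | ⟨h, _⟩ <;> simp [h]
  have c5 := chain_mid_push hrN hMc hS hmr hdr ha hAs hBs ht
  have c6 : T.Chain (T.N + 9 * (r + 1)) (T.N + 9 * T.N) p10 p10 := by
    obtain ⟨τ₀, v₀, h0, h0'⟩ := hcoord (vA := vA') (vB := vB') (z := T.sm m') (tA := r + 1) (tB := 0) 0 (Or.inl rfl)
    obtain ⟨τ₁, v₁, h1, h1'⟩ := hcoord (vA := vA') (vB := vB') (z := T.sm m') (tA := r + 1) (tB := 0) 1 (Or.inr rfl)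
    refine chain_mid_fix (r := r) le_rfl hrN (Or.inl (by omega)) hok10 h0 h1 ?_ ?_ ?_ ?_
    · rcases h0' with ⟨_, rfl⟩ | ⟨_, rfl⟩ <;> assumption
    · rcases h1' with ⟨_, rfl⟩ | ⟨_, rfl⟩ <;> assumption
    · rcases h0' with ⟨h, _⟩ | ⟨h, _⟩ <;> simp [h]
    · rcases h1' with ⟨h, _⟩ | ⟨h, _⟩ <;> simp [h]
  -- last stage
  have ht' : T.tr (T.rMode r) (T.rDigit r) = Outcome.push m' l := by rw [hmr, hdr]; exact ht
  have c7 : T.Chain (10 * T.N + 0) (10 * T.N + r) p10 p10 :=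
    chain_erase_fix hS hMc hrN hrN.le (Nat.zero_le _) (Or.inr le_rfl) ht' hok10
      (by rw [hp10, P_2 hs]) (by rw [hmr, hp10, P_B hs]) hBs
  have c8 : T.Chain (10 * T.N + r) (10 * T.N + r + 1) p10 p11 := by
    refine Chain.single hok10 ?_ hok11
    rw [T.shearAt_erase hrN, eraseShear_push ht', hmr]
    apply moves_in
    · show (T.cylWin l).In (p10 (sideB m))
      rw [hp10, P_B hs]
      exact T.cyl_in hBs
    · show (T.modeWin m').In (p10 2)
      rw [hp10, P_2 hs]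
      exact T.mode_in _
    · show p11 = Function.update p10 (sideA m) (p10 (sideA m) + (0 * p10 2 + - (((r : ℚ) + 1) * T.W)))
      rw [hp10, P_update_A hs, P_A hs, hp11]
      refine congrArg (fun t => P _ _ t _ _) ?_
      simp only [tv]; push_cast; ring
  have c9 : T.Chain (10 * T.N + (r + 1)) (10 * T.N + T.N) p11 p11 :=
    chain_erase_fix hS hMc hrN le_rfl hrN (Or.inl (by omega)) ht' hok11
      (by rw [hp11, P_2 hs]) (by rw [hmr, hp11, P_B hs]) hBs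
  have e := ((c1.trans c2).trans c3).trans (c4.cast (by omega) rfl)
  have e2 := e.trans (c5.cast (by omega) rfl)
  have e3 := e2.trans (c6.cast (by omega) rfl)
  have e4 := e3.trans (c7.cast (by omega) rfl)
  have e5 := e4.trans c8
  have e6 := e5.trans (c9.cast (by omega) rfl)
  exact e6.cast rfl (by simp only [L]; omega)

/-- A full period for a configuration whose rule halts: the point is moved to height `zO`. -/
theorem chain_halt {m d : ℕ} {As : List ℕ} {vB : ℚ} (hmc : m < T.Mc)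
    (hdD : d < T.D) (ha : As.headD 0 = d) (hAs : ∀ x ∈ As, x < T.D)
    (hvB0 : 0 ≤ vB ∧ vB ≤ 1 / 2) (ht : T.tr m d = Outcome.halt) :
    ∃ k p' p'', k < T.L ∧ T.Chain 0 k
      (P (sideA m) (sideB m) (T.tv 0 (T.code As)) (T.tv 0 vB) (T.sm m)) p' ∧
      (T.shearAt k).Moves p' p'' ∧ p'' 2 = zO := by
  have hMc : 0 < T.Mc := by omega
  obtain ⟨hr_m, hr_d⟩ := rule_of (T := T) (d := d) hmc
  have hrN := rule_lt (T := T) hmc hdD
  set r := m + T.Mc * d with hr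
  have hs := sides_of_mode m
  have hvA0 : 0 ≤ T.code As ∧ T.code As ≤ 1 / 2 := ⟨T.code_nonneg _, T.code_le hAs⟩
  have hs1 := T.sm_range hmc
  have hτN : r + 1 ≤ T.N := hrN
  have h0N : (0 : ℕ) ≤ T.N := Nat.zero_le _
  have hzs : 1 / 16 ≤ T.sm m ∧ T.sm m ≤ 1 / 2 := ⟨by linarith [hs1.1], by linarith [hs1.2]⟩
  have hokP : ∀ {t₀ t₁ : ℕ} {v₀ v₁ z : ℚ}, t₀ ≤ T.N → t₁ ≤ T.N → 0 ≤ v₀ ∧ v₀ ≤ 1 / 2 →
      0 ≤ v₁ ∧ v₁ ≤ 1 / 2 → 1 / 16 ≤ z ∧ z ≤ 1 / 2 →
      OK (P (sideA m) (sideB m) (T.tv t₀ v₀) (T.tv t₁ v₁) z) :=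
    fun a b c d e => P_OK hs _ _ _ (T.tv_range a c.1 c.2) (T.tv_range b d.1 d.2) e
  have hdr : T.rDigit r = d := hr_d
  have hmr : T.rMode r = m := hr_m
  set vA := T.code As
  set p0 := P (sideA m) (sideB m) (T.tv 0 vA) (T.tv 0 vB) (T.sm m) with hp0
  set p1 := P (sideA m) (sideB m) (T.tv 0 vA) (T.tv (r + 1) vB) (T.sm m) with hp1
  have hok0 : OK p0 := hokP h0N h0N hvA0 hvB0 hzs
  have hok1 : OK p1 := hokP h0N hτN hvA0 hvB0 hzs
  have hdd : T.rDigit r < T.D := by rwa [hdr]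
  have ha' : As.headD 0 = T.rDigit r := by rw [hdr, ha]
  have c1 : T.Chain 0 r p0 p0 :=
    chain_tag_fix hMc hrN.le (Nat.zero_le _) (Or.inr le_rfl) hok0
      (by rw [hmr, hp0, P_2 hs]) (by rw [hmr, hp0, P_A hs]) ha' hdd hAs
  have c2 : T.Chain r (r + 1) p0 p1 := by
    refine Chain.single hok0 ?_ hok1
    rw [T.shearAt_tag hrN]
    exact tag_self hAs hmr hdr ha (by rw [ht]; simp)  _
  have c3 : T.Chain (r + 1) T.N p1 p1 :=
    chain_tag_fix hMc le_rfl hrN (Or.inl (by omega)) hok1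
      (by rw [hmr, hp1, P_2 hs]) (by rw [hmr, hp1, P_A hs]) ha' hdd hAs
  have hcoord : ∀ i : Fin 3, (i = 0 ∨ i = 1) →
        ∃ τ v, p1 i = T.tv τ v ∧ ((τ = 0 ∧ v = vA) ∨ (τ = r + 1 ∧ v = vB)) := by
    intro i hi
    rw [hp1]
    rcases hs with ⟨h1, h2⟩ | ⟨h1, h2⟩ <;> rcases hi with rfl | rfl <;> simp [P, h1, h2] <;>
      first
        | exact ⟨_, _, rfl, Or.inl ⟨rfl, rfl⟩⟩
        | exact ⟨_, _, rfl, Or.inr ⟨rfl, rfl⟩⟩
  have c4 : T.Chain (T.N + 9 * 0) (T.N + 9 * r) p1 p1 := by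
    obtain ⟨τ₀, v₀, h0, h0'⟩ := hcoord 0 (Or.inl rfl)
    obtain ⟨τ₁, v₁, h1, h1'⟩ := hcoord 1 (Or.inr rfl)
    refine chain_mid_fix hrN.le (Nat.zero_le _) (Or.inr le_rfl) hok1 h0 h1 ?_ ?_ ?_ ?_
    · rcases h0' with ⟨_, rfl⟩ | ⟨_, rfl⟩ <;> assumption
    · rcases h1' with ⟨_, rfl⟩ | ⟨_, rfl⟩ <;> assumption
    · rcases h0' with ⟨h, _⟩ | ⟨h, _⟩ <;> simp [h]
    · rcases h1' with ⟨h, _⟩ | ⟨h, _⟩ <;> simp [h]
  have e := ((c1.trans c2).trans c3).trans (c4.cast (by omega) rfl)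
  refine ⟨T.N + 9 * r, p1, P (sideA m) (sideB m) (T.tv 0 vA) (T.tv (r + 1) vB) zO,
    by simp only [L]; omega, e, ?_, ?_⟩
  · have hk : T.N + 9 * r = T.N + (9 * r + 0) := by omega
    rw [hk, T.shearAt_mid hrN (by norm_num)]
    have d0 : T.midData r 0 = (2, sideB m, sideA m, 0, zO - T.sm m) := by
      simp only [midData, hmr, hdr, ht]
      rfl
    refine midShear_moves d0 ?_ ?_ ?_
    · rw [hp1, P_B hs]; exact T.tv_in hvB0.1 hvB0.2
    · rw [hp1, P_A hs]; exact T.tv_range h0N hvA0.1 hvA0.2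
    · rw [hp1, P_update_2 hs, P_2 hs]
      refine congrArg (P _ _ _ _) ?_
      ring
  · rw [P_2 hs]

end Tbl

end Vale.Agent.Lib.P113
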