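import Vale.Agent.Lib.P113.Geo4

/-!
One period of the program of shears acts on configuration points as one step of the stack machine.
-/

namespace Vale.Agent.Lib.P113

namespace Tbl

variable {T : Tbl}

lemma pt_eq_R {m : ℕ} (h : m % 4 < 2) (m' : ℕ) (X Y : List ℕ) :
    T.pt (m', X, Y) = P (sideA m) (sideB m) (T.tv 0 (T.code Y)) (T.tv 0 (T.code X)) (T.sm m') := by
  funext i
  simp only [pt, tv_zero]
  fin_cases i <;> simp [P, sideA, sideB, h]

lemma pt_eq_L {m : ℕ} (h : ¬ m % 4 < 2) (m' : ℕ) (X Y : List ℕ) :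
    T.pt (m', X, Y) = P (sideA m) (sideB m) (T.tv 0 (T.code X)) (T.tv 0 (T.code Y)) (T.sm m') := by
  funext i
  simp only [pt, tv_zero]
  fin_cases i <;> simp [P, sideA, sideB, h]

/-- The digit popped by a configuration. -/
def topDigit (g : GCfg) : ℕ := if g.1 % 4 < 2 then g.2.2.headD 0 else g.2.1.headD 0

lemma headD_lt {l : List ℕ} {D : ℕ} (hD : 0 < D) (h : ∀ x ∈ l, x < D) : l.headD 0 < D := by
  cases l with
  | nil => simpa using hD
  | cons a l => simpa using h a (by simp)

/-- Good configurations: a step of the stack machine is a period of the program of shears. -/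
theorem period_some (hS : TableSpec T.Mc T.D T.tr) (hD : 0 < T.D) {g g' : GCfg} (hg : T.ValidCfg g)
    (hns : T.tr g.1 (topDigit g) ≠ Outcome.stuck) (hstep : gstep T.tr g = some g') :
    T.Chain 0 T.L (T.pt g) (T.pt g') ∧ T.ValidCfg g' := by
  obtain ⟨m, X, Y⟩ := g
  obtain ⟨hm, hX, hY⟩ := hg
  simp only at hm hX hY
  by_cases hk : m % 4 < 2
  · have hd : Y.headD 0 < T.D := headD_lt hD hY
    simp only [topDigit, hk, if_true] at hns
    simp only [gstep, hk, if_true] at hstep
    cases ht : T.tr m (Y.headD 0) with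
    | stuck => exact absurd ht hns
    | halt => simp only [ht] at hstep; cases hstep
    | push m' l =>
      simp only [ht, Option.some.injEq] at hstep
      subst hstep
      obtain ⟨hm', hl, -⟩ := hS.bound _ _ _ _ hm hd ht
      constructor
      · rw [pt_eq_R hk, pt_eq_R hk]
        exact chain_push hS hm hd rfl hY hX ht
      · refine ⟨hm', ?_, fun x hx => hY x (List.mem_of_mem_tail hx)⟩
        intro x hx
        rcases List.mem_append.1 hx with h | h
        · exact hl x h
        · exact hX x h
  · have hd : X.headD 0 < T.D := headD_lt hD hX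
    simp only [topDigit, hk, if_false] at hns
    simp only [gstep, hk, if_false] at hstep
    cases ht : T.tr m (X.headD 0) with
    | stuck => exact absurd ht hns
    | halt => simp only [ht] at hstep; cases hstep
    | push m' l =>
      simp only [ht, Option.some.injEq] at hstep
      subst hstep
      obtain ⟨hm', hl, -⟩ := hS.bound _ _ _ _ hm hd ht
      constructor
      · rw [pt_eq_L hk, pt_eq_L hk]
        exact chain_push hS hm hd rfl hX hY ht
      · refine ⟨hm', fun x hx => hX x (List.mem_of_mem_tail hx), ?_⟩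
        intro x hx
        rcases List.mem_append.1 hx with h | h
        · exact hl x h
        · exact hY x h

/-- A configuration that halts reaches the height of the halting set in the program of shears. -/
theorem period_none (hD : 0 < T.D) {g : GCfg} (hg : T.ValidCfg g) (hstep : gstep T.tr g = none) :
    ∃ k p' p'', k < T.L ∧ T.Chain 0 k (T.pt g) p' ∧ (T.shearAt k).Moves p' p'' ∧ p'' 2 = zO := by
  obtain ⟨m, X, Y⟩ := g
  obtain ⟨hm, hX, hY⟩ := hg
  simp only at hm hX hY
  by_cases hk : m % 4 < 2
  · have hd : Y.headD 0 < T.D := headD_lt hD hY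
    simp only [gstep, hk, if_true] at hstep
    cases ht : T.tr m (Y.headD 0) with
    | stuck => simp only [ht] at hstep; cases hstep
    | push m' l => simp only [ht] at hstep; cases hstep
    | halt =>
      rw [pt_eq_R hk]
      exact chain_halt hm hd rfl hY ⟨T.code_nonneg _, T.code_le hX⟩ ht
  · have hd : X.headD 0 < T.D := headD_lt hD hX
    simp only [gstep, hk, if_false] at hstep
    cases ht : T.tr m (X.headD 0) with
    | stuck => simp only [ht] at hstep; cases hstep
    | push m' l => simp only [ht] at hstep; cases hstep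
    | halt =>
      rw [pt_eq_L hk]
      exact chain_halt hm hd rfl hX ⟨T.code_nonneg _, T.code_le hY⟩ ht

/-! ### Good shears -/

lemma bigWin_good : bigWin.Good := by
  simp only [Win.Good, bigWin]; norm_num

lemma tagWin_good {τ : ℕ} (hτ : τ ≤ T.N) : (T.tagWin τ).Good := by
  have hW := T.W_pos
  have hW' := T.W_le
  have h2 := T.mul_W_le hτ
  have h3 : (0 : ℚ) ≤ (τ : ℚ) * T.W := by positivity
  simp only [Win.Good, tagWin]
  refine ⟨by positivity, by linarith, by linarith, by linarith⟩

lemma modeWin_good {m : ℕ} (hm : m < T.Mc) : (T.modeWin m).Good := by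
  have hZ := T.Z_pos
  have h := T.sm_range hm
  have hZ' : T.Z ≤ 1 / 8 := by
    have h0 : (0 : ℚ) ≤ T.Mc := Nat.cast_nonneg _
    unfold Z
    rw [div_le_div_iff₀ (by positivity) (by norm_num)]
    nlinarith
  simp only [Win.Good, modeWin]
  refine ⟨by positivity, le_rfl, by linarith [h.1], by linarith [h.2]⟩

lemma cylWin_good {l : List ℕ} (hl : ∀ x ∈ l, x < T.D) (hne : l ≠ []) : (T.cylWin l).Good := by
  have hW := T.W_pos
  have hW' := T.W_le
  have hb2 := T.base_ge_two
  have hb0 := T.base_pos
  have h1 := T.code_hull hl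
  have h0 := T.code_nonneg l
  have hp : 0 < (T.base : ℚ) ^ l.length := by positivity
  have e1 : T.W / (2 * (T.base : ℚ) ^ l.length) = T.W * (1 / (2 * (T.base : ℚ) ^ l.length)) := by
    field_simp
  have h3 : T.W * T.code l + T.W / (2 * (T.base : ℚ) ^ l.length) ≤ T.W * (1 / 2) := by
    rw [e1, ← mul_add]
    exact mul_le_mul_of_nonneg_left h1 hW.le
  have h4 : T.W / (4 * (T.base : ℚ) ^ 2) ≤ T.W := by
    apply div_le_self hW.le
    nlinarith
  have h5 : 0 ≤ T.W * T.code l := by positivity
  have h6 : 0 < T.W / (2 * (T.base : ℚ) ^ l.length) := by positivity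
  simp only [Win.Good, cylWin]
  refine ⟨by positivity, by linarith, by linarith, by linarith⟩


lemma sides_ne {A B : Fin 3} (h : Sides A B) : A ≠ B ∧ A ≠ 2 ∧ B ≠ 2 := by
  rcases h with ⟨rfl, rfl⟩ | ⟨rfl, rfl⟩ <;> simp

lemma midData_good (r j : ℕ) :
    (T.midData r j).1 ≠ (T.midData r j).2.1 ∧ (T.midData r j).1 ≠ (T.midData r j).2.2.1 ∧
      (T.midData r j).2.1 ≠ (T.midData r j).2.2.1 := by
  obtain ⟨h1, h2, h3⟩ := sides_ne (sides_of_mode (T.rMode r))
  have h2' := h2.symm
  have h3' := h3.symm
  have h1' := h1.symm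
  simp only [midData]
  split
  · simp [*]
  · split_ifs <;> simp [*]
  · split_ifs <;> simp [*]

lemma idle_good : idleShear.Good := by
  refine ⟨by decide, by decide, by decide, bigWin_good, bigWin_good⟩

/-- All shears of the program are admissible. -/
theorem shearAt_good (hS : TableSpec T.Mc T.D T.tr) (hMc : 0 < T.Mc) (hD : 0 < T.D) (k : ℕ) :
    (T.shearAt k).Good := by
  unfold shearAt
  split_ifs with h1 h2 h3
  · -- tag
    obtain ⟨ha, hb, hc⟩ := sides_ne (sides_of_mode (T.rMode k))
    refine ⟨ha.symm, hc, hb, ?_, T.modeWin_good (rMode_lt hMc)⟩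
    · exact T.cylWin_good (by simpa using rDigit_lt h1) (by simp)
  · -- middle
    have hr : (k - T.N) / 9 < T.N := by omega
    obtain ⟨g1, g2, g3⟩ := midData_good (T := T) ((k - T.N) / 9) ((k - T.N) % 9)
    exact ⟨g1, g2, g3, T.tagWin_good hr, bigWin_good⟩
  · -- erase
    have hr : k - 10 * T.N < T.N := by omega
    obtain ⟨ha, hb, hc⟩ := sides_ne (sides_of_mode (T.rMode (k - 10 * T.N)))
    have hm := rMode_lt (T := T) (r := k - 10 * T.N) hMc
    have hd := rDigit_lt (T := T) hr
    cases ht : T.tr (T.rMode (k - 10 * T.N)) (T.rDigit (k - 10 * T.N)) with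
    | stuck =>
      rw [eraseShear_stuck ht]
      exact ⟨ha, hb, hc, bigWin_good, bigWin_good⟩
    | halt =>
      rw [eraseShear_halt ht]
      exact ⟨ha, hb, hc, bigWin_good, bigWin_good⟩
    | push m' l =>
      rw [eraseShear_push ht]
      obtain ⟨hm', hl, hlen⟩ := hS.bound _ _ _ _ hm hd ht
      have hne : l ≠ [] := by
        intro h
        subst h
        simp at hlen
      exact ⟨ha, hb, hc, T.cylWin_good hl hne, T.modeWin_good hm'⟩
  · exact idle_good

end Tbl

end Vale.Agent.Lib.P113
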