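import Vale.Agent.Lib.P113.Effective

/-!
The program of shears of a machine is primitive recursive: the data of the shears, the length of
the program and the initial point are primitive recursive functions of the machine and its input.
-/

namespace Vale.Agent.Lib.P113

open Tbl

variable {α : Type*} [Primcodable α]

/-! ### Small helpers -/

theorem pn_eq {f g : α → ℕ} (hf : Primrec f) (hg : Primrec g) : PrimrecPred fun a => f a = g a :=
  Primrec.eq.comp hf hg

theorem pn_lt {f g : α → ℕ} (hf : Primrec f) (hg : Primrec g) : PrimrecPred fun a => f a < g a :=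
  Primrec.nat_lt.comp hf hg

theorem pn_le {f g : α → ℕ} (hf : Primrec f) (hg : Primrec g) : PrimrecPred fun a => f a ≤ g a :=
  Primrec.nat_le.comp hf hg

theorem pn_mod {f g : α → ℕ} (hf : Primrec f) (hg : Primrec g) : Primrec fun a => f a % g a :=
  Primrec.nat_mod.comp hf hg

theorem pn_div {f g : α → ℕ} (hf : Primrec f) (hg : Primrec g) : Primrec fun a => f a / g a :=
  Primrec.nat_div.comp hf hg

theorem pn_const (n : ℕ) : Primrec fun _ : α => n := Primrec.const n

theorem rp_of_eq {f g : α → ℚ} (hf : RatPrim f) (h : ∀ a, f a = g a) : RatPrim g := by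
  have : f = g := funext h
  rwa [← this]

/-! ### The machine -/

section Machine

variable {M : α → Machine} (hM : Primrec M)
include hM

theorem prim_numStates : Primrec fun a => (M a).numStates := Primrec.fst.comp hM

theorem prim_numSymbols : Primrec fun a => (M a).numSymbols :=
  Primrec.fst.comp (Primrec.snd.comp hM)

theorem prim_halting : Primrec fun a => (M a).halting :=
  Primrec.fst.comp (Primrec.snd.comp (Primrec.snd.comp hM))

theorem prim_delta : Primrec fun a => (M a).delta :=
  Primrec.snd.comp (Primrec.snd.comp (Primrec.snd.comp hM))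

theorem prim_transition {q x : α → ℕ} (hq : Primrec q) (hx : Primrec x) :
    Primrec fun a => (M a).transition (q a) (x a) := by
  have h1 : Primrec fun a => (M a).delta[q a * (M a).numSymbols + x a]? :=
    Primrec.list_getElem?.comp (prim_delta hM) (prim_nadd (prim_nmul hq (prim_numSymbols hM)) hx)
  have h2 : Primrec fun a => (q a, x a, true) :=
    hq.pair (hx.pair (Primrec.const true))
  refine (Primrec.option_getD.comp h1 h2).of_eq fun a => ?_
  simp [Machine.transition, List.getD_eq_getElem?_getD]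

theorem pp_mem_halting {q : α → ℕ} (hq : Primrec q) : PrimrecPred fun a => q a ∈ (M a).halting := by
  have h : PrimrecRel fun (L : List ℕ) (b : ℕ) => ∃ a ∈ L, a = b :=
    PrimrecRel.exists_mem_list (Primrec.eq (α := ℕ))
  refine (h.comp (prim_halting hM) hq).of_eq fun a => ?_
  simp

end Machine

/-! ### Codes of outcomes -/

/-- A code of an outcome: its kind, and the data of a push. -/
def oc : Outcome → ℕ × ℕ × List ℕ
  | Outcome.stuck => (0, 0, [])
  | Outcome.halt => (1, 0, [])
  | Outcome.push m l => (2, m, l)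

lemma oc_ruleOut (M : Machine) (q a e : ℕ) :
    oc (ruleOut M q a e) = if q ∈ M.halting then (1, 0, []) else
      (2, 4 * (M.transition q a).1 + (if (M.transition q a).2.2 = true then 0 else 3),
        [(M.transition q a).2.1, garbage M.numSymbols q a e]) := by
  by_cases h : q ∈ M.halting
  · simp [ruleOut, h, oc]
  · simp [ruleOut, h, oc]

lemma oc_tableOf (M : Machine) (m d : ℕ) :
    oc (tableOf M m d) =
      if m % 4 = 0 then (if M.numSymbols ≤ d then (2, m, [d]) else oc (ruleOut M (m / 4) d 0))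
      else if m % 4 = 1 then (if M.numSymbols ≤ d then (0, 0, []) else oc (ruleOut M (m / 4) d 1))
      else if m % 4 = 2 then
        (if M.numSymbols ≤ d then (2, m, [d]) else (2, 4 * (m / 4) + 1, [d]))
      else (if M.numSymbols ≤ d then (0, 0, []) else (2, 4 * (m / 4) + 2, [d])) := by
  simp only [tableOf]
  split_ifs <;> rfl

theorem prim_garbage {A q x e : α → ℕ} (hA : Primrec A) (hq : Primrec q) (hx : Primrec x)
    (he : Primrec e) : Primrec fun a => garbage (A a) (q a) (x a) (e a) := by
  unfold garbage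
  exact prim_nadd hA (prim_nadd he (prim_nmul (pn_const 2) (prim_nadd hx (prim_nmul hA hq))))

theorem prim_single {x : α → ℕ} (hx : Primrec x) : Primrec fun a => [x a] :=
  Primrec.list_cons.comp hx (Primrec.const [])

section Outcome

variable {M : α → Machine} (hM : Primrec M)
include hM

theorem prim_ruleOut {q x e : α → ℕ} (hq : Primrec q) (hx : Primrec x) (he : Primrec e) :
    Primrec fun a => oc (ruleOut (M a) (q a) (x a) (e a)) := by
  have ht := prim_transition hM hq hx
  have h1 : Primrec fun a => 4 * ((M a).transition (q a) (x a)).1 +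
      (if ((M a).transition (q a) (x a)).2.2 = true then 0 else 3) := by
    refine prim_nadd (prim_nmul (pn_const 4) (Primrec.fst.comp ht)) ?_
    refine Primrec.ite ?_ (pn_const 0) (pn_const 3)
    exact Primrec.eq.comp (Primrec.snd.comp (Primrec.snd.comp ht)) (Primrec.const true)
  have h2 : Primrec fun a => [((M a).transition (q a) (x a)).2.1,
      garbage (M a).numSymbols (q a) (x a) (e a)] :=
    Primrec.list_cons.comp (Primrec.fst.comp (Primrec.snd.comp ht))
      (prim_single (prim_garbage (prim_numSymbols hM) hq hx he))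
  have h3 := Primrec.ite (pp_mem_halting hM hq)
    (Primrec.const ((1, 0, []) : ℕ × ℕ × List ℕ))
    ((pn_const 2).pair (h1.pair h2))
  refine h3.of_eq fun a => ?_
  rw [oc_ruleOut]

theorem prim_tableOf {m x : α → ℕ} (hm : Primrec m) (hx : Primrec x) :
    Primrec fun a => oc (tableOf (M a) (m a) (x a)) := by
  have hA := prim_numSymbols hM
  have hle := pn_le hA hx
  have hq := pn_div hm (pn_const 4)
  have hr := pn_mod hm (pn_const 4)
  have hs := prim_single hx
  have c0 : Primrec fun _ : α => ((0, 0, []) : ℕ × ℕ × List ℕ) := Primrec.const _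
  have h1 : Primrec fun a => ((2, m a, [x a]) : ℕ × ℕ × List ℕ) := (pn_const 2).pair (hm.pair hs)
  have h2 : Primrec fun a => ((2, 4 * (m a / 4) + 1, [x a]) : ℕ × ℕ × List ℕ) :=
    (pn_const 2).pair ((prim_nadd (prim_nmul (pn_const 4) hq) (pn_const 1)).pair hs)
  have h3 : Primrec fun a => ((2, 4 * (m a / 4) + 2, [x a]) : ℕ × ℕ × List ℕ) :=
    (pn_const 2).pair ((prim_nadd (prim_nmul (pn_const 4) hq) (pn_const 2)).pair hs)
  have h4 := Primrec.ite (pn_eq hr (pn_const 0))
    (Primrec.ite hle h1 (prim_ruleOut hM hq hx (pn_const 0)))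
    (Primrec.ite (pn_eq hr (pn_const 1))
      (Primrec.ite hle c0 (prim_ruleOut hM hq hx (pn_const 1)))
      (Primrec.ite (pn_eq hr (pn_const 2))
        (Primrec.ite hle h1 h2)
        (Primrec.ite hle c0 h3)))
  refine h4.of_eq fun a => ?_
  rw [oc_tableOf]

end Outcome

/-! ### The numbers of a table -/

section Numbers

variable {M : α → Machine} (hM : Primrec M)
include hM

theorem prim_Mc : Primrec fun a => (tblOf (M a)).Mc :=
  prim_nmul (pn_const 4) (prim_numStates hM)

theorem prim_D : Primrec fun a => (tblOf (M a)).D :=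
  prim_nadd (prim_numSymbols hM)
    (prim_nmul (pn_const 2) (prim_nmul (prim_numSymbols hM) (prim_numStates hM)))

theorem prim_N : Primrec fun a => (tblOf (M a)).N := prim_nmul (prim_Mc hM) (prim_D hM)

theorem prim_L : Primrec fun a => (tblOf (M a)).L := prim_nmul (pn_const 11) (prim_N hM)

theorem prim_base : Primrec fun a => (tblOf (M a)).base :=
  prim_nadd (prim_nmul (pn_const 2) (prim_D hM)) (pn_const 2)

theorem rp_W : RatPrim fun a => (tblOf (M a)).W :=
  (RatPrim.const 1).div
    ((RatPrim.const 8).mul ((RatPrim.natCast (prim_N hM)).add (RatPrim.const 2)))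

theorem rp_Z : RatPrim fun a => (tblOf (M a)).Z :=
  (RatPrim.const 1).div
    ((RatPrim.const 8).mul ((RatPrim.natCast (prim_Mc hM)).add (RatPrim.const 1)))

theorem rp_sm {m : α → ℕ} (hm : Primrec m) : RatPrim fun a => (tblOf (M a)).sm (m a) :=
  (RatPrim.const (1 / 8)).add ((RatPrim.natCast hm).mul (rp_Z hM))

omit hM in
lemma code_foldr_val (T : Tbl) (l : List ℕ) :
    (List.foldr (fun b s => rcMul (rcAdd (rcNat b) s) (rcInv (rcNat T.base))) (rcNat 0) l).val
      = T.code l := by
  induction l with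
  | nil => simp [code]
  | cons d t ih =>
    simp only [List.foldr_cons, code]
    simp [ih, div_eq_mul_inv]

theorem rp_code {l : α → List ℕ} (hl : Primrec l) : RatPrim fun a => (tblOf (M a)).code (l a) := by
  have hb := prim_base hM
  let h : α → ℕ × RatCode → RatCode := fun a p =>
    rcMul (rcAdd (rcNat p.1) p.2) (rcInv (rcNat (tblOf (M a)).base))
  have hh : Primrec₂ h := by
    refine prim_rcMul (prim_rcAdd (prim_rcNat ?_) ?_) (prim_rcInv (prim_rcNat (hb.comp Primrec.fst)))
    · exact Primrec.fst.comp Primrec.snd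
    · exact Primrec.snd.comp Primrec.snd
  have hf := Primrec.list_foldr hl (Primrec.const (rcNat 0)) hh
  refine ⟨_, hf, fun a => ?_⟩
  exact code_foldr_val (tblOf (M a)) (l a)

end Numbers

/-! ### Windows -/

theorem WinPrim.const (w : Win) : WinPrim fun _ : α => w :=
  ⟨RatPrim.const _, RatPrim.const _, RatPrim.const _⟩

theorem WinPrim.ite {p : α → Prop} [DecidablePred p] {f g : α → Win} (hp : PrimrecPred p)
    (hf : WinPrim f) (hg : WinPrim g) : WinPrim fun a => if p a then f a else g a :=
  ⟨rp_of_eq (RatPrim.ite hp hf.a hg.a) (fun a => by split_ifs <;> rfl),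
   rp_of_eq (RatPrim.ite hp hf.b hg.b) (fun a => by split_ifs <;> rfl),
   rp_of_eq (RatPrim.ite hp hf.δ hg.δ) (fun a => by split_ifs <;> rfl)⟩

section Shears

variable {M : α → Machine} (hM : Primrec M)
include hM

theorem wp_tagWin {τ : α → ℕ} (hτ : Primrec τ) : WinPrim fun a => (tblOf (M a)).tagWin (τ a) := by
  have hW := rp_W hM
  have h0 : RatPrim fun a => (1 / 8 : ℚ) + (τ a : ℚ) * (tblOf (M a)).W :=
    (RatPrim.const _).add ((RatPrim.natCast hτ).mul hW)
  exact ⟨h0, h0.add (hW.div (RatPrim.const 2)), hW.div (RatPrim.const 4)⟩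

theorem wp_cylWin {l : α → List ℕ} (hl : Primrec l) : WinPrim fun a => (tblOf (M a)).cylWin (l a) := by
  have hW := rp_W hM
  have hb := RatPrim.natCast (prim_base hM)
  have hc := rp_code hM hl
  have h0 : RatPrim fun a => (1 / 8 : ℚ) + (tblOf (M a)).W * (tblOf (M a)).code (l a) :=
    (RatPrim.const _).add (hW.mul hc)
  have hlen : Primrec fun a => (l a).length := Primrec.list_length.comp hl
  exact ⟨h0, h0.add (hW.div ((RatPrim.const 2).mul (hb.pow hlen))),
    hW.div ((RatPrim.const 4).mul (hb.pow (pn_const 2)))⟩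

theorem wp_modeWin {m : α → ℕ} (hm : Primrec m) : WinPrim fun a => (tblOf (M a)).modeWin (m a) := by
  have h := rp_sm hM hm
  exact ⟨h, h, (rp_Z hM).div (RatPrim.const 2)⟩

omit hM in
theorem prim_sideA {m : α → ℕ} (hm : Primrec m) : Primrec fun a => sideA (m a) := by
  unfold sideA
  exact Primrec.ite (pn_lt (pn_mod hm (pn_const 4)) (pn_const 2)) (Primrec.const 1) (Primrec.const 0)

omit hM in
theorem prim_sideB {m : α → ℕ} (hm : Primrec m) : Primrec fun a => sideB (m a) := by
  unfold sideB
  exact Primrec.ite (pn_lt (pn_mod hm (pn_const 4)) (pn_const 2)) (Primrec.const 0) (Primrec.const 1)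

theorem prim_rMode {r : α → ℕ} (hr : Primrec r) : Primrec fun a => (tblOf (M a)).rMode (r a) :=
  pn_mod hr (prim_Mc hM)

theorem prim_rDigit {r : α → ℕ} (hr : Primrec r) : Primrec fun a => (tblOf (M a)).rDigit (r a) :=
  pn_div hr (prim_Mc hM)

theorem prim_rOc {r : α → ℕ} (hr : Primrec r) :
    Primrec fun a => oc ((tblOf (M a)).tr ((tblOf (M a)).rMode (r a)) ((tblOf (M a)).rDigit (r a))) :=
  prim_tableOf hM (prim_rMode hM hr) (prim_rDigit hM hr)

end Shears

/-- The amount of a tag, through the code of the outcome. -/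
lemma tagAmount_eq (T : Tbl) (r : ℕ) :
    T.tagAmount r = if (oc (T.tr (T.rMode r) (T.rDigit r))).1 = 0 then 0 else ((r : ℚ) + 1) * T.W := by
  unfold tagAmount
  cases T.tr (T.rMode r) (T.rDigit r) <;> simp [oc]

theorem ShearPrim.mk' {i p q : α → Fin 3} {w₁ w₂ : α → Win} {x y : α → ℚ} (hi : Primrec i)
    (hp : Primrec p) (hq : Primrec q) (h₁ : WinPrim w₁) (h₂ : WinPrim w₂) (hx : RatPrim x)
    (hy : RatPrim y) : ShearPrim fun a => (⟨i a, p a, q a, w₁ a, w₂ a, x a, y a⟩ : Shear) :=
  ⟨hi, hp, hq, h₁, h₂, hx, hy⟩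

theorem ShearPrim.ite' {c : α → Prop} [DecidablePred c] {f g : α → Shear} (hc : PrimrecPred c)
    (hf : ShearPrim f) (hg : ShearPrim g) : ShearPrim fun a => if c a then f a else g a := by
  refine ⟨(Primrec.ite hc hf.i hg.i).of_eq fun a => ?_, (Primrec.ite hc hf.p hg.p).of_eq fun a => ?_,
    (Primrec.ite hc hf.q hg.q).of_eq fun a => ?_, ⟨?_, ?_, ?_⟩, ⟨?_, ?_, ?_⟩, ?_, ?_⟩
  · split_ifs <;> rfl
  · split_ifs <;> rfl
  · split_ifs <;> rfl
  · exact rp_of_eq (RatPrim.ite hc hf.w₁.a hg.w₁.a) fun a => by split_ifs <;> rfl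
  · exact rp_of_eq (RatPrim.ite hc hf.w₁.b hg.w₁.b) fun a => by split_ifs <;> rfl
  · exact rp_of_eq (RatPrim.ite hc hf.w₁.δ hg.w₁.δ) fun a => by split_ifs <;> rfl
  · exact rp_of_eq (RatPrim.ite hc hf.w₂.a hg.w₂.a) fun a => by split_ifs <;> rfl
  · exact rp_of_eq (RatPrim.ite hc hf.w₂.b hg.w₂.b) fun a => by split_ifs <;> rfl
  · exact rp_of_eq (RatPrim.ite hc hf.w₂.δ hg.w₂.δ) fun a => by split_ifs <;> rfl
  · exact rp_of_eq (RatPrim.ite hc hf.α hg.α) fun a => by split_ifs <;> rfl
  · exact rp_of_eq (RatPrim.ite hc hf.β hg.β) fun a => by split_ifs <;> rfl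

section Shears2

variable {M : α → Machine} (hM : Primrec M)
include hM

theorem sp_tagShear {r : α → ℕ} (hr : Primrec r) : ShearPrim fun a => (tblOf (M a)).tagShear (r a) := by
  have hm := prim_rMode hM hr
  have hd := prim_rDigit hM hr
  have hoc := prim_rOc hM hr
  have hamt : RatPrim fun a => (tblOf (M a)).tagAmount (r a) := by
    refine rp_of_eq (RatPrim.ite (pn_eq (Primrec.fst.comp hoc) (pn_const 0)) (RatPrim.const 0)
      (((RatPrim.natCast hr).add (RatPrim.const 1)).mul (rp_W hM))) fun a => ?_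
    rw [tagAmount_eq]
  exact ShearPrim.mk' (prim_sideB hm) (prim_sideA hm) (Primrec.const 2)
    (wp_cylWin hM (prim_single hd)) (wp_modeWin hM hm) (RatPrim.const 0) hamt

end Shears2

/-! ### The middle stage -/

/-- Primitive recursive data of a tuple. -/
structure TupPrim (f : α → Fin 3 × Fin 3 × Fin 3 × ℚ × ℚ) : Prop where
  a : Primrec fun x => (f x).1
  b : Primrec fun x => (f x).2.1
  c : Primrec fun x => (f x).2.2.1
  d : RatPrim fun x => (f x).2.2.2.1
  e : RatPrim fun x => (f x).2.2.2.2

theorem TupPrim.mk' {a b c : α → Fin 3} {d e : α → ℚ} (ha : Primrec a) (hb : Primrec b)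
    (hc : Primrec c) (hd : RatPrim d) (he : RatPrim e) :
    TupPrim fun x => (a x, b x, c x, d x, e x) := ⟨ha, hb, hc, hd, he⟩

theorem TupPrim.ite' {c : α → Prop} [DecidablePred c] {f g : α → Fin 3 × Fin 3 × Fin 3 × ℚ × ℚ}
    (hc : PrimrecPred c) (hf : TupPrim f) (hg : TupPrim g) :
    TupPrim fun a => if c a then f a else g a := by
  refine ⟨(Primrec.ite hc hf.a hg.a).of_eq fun a => ?_, (Primrec.ite hc hf.b hg.b).of_eq fun a => ?_,
    (Primrec.ite hc hf.c hg.c).of_eq fun a => ?_, ?_, ?_⟩
  · split_ifs <;> rfl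
  · split_ifs <;> rfl
  · split_ifs <;> rfl
  · exact rp_of_eq (RatPrim.ite hc hf.d hg.d) fun a => by split_ifs <;> rfl
  · exact rp_of_eq (RatPrim.ite hc hf.e hg.e) fun a => by split_ifs <;> rfl

/-- The affine data of the middle stage, in terms of the code of the outcome. -/
def midAlt (T : Tbl) (r j : ℕ) : Fin 3 × Fin 3 × Fin 3 × ℚ × ℚ :=
      if (oc (T.tr (T.rMode r) (T.rDigit r))).1 = 0 then
        (2, sideB (T.rMode r), sideA (T.rMode r), 0, 0)
      else if (oc (T.tr (T.rMode r) (T.rDigit r))).1 = 1 then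
        (if j = 0 then (2, sideB (T.rMode r), sideA (T.rMode r), 0, zO - T.sm (T.rMode r))
          else (2, sideB (T.rMode r), sideA (T.rMode r), 0, 0))
      else
        (if j = 0 then (2, sideB (T.rMode r), sideA (T.rMode r), 1, - (1 / 8))
        else if j = 1 then (sideA (T.rMode r), sideB (T.rMode r), 2, (T.base : ℚ) - 1,
          - ((T.base : ℚ) - 1) * T.sm (T.rMode r) - T.W * (T.rDigit r : ℚ))
        else if j = 2 then (2, sideB (T.rMode r), sideA (T.rMode r), - 1 / (T.base : ℚ),
          (1 / 8 - T.W * (T.rDigit r : ℚ)) / (T.base : ℚ))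
        else if j = 3 then (sideA (T.rMode r), sideB (T.rMode r), 2, 0, ((r : ℚ) + 1) * T.W)
        else if j = 4 then (sideB (T.rMode r), sideA (T.rMode r), 2, 0, - (((r : ℚ) + 1) * T.W))
        else if j = 5 then (2, sideA (T.rMode r), sideB (T.rMode r), 1, - (1 / 8))
        else if j = 6 then (sideB (T.rMode r), sideA (T.rMode r), 2,
          ((T.base : ℚ) ^ (oc (T.tr (T.rMode r) (T.rDigit r))).2.2.length)⁻¹ - 1,
          - (((T.base : ℚ) ^ (oc (T.tr (T.rMode r) (T.rDigit r))).2.2.length)⁻¹ - 1)
              * T.sm (T.rMode r)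
            + T.W * T.code (oc (T.tr (T.rMode r) (T.rDigit r))).2.2)
        else if j = 7 then (2, sideA (T.rMode r), sideB (T.rMode r),
          - 1 / ((T.base : ℚ) ^ (oc (T.tr (T.rMode r) (T.rDigit r))).2.2.length)⁻¹,
          (1 / 8 + T.W * T.code (oc (T.tr (T.rMode r) (T.rDigit r))).2.2)
            / ((T.base : ℚ) ^ (oc (T.tr (T.rMode r) (T.rDigit r))).2.2.length)⁻¹)
        else (2, sideA (T.rMode r), sideB (T.rMode r), 0,
          T.sm (oc (T.tr (T.rMode r) (T.rDigit r))).2.1 - T.sm (T.rMode r))) 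

lemma midData_eq (T : Tbl) (r j : ℕ) : T.midData r j = midAlt T r j := by
  unfold midData midAlt
  dsimp only
  generalize T.tr (T.rMode r) (T.rDigit r) = o
  cases o <;> simp [oc]

section Mid

variable {M : α → Machine} (hM : Primrec M)
include hM

theorem tp_midData {r j : α → ℕ} (hr : Primrec r) (hj : Primrec j) :
    TupPrim fun a => (tblOf (M a)).midData (r a) (j a) := by
  have hm := prim_rMode hM hr
  have hd := prim_rDigit hM hr
  have hoc := prim_rOc hM hr
  have hA := prim_sideA hm
  have hB := prim_sideB hm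
  have hs := rp_sm hM hm
  have hW := rp_W hM
  have hb := RatPrim.natCast (prim_base hM)
  have hdq := RatPrim.natCast hd
  have hτ : RatPrim fun a => ((r a : ℚ) + 1) * (tblOf (M a)).W :=
    ((RatPrim.natCast hr).add (RatPrim.const 1)).mul hW
  have hl : Primrec fun a =>
      (oc ((tblOf (M a)).tr ((tblOf (M a)).rMode (r a)) ((tblOf (M a)).rDigit (r a)))).2.2 :=
    Primrec.snd.comp (Primrec.snd.comp hoc)
  have hm' : Primrec fun a =>
      (oc ((tblOf (M a)).tr ((tblOf (M a)).rMode (r a)) ((tblOf (M a)).rDigit (r a)))).2.1 :=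
    Primrec.fst.comp (Primrec.snd.comp hoc)
  have hk := Primrec.fst.comp hoc
  have hlam : RatPrim fun a => (((tblOf (M a)).base : ℚ) ^
      (oc ((tblOf (M a)).tr ((tblOf (M a)).rMode (r a)) ((tblOf (M a)).rDigit (r a)))).2.2.length)⁻¹ :=
    (hb.pow (Primrec.list_length.comp hl)).inv
  have hc := rp_code hM hl
  have two : Primrec fun _ : α => (2 : Fin 3) := Primrec.const 2
  have cst : ∀ q : ℚ, RatPrim fun _ : α => q := RatPrim.const
  have J : ∀ n : ℕ, PrimrecPred fun a => j a = n := fun n => pn_eq hj (pn_const n)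
  have res : TupPrim fun a => midAlt (tblOf (M a)) (r a) (j a) := by
    unfold midAlt
    refine TupPrim.ite' (pn_eq hk (pn_const 0)) (TupPrim.mk' two hB hA (cst 0) (cst 0)) ?_
    refine TupPrim.ite' (pn_eq hk (pn_const 1)) ?_ ?_
    · exact TupPrim.ite' (J 0) (TupPrim.mk' two hB hA (cst 0) ((cst _).sub hs))
        (TupPrim.mk' two hB hA (cst 0) (cst 0))
    · refine TupPrim.ite' (J 0) (TupPrim.mk' two hB hA (cst 1) (cst _)) ?_
      refine TupPrim.ite' (J 1) (TupPrim.mk' hA hB two (hb.sub (cst 1))
        ((((hb.sub (cst 1)).neg).mul hs).sub (hW.mul hdq))) ?_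
      refine TupPrim.ite' (J 2) (TupPrim.mk' two hB hA ((cst _).div hb)
        (((cst _).sub (hW.mul hdq)).div hb)) ?_
      refine TupPrim.ite' (J 3) (TupPrim.mk' hA hB two (cst 0) hτ) ?_
      refine TupPrim.ite' (J 4) (TupPrim.mk' hB hA two (cst 0) hτ.neg) ?_
      refine TupPrim.ite' (J 5) (TupPrim.mk' two hA hB (cst 1) (cst _)) ?_
      refine TupPrim.ite' (J 6) (TupPrim.mk' hB hA two (hlam.sub (cst 1))
        ((((hlam.sub (cst 1)).neg).mul hs).add (hW.mul hc))) ?_
      refine TupPrim.ite' (J 7) (TupPrim.mk' two hA hB ((cst _).div hlam)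
        (((cst _).add (hW.mul hc)).div hlam)) ?_
      exact TupPrim.mk' two hA hB (cst 0) ((rp_sm hM hm').sub hs)
  have e : (fun a => (tblOf (M a)).midData (r a) (j a)) = fun a => midAlt (tblOf (M a)) (r a) (j a) :=
    funext fun a => midData_eq _ _ _
  rw [e]
  exact res

theorem sp_midShear {r j : α → ℕ} (hr : Primrec r) (hj : Primrec j) :
    ShearPrim fun a => (tblOf (M a)).midShear (r a) (j a) := by
  have h := tp_midData hM hr hj
  exact ⟨h.a, h.b, h.c, wp_tagWin hM (prim_nadd hr (pn_const 1)), WinPrim.const _, h.d, h.e⟩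

end Mid

/-! ### The last stage -/

/-- The erasing shear, in terms of the code of the outcome. -/
def eraseAlt (T : Tbl) (r : ℕ) : Shear :=
  if (oc (T.tr (T.rMode r) (T.rDigit r))).1 = 2 then
    ⟨sideA (T.rMode r), sideB (T.rMode r), 2, T.cylWin (oc (T.tr (T.rMode r) (T.rDigit r))).2.2,
      T.modeWin (oc (T.tr (T.rMode r) (T.rDigit r))).2.1, 0, - (((r : ℚ) + 1) * T.W)⟩
  else ⟨sideA (T.rMode r), sideB (T.rMode r), 2, bigWin, bigWin, 0, 0⟩

lemma eraseShear_eq (T : Tbl) (r : ℕ) : T.eraseShear r = eraseAlt T r := by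
  unfold eraseShear eraseAlt
  dsimp only
  generalize T.tr (T.rMode r) (T.rDigit r) = o
  cases o <;> simp [oc]

section Final

variable {M : α → Machine} (hM : Primrec M)
include hM

theorem sp_eraseShear {r : α → ℕ} (hr : Primrec r) :
    ShearPrim fun a => (tblOf (M a)).eraseShear (r a) := by
  have hm := prim_rMode hM hr
  have hoc := prim_rOc hM hr
  have hA := prim_sideA hm
  have hB := prim_sideB hm
  have hl := Primrec.snd.comp (Primrec.snd.comp hoc)
  have hm' := Primrec.fst.comp (Primrec.snd.comp hoc)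
  have hk := Primrec.fst.comp hoc
  have res : ShearPrim fun a => eraseAlt (tblOf (M a)) (r a) := by
    unfold eraseAlt
    refine ShearPrim.ite' (pn_eq hk (pn_const 2)) ?_ ?_
    · exact ShearPrim.mk' hA hB (Primrec.const 2) (wp_cylWin hM hl) (wp_modeWin hM hm')
        (RatPrim.const 0) ((((RatPrim.natCast hr).add (RatPrim.const 1)).mul (rp_W hM)).neg)
    · exact ShearPrim.mk' hA hB (Primrec.const 2) (WinPrim.const _) (WinPrim.const _)
        (RatPrim.const 0) (RatPrim.const 0)
  have e : (fun a => (tblOf (M a)).eraseShear (r a)) = fun a => eraseAlt (tblOf (M a)) (r a) :=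
    funext fun a => eraseShear_eq _ _
  rw [e]
  exact res

theorem sp_shearAt {k : α → ℕ} (hk : Primrec k) : ShearPrim fun a => (tblOf (M a)).shearAt (k a) := by
  have hN := prim_N hM
  unfold shearAt
  refine ShearPrim.ite' (pn_lt hk hN) (sp_tagShear hM hk) ?_
  refine ShearPrim.ite' (pn_lt hk (prim_nmul (pn_const 10) hN)) ?_ ?_
  · exact sp_midShear hM (pn_div (prim_nsub hk hN) (pn_const 9))
      (pn_mod (prim_nsub hk hN) (pn_const 9))
  refine ShearPrim.ite' (pn_lt hk (prim_nmul (pn_const 11) hN)) ?_ ?_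
  · exact sp_eraseShear hM (prim_nsub hk (prim_nmul (pn_const 10) hN))
  · exact ShearPrim.mk' (Primrec.const _) (Primrec.const _) (Primrec.const _) (WinPrim.const _)
      (WinPrim.const _) (RatPrim.const _) (RatPrim.const _)

end Final

/-! ### The statements used by the compiler -/

/-- The program of shears of a machine is primitive recursive. -/
theorem shear_prim : ShearPrim fun a : Machine × ℕ => (tblOf a.1).shearAt a.2 :=
  sp_shearAt Primrec.fst Primrec.snd

/-- The length of the program of shears is primitive recursive. -/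
theorem L_prim : Primrec fun M : Machine => (tblOf M).L := prim_L Primrec.id

/-- The initial point is primitive recursive. -/
theorem pt_prim (j : Fin 3) :
    RatPrim fun a : Machine × List ℕ => (tblOf a.1).pt (0, [], a.2) j := by
  have hM : Primrec fun a : Machine × List ℕ => a.1 := Primrec.fst
  have hW := rp_W hM
  fin_cases j
  · exact (RatPrim.const (1 / 8)).add (hW.mul (rp_code hM (Primrec.const [])))
  · exact (RatPrim.const (1 / 8)).add (hW.mul (rp_code hM Primrec.snd))
  · exact rp_sm hM (pn_const 0)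

/-- The final compiler: force programs of the table of a machine are given by a computable
function of the machine and of its input. -/
theorem exists_compile (ν : ℝ) (hν : IsComputableReal ν) :
    ∃ compile : Machine × List ℕ → Nat.Partrec.Code, Computable compile ∧
      ∀ M w, M.WF → M.ValidInput w →
        IsForceProgram (compile (M, w))
          (force ν (tblOf M).shearAt (tblOf M).L (castP ((tblOf M).pt (0, [], w)))) :=
  exists_compile_of ν hν shear_prim L_prim pt_prim

end Vale.Agent.Lib.P113
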