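import Vale.Agent.Lib.P113.Defs

open Set MeasureTheory Filter Topology
open scoped ContDiff

namespace Vale.Agent.Lib.P113

/-- The unit cube. -/
def cube3 : Set E3 := Icc (0 : E3) 1

lemma isCompact_cube3 : IsCompact cube3 := isCompact_Icc

lemma zero_le_one_E3 : (0 : E3) ≤ 1 := fun _ => zero_le_one

lemma integrableOn_cube3 {g : E3 → ℝ} (hg : Continuous g) : IntegrableOn g cube3 :=
  hg.continuousOn.integrableOn_compact isCompact_cube3

lemma contDiff_pd {n : WithTop ℕ∞} {g : E3 → ℝ} (hg : ContDiff ℝ (n + 1) g) (j : Fin 3) :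
    ContDiff ℝ n (pd j g) := by
  unfold pd
  exact (hg.fderiv_right le_rfl).clm_apply contDiff_const

lemma continuous_pd {g : E3 → ℝ} (hg : ContDiff ℝ 1 g) (j : Fin 3) : Continuous (pd j g) := by
  have : ContDiff ℝ 0 (pd j g) := contDiff_pd (n := 0) (by simpa using hg) j
  exact this.continuous

lemma zPeriodic_pd {g : E3 → ℝ} (hp : ZPeriodic g) (j : Fin 3) : ZPeriodic (pd j g) := by
  intro n x
  unfold pd
  set c : E3 := fun i => (n i : ℝ) with hc
  have h1 : g = fun y => g (y + c) := by
    funext y
    exact (hp n y).symm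
  have h2 : (fun i => x i + (n i : ℝ)) = x + c := rfl
  rw [h2]
  conv_rhs => rw [h1]
  rw [fderiv_comp_add_right]

lemma zPeriodic_mul {g h : E3 → ℝ} (hg : ZPeriodic g) (hh : ZPeriodic h) :
    ZPeriodic (fun y => g y * h y) := by
  intro n x
  simp only [hg n x, hh n x]

lemma zPeriodic_sum {ι : Type*} (s : Finset ι) {g : ι → E3 → ℝ} (hg : ∀ i, ZPeriodic (g i)) :
    ZPeriodic (fun y => ∑ i ∈ s, g i y) := by
  intro n x
  simp only [hg _ n x]

lemma pd_mul {a b : E3 → ℝ} {x : E3} (ha : DifferentiableAt ℝ a x) (hb : DifferentiableAt ℝ b x)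
    (j : Fin 3) : pd j (fun y => a y * b y) x = pd j a x * b x + a x * pd j b x := by
  unfold pd
  rw [fderiv_fun_mul ha hb]
  simp only [add_apply, smul_apply, smul_eq_mul]
  ring

lemma pd_sub {a b : E3 → ℝ} {x : E3} (ha : DifferentiableAt ℝ a x) (hb : DifferentiableAt ℝ b x)
    (j : Fin 3) : pd j (fun y => a y - b y) x = pd j a x - pd j b x := by
  unfold pd
  rw [fderiv_fun_sub ha hb]
  simp

lemma pd_sum {ι : Type*} (s : Finset ι) {a : ι → E3 → ℝ} {x : E3}
    (ha : ∀ i ∈ s, DifferentiableAt ℝ (a i) x) (j : Fin 3) :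
    pd j (fun y => ∑ i ∈ s, a i y) x = ∑ i ∈ s, pd j (a i) x := by
  unfold pd
  rw [fderiv_fun_sum ha]
  simp

/-- Integration of a derivative of a periodic function over the cube. -/
theorem integral_pd_eq_zero {g : E3 → ℝ} (hg : ContDiff ℝ 1 g) (hp : ZPeriodic g) (j : Fin 3) :
    ∫ x in cube3, pd j g x = 0 := by
  classical
  have hdiff : Differentiable ℝ g := hg.differentiable (by norm_num)
  have h := integral_divergence_of_hasFDerivAt_off_countable' (E := ℝ) (n := 2)
    (0 : E3) (1 : E3) zero_le_one_E3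
    (fun i => if i = j then g else fun _ => 0)
    (fun i x => if i = j then fderiv ℝ g x else 0) ∅ Set.countable_empty
    (by
      intro i
      by_cases hi : i = j
      · simp only [hi, if_true]; exact hg.continuous.continuousOn
      · simp only [hi, if_false]; exact continuousOn_const)
    (by
      intro x _ i
      by_cases hi : i = j
      · simp only [hi, if_true]; exact (hdiff x).hasFDerivAt
      · simp only [hi, if_false]; exact hasFDerivAt_const _ _)
    (by
      have h3 : (fun x => ∑ i : Fin 3, (if i = j then fderiv ℝ g x else 0) (Pi.single i 1 : E3))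
          = pd j g := by
        funext x
        rw [Finset.sum_eq_single j]
        · simp [pd, unitVec]
        · intro i _ hi; simp [hi]
        · intro h; exact absurd (Finset.mem_univ j) h
      rw [h3]
      exact integrableOn_cube3 (continuous_pd hg j))
  have h3 : (fun x => ∑ i : Fin 3, (if i = j then fderiv ℝ g x else 0) (Pi.single i 1 : E3))
      = pd j g := by
    funext x
    rw [Finset.sum_eq_single j]
    · simp [pd, unitVec]
    · intro i _ hi; simp [hi]
    · intro h; exact absurd (Finset.mem_univ j) h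
  unfold cube3
  rw [h3] at h
  rw [h, Finset.sum_eq_single j]
  · simp only [if_true]
    have h4 : ∀ y : Fin 2 → ℝ, g (Fin.insertNth j ((1 : E3) j) y) = g (Fin.insertNth j ((0 : E3) j) y) := by
      intro y
      have h5 := hp (Pi.single j 1) (Fin.insertNth j ((0 : E3) j) y)
      have h6 : (fun i => (Fin.insertNth j ((0 : E3) j) y : E3) i + (((Pi.single j 1 : Fin 3 → ℤ) i : ℤ) : ℝ))
          = (Fin.insertNth j ((1 : E3) j) y : E3) := by
        funext i
        rcases Fin.eq_self_or_eq_succAbove j i with rfl | ⟨k, rfl⟩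
        · simp
        · simp [Fin.insertNth_apply_succAbove]
      rw [h6] at h5
      exact h5
    simp_rw [h4]
    simp
  · intro i _ hi
    simp [hi]
  · intro h; exact absurd (Finset.mem_univ j) h

/-- The convective term has zero integral. -/
lemma integral_convective {a b : Fin 3 → E3 → ℝ} (ha : ∀ i, ContDiff ℝ 1 (a i))
    (hb : ∀ j, ContDiff ℝ 1 (b j)) (pa : ∀ i, ZPeriodic (a i)) (pb : ∀ j, ZPeriodic (b j))
    (hdiv : ∀ x, ∑ j, pd j (b j) x = 0) :
    ∫ x in cube3, ∑ i, ∑ j, a i x * b j x * pd j (a i) x = 0 := by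
  classical
  have hda : ∀ i x, DifferentiableAt ℝ (a i) x := fun i x => (ha i).differentiable (by norm_num) x
  have hdb : ∀ j x, DifferentiableAt ℝ (b j) x := fun j x => (hb j).differentiable (by norm_num) x
  set S : E3 → ℝ := fun y => ∑ i, a i y * a i y / 2 with hS
  have hSc : ContDiff ℝ 1 S := by
    rw [hS]
    exact ContDiff.sum (fun i _ => ((ha i).mul (ha i)).div_const 2)
  have hSp : ZPeriodic S := by
    intro n x
    simp only [hS, pa _ n x]
  have hSd : ∀ x j, pd j S x = ∑ i, a i x * pd j (a i) x := by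
    intro x j
    rw [hS, pd_sum]
    · apply Finset.sum_congr rfl
      intro i _
      have : (fun y => a i y * a i y / 2) = fun y => a i y * (a i y * (1 / 2)) := by
        funext y; ring
      rw [this, pd_mul (hda i x) ((hda i x).mul_const _)]
      have h2 : pd j (fun y => a i y * (1 / 2)) x = pd j (a i) x * (1 / 2) := by
        unfold pd
        rw [fderiv_mul_const (hda i x)]
        simp
        ring
      rw [h2]
      ring
    · intro i _
      have := hda i x
      fun_prop
  have key : ∀ x, ∑ i, ∑ j, a i x * b j x * pd j (a i) x = ∑ j, pd j (fun y => b j y * S y) x := by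
    intro x
    have h1 : ∀ j, pd j (fun y => b j y * S y) x
        = pd j (b j) x * S x + b j x * ∑ i, a i x * pd j (a i) x := by
      intro j
      rw [pd_mul (hdb j x) (hSc.differentiable (by norm_num) x), hSd]
    simp_rw [h1]
    rw [Finset.sum_add_distrib, ← Finset.sum_mul, hdiv x, zero_mul, zero_add, Finset.sum_comm]
    apply Finset.sum_congr rfl
    intro j _
    rw [Finset.mul_sum]
    apply Finset.sum_congr rfl
    intro i _
    ring
  simp_rw [key]
  have hc : ∀ j, ContDiff ℝ 1 (fun y => b j y * S y) := fun j => (hb j).mul hSc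
  rw [integral_finsetSum]
  · apply Finset.sum_eq_zero
    intro j _
    exact integral_pd_eq_zero (hc j) (zPeriodic_mul (pb j) hSp) j
  · intro j _
    exact integrableOn_cube3 (continuous_pd (hc j) j)

/-- The pressure term has zero integral. -/
lemma integral_pressure {a : Fin 3 → E3 → ℝ} {π : E3 → ℝ} (ha : ∀ i, ContDiff ℝ 1 (a i))
    (hπ : ContDiff ℝ 1 π) (pa : ∀ i, ZPeriodic (a i)) (pπ : ZPeriodic π)
    (hdiv : ∀ x, ∑ i, pd i (a i) x = 0) :
    ∫ x in cube3, ∑ i, a i x * pd i π x = 0 := by
  classical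
  have hda : ∀ i x, DifferentiableAt ℝ (a i) x := fun i x => (ha i).differentiable (by norm_num) x
  have hdπ : ∀ x, DifferentiableAt ℝ π x := fun x => hπ.differentiable (by norm_num) x
  have key : ∀ x, ∑ i, a i x * pd i π x = ∑ i, pd i (fun y => a i y * π y) x := by
    intro x
    have h1 : ∀ i, pd i (fun y => a i y * π y) x = pd i (a i) x * π x + a i x * pd i π x := by
      intro i
      rw [pd_mul (hda i x) (hdπ x)]
    simp_rw [h1]
    rw [Finset.sum_add_distrib, ← Finset.sum_mul, hdiv x, zero_mul, zero_add]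
  simp_rw [key]
  have hc : ∀ i, ContDiff ℝ 1 (fun y => a i y * π y) := fun i => (ha i).mul hπ
  rw [integral_finsetSum]
  · apply Finset.sum_eq_zero
    intro i _
    exact integral_pd_eq_zero (hc i) (zPeriodic_mul (pa i) pπ) i
  · intro i _
    exact integrableOn_cube3 (continuous_pd (hc i) i)

/-- The viscous term has nonpositive integral. -/
lemma integral_viscous_nonpos {a : Fin 3 → E3 → ℝ} (ha : ∀ i, ContDiff ℝ 2 (a i))
    (pa : ∀ i, ZPeriodic (a i)) :
    ∫ x in cube3, ∑ i, ∑ j, a i x * pd j (pd j (a i)) x ≤ 0 := by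
  classical
  have ha1 : ∀ i, ContDiff ℝ 1 (a i) := fun i => (ha i).of_le (by norm_num)
  have hda : ∀ i x, DifferentiableAt ℝ (a i) x := fun i x => (ha1 i).differentiable (by norm_num) x
  have hpd : ∀ i j, ContDiff ℝ 1 (pd j (a i)) := fun i j =>
    contDiff_pd (n := 1) (by simpa [one_add_one_eq_two] using ha i) j
  have hdpd : ∀ i j x, DifferentiableAt ℝ (pd j (a i)) x :=
    fun i j x => (hpd i j).differentiable (by norm_num) x
  have hc : ∀ i j, ContDiff ℝ 1 (fun y => a i y * pd j (a i) y) := fun i j => (ha1 i).mul (hpd i j)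
  have h1 : ∀ i j x, a i x * pd j (pd j (a i)) x
      = pd j (fun y => a i y * pd j (a i) y) x - (pd j (a i) x) ^ 2 := by
    intro i j x
    rw [pd_mul (hda i x) (hdpd i j x)]
    ring
  have hint : ∀ i j, IntegrableOn (pd j (pd j (a i))) cube3 := fun i j =>
    integrableOn_cube3 (continuous_pd (hpd i j) j)
  have hint2 : ∀ i j, IntegrableOn (fun x => a i x * pd j (pd j (a i)) x) cube3 := fun i j =>
    integrableOn_cube3 ((ha1 i).continuous.mul (continuous_pd (hpd i j) j))
  rw [integral_finsetSum _ (fun i _ => integrable_finsetSum _ (fun j _ => hint2 i j))]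
  apply Finset.sum_nonpos
  intro i _
  rw [integral_finsetSum _ (fun j _ => hint2 i j)]
  apply Finset.sum_nonpos
  intro j _
  simp_rw [h1]
  have i2 : IntegrableOn (fun x => (pd j (a i) x) ^ 2) cube3 :=
    integrableOn_cube3 ((continuous_pd (ha1 i) j).pow 2)
  rw [integral_sub (integrableOn_cube3 (continuous_pd (hc i j) j)) i2,
    integral_pd_eq_zero (hc i j) (zPeriodic_mul (pa i) (zPeriodic_pd (pa i) j)) j]
  have : 0 ≤ ∫ x in cube3, (pd j (a i) x) ^ 2 :=
    integral_nonneg (fun x => sq_nonneg _)
  linarith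

/-- The cube is contained in the closure of its interior. -/
lemma cube3_subset_closure_interior : cube3 ⊆ closure (interior cube3) := by
  unfold cube3
  rw [← Set.pi_univ_Icc, interior_pi_set Set.finite_univ, closure_pi_set]
  intro x hx i hi
  have h := hx i hi
  have h2 : closure (interior (Icc ((0 : E3) i) ((1 : E3) i))) = Icc ((0 : E3) i) ((1 : E3) i) := by
    rw [interior_Icc, closure_Ioo]
    simp
  show x i ∈ closure (interior (Icc ((0 : E3) i) ((1 : E3) i)))
  rw [h2]
  exact h

/-- A continuous nonnegative periodic function with zero integral over the cube vanishes. -/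
lemma zero_of_integral_zero {g : E3 → ℝ} (hg : Continuous g) (hp : ZPeriodic g)
    (h0 : ∀ x, 0 ≤ g x) (hint : ∫ x in cube3, g x = 0) (x : E3) : g x = 0 := by
  have hae : g =ᵐ[volume.restrict cube3] 0 :=
    (integral_eq_zero_iff_of_nonneg h0 (integrableOn_cube3 hg)).mp hint
  have heq : EqOn g 0 cube3 :=
    Measure.eqOn_of_ae_eq hae hg.continuousOn continuousOn_const cube3_subset_closure_interior
  have h1 := hp (fun i => -⌊x i⌋) x
  rw [← h1]
  apply heq
  constructor
  · intro i
    simp only [Pi.zero_apply, Int.cast_neg]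
    have := Int.floor_le (x i)
    linarith
  · intro i
    simp only [Pi.one_apply, Int.cast_neg]
    have := Int.lt_floor_add_one (x i)
    linarith

/-- A derivative of a component. -/
lemma pd_component {g : E3 → E3} {x : E3} (hg : DifferentiableAt ℝ g x) (j i : Fin 3) :
    pd j (fun y => g y i) x = fderiv ℝ g x (unitVec j) i := by
  unfold pd
  have h : HasFDerivAt (fun y => g y i)
      ((ContinuousLinearMap.proj i : E3 →L[ℝ] ℝ).comp (fderiv ℝ g x)) x :=
    (ContinuousLinearMap.proj i : E3 →L[ℝ] ℝ).hasFDerivAt.comp x hg.hasFDerivAt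
  rw [h.fderiv]
  rfl

lemma norm_unitVec_le (j : Fin 3) : ‖unitVec j‖ ≤ 1 := by
  unfold unitVec
  rw [pi_norm_le_iff_of_nonneg zero_le_one]
  intro i
  by_cases h : i = j
  · subst h; simp
  · simp [Pi.single_eq_of_ne h]

/-- A linear map on `E3` vanishing on the unit vectors vanishes. -/
lemma clm_eq_zero_of_unitVec {L : E3 →L[ℝ] ℝ} (h : ∀ j, L (unitVec j) = 0) : L = 0 := by
  classical
  ext1 y
  have h1 : y = ∑ i, y i • unitVec i := by
    funext k
    simp [unitVec, Finset.sum_apply, Pi.single_apply]
  rw [h1, map_sum]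
  simp [h]

section main

variable {ν : ℝ} {f : ℝ → E3 → E3} {T : ℝ} {u v : ℝ → E3 → E3} {p q : ℝ → E3 → ℝ}

lemma comp_contDiff {n : WithTop ℕ∞} {g : E3 → E3} (h : ContDiff ℝ n g) (i : Fin 3) :
    ContDiff ℝ n (fun y => g y i) := contDiff_pi.mp h i

lemma comp_periodic {g : E3 → E3} (h : ZPeriodic g) (i : Fin 3) :
    ZPeriodic (fun y => g y i) := by
  intro n x
  simp only [h n x]

/-- Continuity of a component of the time derivative. -/
lemma contOn_time (hu : IsClassicalSolution ν f T u p) (i : Fin 3) :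
    ContinuousOn (fun z : ℝ × E3 => derivWithin (fun s => u s z.2) (Icc 0 T) z.1 i)
      (Icc 0 T ×ˢ univ) :=
  (continuous_apply i).comp_continuousOn hu.cont_time

lemma contOn_comp (hu : IsClassicalSolution ν f T u p) (i : Fin 3) :
    ContinuousOn (fun z : ℝ × E3 => u z.1 z.2 i) (Icc 0 T ×ˢ univ) :=
  (continuous_apply i).comp_continuousOn hu.cont_u

/-- The time derivative at an interior point. -/
lemma hasDerivAt_time (hu : IsClassicalSolution ν f T u p) {t : ℝ} (ht : t ∈ Ioo 0 T) (x : E3)
    (i : Fin 3) :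
    HasDerivAt (fun s => u s x i) (derivWithin (fun s => u s x) (Icc 0 T) t i) t := by
  have h1 := (hu.diff_time t ⟨ht.1.le, ht.2.le⟩ x).hasDerivWithinAt
  have h2 : HasDerivAt (fun s => u s x) (derivWithin (fun s => u s x) (Icc 0 T) t) t :=
    h1.hasDerivAt (Icc_mem_nhds ht.1 ht.2)
  exact (hasDerivAt_pi.mp h2) i

/-- Continuity in space of the time derivative. -/
lemma cont_time_slice (hu : IsClassicalSolution ν f T u p) {t : ℝ} (ht : t ∈ Icc 0 T) (i : Fin 3) :
    Continuous (fun x => derivWithin (fun s => u s x) (Icc 0 T) t i) := by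
  have h := contOn_time hu i
  exact h.comp_continuous (f := fun x : E3 => (t, x)) (by fun_prop) (fun x => ⟨ht, mem_univ _⟩)

/-- Energy of the difference. -/
noncomputable def energy (u v : ℝ → E3 → E3) (t : ℝ) : ℝ :=
  ∫ x in cube3, ∑ i, (v t x i - u t x i) ^ 2

lemma energy_nonneg (u v : ℝ → E3 → E3) (t : ℝ) : 0 ≤ energy u v t :=
  integral_nonneg (fun x => Finset.sum_nonneg (fun i _ => sq_nonneg _))

lemma energy_continuousOn (hu : IsClassicalSolution ν f T u p)
    (hv : IsClassicalSolution ν f T v q) : ContinuousOn (energy u v) (Icc 0 T) := by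
  rw [continuousOn_iff_continuous_domRestrict]
  have h1 : ContinuousOn (fun z : ℝ × E3 => ∑ i, (v z.1 z.2 i - u z.1 z.2 i) ^ 2)
      (Icc 0 T ×ˢ univ) := by
    apply continuousOn_finsetSum
    intro i _
    exact ((contOn_comp hv i).sub (contOn_comp hu i)).pow 2
  have h2 : Continuous (Function.uncurry (fun (t : Icc (0 : ℝ) T) (x : E3) =>
      ∑ i, (v t x i - u t x i) ^ 2)) := by
    refine h1.comp_continuous (f := fun z : Icc (0 : ℝ) T × E3 => ((z.1 : ℝ), z.2)) (by fun_prop) ?_
    intro z
    exact ⟨z.1.2, mem_univ _⟩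
  have h3 := continuous_parametric_integral_of_continuous (μ := (volume : Measure E3)) h2
    isCompact_cube3
  exact h3

/-- The pointwise time derivative of the energy density. -/
noncomputable def enerDeriv (T : ℝ) (u v : ℝ → E3 → E3) (t : ℝ) (x : E3) : ℝ :=
  ∑ i, 2 * (v t x i - u t x i) *
    (derivWithin (fun s => v s x) (Icc 0 T) t i - derivWithin (fun s => u s x) (Icc 0 T) t i)

lemma enerDeriv_contOn (hu : IsClassicalSolution ν f T u p) (hv : IsClassicalSolution ν f T v q) :
    ContinuousOn (fun z : ℝ × E3 => enerDeriv T u v z.1 z.2) (Icc 0 T ×ˢ univ) := by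
  unfold enerDeriv
  apply continuousOn_finsetSum
  intro i _
  exact (continuousOn_const.mul ((contOn_comp hv i).sub (contOn_comp hu i))).mul
    ((contOn_time hv i).sub (contOn_time hu i))

/-- The energy is differentiable at interior times. -/
lemma energy_hasDerivAt (hu : IsClassicalSolution ν f T u p) (hv : IsClassicalSolution ν f T v q)
    {t : ℝ} (ht : t ∈ Ioo 0 T) :
    HasDerivAt (energy u v) (∫ x in cube3, enerDeriv T u v t x) t := by
  have hT : (0 : ℝ) ≤ T := ht.1.le.trans ht.2.le
  have hcomp : IsCompact (Icc (0 : ℝ) T ×ˢ cube3) := isCompact_Icc.prod isCompact_cube3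
  obtain ⟨B, hB⟩ := hcomp.exists_bound_of_continuousOn
    ((enerDeriv_contOn hu hv).mono (prod_mono_right (subset_univ _)))
  have hcont : ∀ s ∈ Icc (0 : ℝ) T, ∀ i, Continuous (fun x => v s x i - u s x i) := by
    intro s hs i
    exact ((comp_contDiff (hv.diff_space s hs) i).continuous).sub
      ((comp_contDiff (hu.diff_space s hs) i).continuous)
  have hF : ∀ s ∈ Icc (0 : ℝ) T, Continuous (fun x => ∑ i, (v s x i - u s x i) ^ 2) := by
    intro s hs
    exact continuous_finsetSum _ (fun i _ => (hcont s hs i).pow 2)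
  have hF' : Continuous (enerDeriv T u v t) := by
    have hs : t ∈ Icc (0 : ℝ) T := ⟨ht.1.le, ht.2.le⟩
    unfold enerDeriv
    refine continuous_finsetSum _ (fun i _ => ?_)
    exact (continuous_const.mul (hcont t hs i)).mul
      ((cont_time_slice hv hs i).sub (cont_time_slice hu hs i))
  have : IsFiniteMeasure ((volume : Measure E3).restrict cube3) :=
    ⟨by rw [Measure.restrict_apply_univ]; exact isCompact_cube3.measure_lt_top⟩
  have := hasDerivAt_integral_of_dominated_loc_of_deriv_le (𝕜 := ℝ)
    (μ := (volume : Measure E3).restrict cube3)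
    (F := fun s x => ∑ i, (v s x i - u s x i) ^ 2) (F' := enerDeriv T u v)
    (x₀ := t) (s := Ioo 0 T) (bound := fun _ => B)
    (Ioo_mem_nhds ht.1 ht.2)
    (by
      filter_upwards [Ioo_mem_nhds ht.1 ht.2] with s hs
      exact (hF s ⟨hs.1.le, hs.2.le⟩).aestronglyMeasurable)
    (integrableOn_cube3 (hF t ⟨ht.1.le, ht.2.le⟩))
    hF'.aestronglyMeasurable
    (by
      filter_upwards [ae_restrict_mem (measurableSet_Icc (a := (0 : E3)) (b := 1))] with x hx s hs
      exact hB (s, x) ⟨⟨hs.1.le, hs.2.le⟩, hx⟩)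
    (integrable_const _)
    (by
      filter_upwards with x s hs
      have h1 : ∀ i ∈ Finset.univ, HasDerivAt (fun s => (v s x i - u s x i) ^ 2)
          (2 * (v s x i - u s x i) * (derivWithin (fun s => v s x) (Icc 0 T) s i
            - derivWithin (fun s => u s x) (Icc 0 T) s i)) s := by
        intro i _
        have h2 := ((hasDerivAt_time hv hs x i).fun_sub (hasDerivAt_time hu hs x i)).fun_pow 2
        refine h2.congr_deriv ?_
        norm_num
      exact HasDerivAt.fun_sum h1)
  exact this.2

/-- The energy inequality: the derivative of the energy is bounded by the energy. -/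
lemma energy_deriv_le (hν : 0 < ν) (hu : IsClassicalSolution ν f T u p)
    (hv : IsClassicalSolution ν f T v q) {C : ℝ}
    (hC : ∀ t ∈ Icc (0 : ℝ) T, ∀ x ∈ cube3, ∀ i j, |pd j (fun y => u t y i) x| ≤ C)
    {t : ℝ} (ht : t ∈ Icc 0 T) :
    ∫ x in cube3, enerDeriv T u v t x ≤ 6 * C * energy u v t := by
  classical
  have hd2u : ∀ i, ContDiff ℝ 2 (fun y => u t y i) := fun i => comp_contDiff (hu.diff_space t ht) i
  have hd2v : ∀ i, ContDiff ℝ 2 (fun y => v t y i) := fun i => comp_contDiff (hv.diff_space t ht) i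
  have hd1u : ∀ i, ContDiff ℝ 1 (fun y => u t y i) := fun i => (hd2u i).of_le (by norm_num)
  have hd1v : ∀ i, ContDiff ℝ 1 (fun y => v t y i) := fun i => (hd2v i).of_le (by norm_num)
  have hdu : ∀ i x, DifferentiableAt ℝ (fun y => u t y i) x :=
    fun i x => (hd1u i).differentiable (by norm_num) x
  have hdv : ∀ i x, DifferentiableAt ℝ (fun y => v t y i) x :=
    fun i x => (hd1v i).differentiable (by norm_num) x
  have hpu1 : ∀ i j, ContDiff ℝ 1 (pd j (fun y => u t y i)) := fun i j =>
    contDiff_pd (n := 1) (by simpa [one_add_one_eq_two] using hd2u i) j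
  have hpv1 : ∀ i j, ContDiff ℝ 1 (pd j (fun y => v t y i)) := fun i j =>
    contDiff_pd (n := 1) (by simpa [one_add_one_eq_two] using hd2v i) j
  -- the difference
  set a : Fin 3 → E3 → ℝ := fun i y => v t y i - u t y i with ha
  have ha2 : ∀ i, ContDiff ℝ 2 (a i) := fun i => (hd2v i).sub (hd2u i)
  have ha1 : ∀ i, ContDiff ℝ 1 (a i) := fun i => (ha2 i).of_le (by norm_num)
  have hpa : ∀ i, ZPeriodic (a i) := by
    intro i n x
    simp only [ha]
    rw [hv.periodic_u t ht n x, hu.periodic_u t ht n x]
  have hpdep : ∀ i j, pd j (a i) = fun x => pd j (fun y => v t y i) x - pd j (fun y => u t y i) x := by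
    intro i j
    funext x
    exact pd_sub (hdv i x) (hdu i x) j
  have hpdep2 : ∀ i j x, pd j (pd j (a i)) x
      = pd j (pd j (fun y => v t y i)) x - pd j (pd j (fun y => u t y i)) x := by
    intro i j x
    rw [hpdep]
    exact pd_sub ((hpv1 i j).differentiable (by norm_num) x)
      ((hpu1 i j).differentiable (by norm_num) x) j
  -- pressure difference
  set π : E3 → ℝ := fun y => q t y - p t y with hπ
  have hdq : ContDiff ℝ 1 (q t) := hv.diff_p t ht
  have hdp : ContDiff ℝ 1 (p t) := hu.diff_p t ht
  have hπ1 : ContDiff ℝ 1 π := hdq.sub hdp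
  have hpπ : ZPeriodic π := by
    intro n x
    simp only [hπ]
    rw [hv.periodic_p t ht n x, hu.periodic_p t ht n x]
  have hπd : ∀ i x, pd i π x = pd i (q t) x - pd i (p t) x := by
    intro i x
    exact pd_sub (hdq.differentiable (by norm_num) x) (hdp.differentiable (by norm_num) x) i
  -- divergence free
  have hdiva : ∀ x, ∑ i, pd i (a i) x = 0 := by
    intro x
    have h1 : ∀ i, pd i (a i) x = pd i (fun y => v t y i) x - pd i (fun y => u t y i) x := by
      intro i; rw [hpdep]
    simp_rw [h1]
    rw [Finset.sum_sub_distrib, hv.divergence_free t ht x, hu.divergence_free t ht x, sub_zero]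
  have hdivv : ∀ x, ∑ j, pd j (fun y => v t y j) x = 0 := hv.divergence_free t ht
  -- pointwise identity
  have key : ∀ x, enerDeriv T u v t x = 2 * (
      - (∑ i, ∑ j, a i x * v t x j * pd j (a i) x)
      - (∑ i, ∑ j, a i x * a j x * pd j (fun y => u t y i) x)
      - (∑ i, a i x * pd i π x)
      + ν * (∑ i, ∑ j, a i x * pd j (pd j (a i)) x)) := by
    intro x
    unfold enerDeriv
    have hm : ∀ i, derivWithin (fun s => v s x) (Icc 0 T) t i
        - derivWithin (fun s => u s x) (Icc 0 T) t i
        = - (∑ j, v t x j * pd j (a i) x) - (∑ j, a j x * pd j (fun y => u t y i) x)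
          - pd i π x + ν * ∑ j, pd j (pd j (a i)) x := by
      intro i
      have h1 := hv.momentum t ht x i
      have h2 := hu.momentum t ht x i
      have h3 : ∑ j, v t x j * pd j (a i) x + ∑ j, a j x * pd j (fun y => u t y i) x
          = ∑ j, v t x j * pd j (fun y => v t y i) x - ∑ j, u t x j * pd j (fun y => u t y i) x := by
        rw [← Finset.sum_add_distrib, ← Finset.sum_sub_distrib]
        apply Finset.sum_congr rfl
        intro j _
        rw [hpdep]
        simp only [ha]
        ring
      have h4 : ∑ j, pd j (pd j (a i)) x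
          = ∑ j, pd j (pd j (fun y => v t y i)) x - ∑ j, pd j (pd j (fun y => u t y i)) x := by
        rw [← Finset.sum_sub_distrib]
        apply Finset.sum_congr rfl
        intro j _
        exact hpdep2 i j x
      rw [h4, hπd]
      linarith
    simp_rw [hm]
    simp only [Fin.sum_univ_three]
    ring
  -- integrability of the four terms
  have hca : ∀ i, Continuous (a i) := fun i => (ha1 i).continuous
  have hcv : ∀ j, Continuous (fun y => v t y j) := fun j => (hd1v j).continuous
  have hcpa : ∀ i j, Continuous (pd j (a i)) := fun i j => continuous_pd (ha1 i) j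
  have hcpu : ∀ i j, Continuous (pd j (fun y => u t y i)) := fun i j => continuous_pd (hd1u i) j
  have hI1 : IntegrableOn (fun x => ∑ i, ∑ j, a i x * v t x j * pd j (a i) x) cube3 :=
    integrableOn_cube3 (continuous_finsetSum _ (fun i _ => continuous_finsetSum _ (fun j _ =>
      ((hca i).mul (hcv j)).mul (hcpa i j))))
  have hI2 : IntegrableOn (fun x => ∑ i, ∑ j, a i x * a j x * pd j (fun y => u t y i) x) cube3 :=
    integrableOn_cube3 (continuous_finsetSum _ (fun i _ => continuous_finsetSum _ (fun j _ =>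
      ((hca i).mul (hca j)).mul (hcpu i j))))
  have hI3 : IntegrableOn (fun x => ∑ i, a i x * pd i π x) cube3 :=
    integrableOn_cube3 (continuous_finsetSum _ (fun i _ => (hca i).mul (continuous_pd hπ1 i)))
  have hI4 : IntegrableOn (fun x => ∑ i, ∑ j, a i x * pd j (pd j (a i)) x) cube3 := by
    apply integrableOn_cube3
    refine continuous_finsetSum _ (fun i _ => continuous_finsetSum _ (fun j _ => ?_))
    refine (hca i).mul (continuous_pd ?_ j)
    exact contDiff_pd (n := 1) (by simpa [one_add_one_eq_two] using ha2 i) j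
  have hT1 : ∫ x in cube3, ∑ i, ∑ j, a i x * v t x j * pd j (a i) x = 0 :=
    integral_convective (b := fun j y => v t y j) ha1 hd1v hpa
      (fun j => comp_periodic (hv.periodic_u t ht) j) hdivv
  have hT3 : ∫ x in cube3, ∑ i, a i x * pd i π x = 0 :=
    integral_pressure ha1 hπ1 hpa hpπ hdiva
  have hT4 : ∫ x in cube3, ∑ i, ∑ j, a i x * pd j (pd j (a i)) x ≤ 0 :=
    integral_viscous_nonpos ha2 hpa
  have hcu0 : 0 ≤ C := (abs_nonneg _).trans (hC t ht 0 ⟨le_refl _, zero_le_one_E3⟩ 0 0)
  have hIS : IntegrableOn (fun x => 3 * C * ∑ i, a i x ^ 2) cube3 :=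
    integrableOn_cube3 (continuous_const.mul
      (continuous_finsetSum _ (fun i _ => (hca i).pow 2)))
  have hT2 : - ∫ x in cube3, ∑ i, ∑ j, a i x * a j x * pd j (fun y => u t y i) x
      ≤ 3 * C * energy u v t := by
    rw [← integral_neg]
    have h1 : 3 * C * energy u v t = ∫ x in cube3, 3 * C * ∑ i, a i x ^ 2 := by
      rw [integral_const_mul]
      rfl
    rw [h1]
    apply setIntegral_mono_on hI2.neg hIS measurableSet_Icc
    intro x hx
    have hterm : ∀ i j, - (a i x * a j x * pd j (fun y => u t y i) x)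
        ≤ C * (a i x ^ 2 + a j x ^ 2) / 2 := by
      intro i j
      have h2 := abs_le.mp (hC t ht x hx i j)
      have h3 : |a i x * a j x| ≤ (a i x ^ 2 + a j x ^ 2) / 2 := by
        rw [abs_le]
        constructor <;> nlinarith [sq_nonneg (a i x + a j x), sq_nonneg (a i x - a j x)]
      calc - (a i x * a j x * pd j (fun y => u t y i) x)
          ≤ |a i x * a j x * pd j (fun y => u t y i) x| := neg_le_abs _
        _ = |a i x * a j x| * |pd j (fun y => u t y i) x| := abs_mul _ _
        _ ≤ ((a i x ^ 2 + a j x ^ 2) / 2) * C :=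
            mul_le_mul h3 (hC t ht x hx i j) (abs_nonneg _) (by positivity)
        _ = _ := by ring
    have h4 : - ∑ i, ∑ j, a i x * a j x * pd j (fun y => u t y i) x
        ≤ ∑ i, ∑ j, C * (a i x ^ 2 + a j x ^ 2) / 2 := by
      rw [← Finset.sum_neg_distrib]
      apply Finset.sum_le_sum
      intro i _
      rw [← Finset.sum_neg_distrib]
      apply Finset.sum_le_sum
      intro j _
      exact hterm i j
    refine h4.trans (le_of_eq ?_)
    simp only [Fin.sum_univ_three]
    ring
  have hmain : ∫ x in cube3, enerDeriv T u v t x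
      = 2 * (- (∫ x in cube3, ∑ i, ∑ j, a i x * v t x j * pd j (a i) x)
        - (∫ x in cube3, ∑ i, ∑ j, a i x * a j x * pd j (fun y => u t y i) x)
        - (∫ x in cube3, ∑ i, a i x * pd i π x)
        + ν * ∫ x in cube3, ∑ i, ∑ j, a i x * pd j (pd j (a i)) x) := by
    simp_rw [key]
    have i1 : IntegrableOn (fun x => - ∑ i, ∑ j, a i x * v t x j * pd j (a i) x) cube3 := hI1.neg
    have i12 : IntegrableOn (fun x => - (∑ i, ∑ j, a i x * v t x j * pd j (a i) x)
        - ∑ i, ∑ j, a i x * a j x * pd j (fun y => u t y i) x) cube3 := i1.sub hI2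
    have i123 : IntegrableOn (fun x => - (∑ i, ∑ j, a i x * v t x j * pd j (a i) x)
        - (∑ i, ∑ j, a i x * a j x * pd j (fun y => u t y i) x)
        - ∑ i, a i x * pd i π x) cube3 := i12.sub hI3
    have i4 : IntegrableOn (fun x => ν * ∑ i, ∑ j, a i x * pd j (pd j (a i)) x) cube3 :=
      hI4.const_mul ν
    rw [integral_const_mul, integral_add i123 i4, integral_sub i12 hI3, integral_sub i1 hI2,
      integral_neg, integral_const_mul]
  rw [hmain, hT1, hT3]
  nlinarith [mul_nonpos_of_nonneg_of_nonpos hν.le hT4]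

/-- Uniqueness of classical solutions by the energy method. -/
theorem classical_unique (ν : ℝ) (hν : 0 < ν) (f : ℝ → E3 → E3) (T : ℝ) (hT : 0 < T)
    (u : ℝ → E3 → E3) (p : ℝ → E3 → ℝ) (v : ℝ → E3 → E3) (q : ℝ → E3 → ℝ)
    (h₁ : IsClassicalSolution ν f T u p) (h₂ : IsClassicalSolution ν f T v q) :
    ∀ t ∈ Set.Icc 0 T, ∀ x, v t x = u t x ∧ q t x = p t x := by
  classical
  -- bound on the gradient of `u`
  have hcomp : IsCompact (Icc (0 : ℝ) T ×ˢ cube3) := isCompact_Icc.prod isCompact_cube3
  obtain ⟨C0, hC0⟩ := hcomp.exists_bound_of_continuousOn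
    (h₁.cont_space.mono (prod_mono_right (subset_univ _)))
  have hC : ∀ t ∈ Icc (0 : ℝ) T, ∀ x ∈ cube3, ∀ i j, |pd j (fun y => u t y i) x| ≤ C0 := by
    intro t ht x hx i j
    have hd : DifferentiableAt ℝ (u t) x :=
      (h₁.diff_space t ht).differentiable (by norm_num) x
    rw [pd_component hd]
    have h0 := hC0 (t, x) ⟨ht, hx⟩
    simp only at h0
    calc |(fderiv ℝ (u t) x (unitVec j)) i| = ‖(fderiv ℝ (u t) x (unitVec j)) i‖ := rfl
      _ ≤ ‖fderiv ℝ (u t) x (unitVec j)‖ := norm_le_pi_norm _ i
      _ ≤ ‖fderiv ℝ (u t) x‖ * ‖unitVec j‖ := ContinuousLinearMap.le_opNorm _ _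
      _ ≤ C0 * 1 := mul_le_mul h0 (norm_unitVec_le j) (norm_nonneg _) ((norm_nonneg _).trans h0)
      _ = C0 := mul_one _
  -- energy vanishes
  set K : ℝ := 6 * C0 with hK
  have hE0 : energy u v 0 = 0 := by
    unfold energy
    have : ∀ x, ∑ i, (v 0 x i - u 0 x i) ^ 2 = 0 := by
      intro x
      rw [h₁.initial, h₂.initial]
      simp
    simp [this]
  have hanti : AntitoneOn (fun t => Real.exp (-K * t) * energy u v t) (Icc 0 T) := by
    apply antitoneOn_of_deriv_nonpos (convex_Icc _ _)
    · apply ContinuousOn.mul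
      · fun_prop
      · exact energy_continuousOn h₁ h₂
    · intro t ht
      rw [interior_Icc] at ht
      have h1 := energy_hasDerivAt h₁ h₂ ht
      have h2 : HasDerivAt (fun t => Real.exp (-K * t)) (Real.exp (-K * t) * (-K * 1)) t :=
        ((hasDerivAt_id t).const_mul (-K)).exp
      exact (h2.fun_mul h1).differentiableAt.differentiableWithinAt
    · intro t ht
      rw [interior_Icc] at ht
      have h1 := energy_hasDerivAt h₁ h₂ ht
      have h2 : HasDerivAt (fun t => Real.exp (-K * t)) (Real.exp (-K * t) * (-K * 1)) t :=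
        ((hasDerivAt_id t).const_mul (-K)).exp
      rw [(h2.fun_mul h1).deriv]
      have h3 := energy_deriv_le hν h₁ h₂ hC (t := t) ⟨ht.1.le, ht.2.le⟩
      have h4 := Real.exp_pos (-K * t)
      rw [← hK] at h3
      nlinarith
  have hEzero : ∀ t ∈ Icc (0 : ℝ) T, energy u v t = 0 := by
    intro t ht
    have h1 := hanti ⟨le_refl 0, hT.le⟩ ht ht.1
    simp only [mul_zero, Real.exp_zero, hE0] at h1
    have h2 := Real.exp_pos (-K * t)
    have h3 := energy_nonneg u v t
    nlinarith
  -- velocities coincide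
  have hvel : ∀ t ∈ Icc (0 : ℝ) T, ∀ x, v t x = u t x := by
    intro t ht x
    have hcont : Continuous (fun x => ∑ i, (v t x i - u t x i) ^ 2) :=
      continuous_finsetSum _ (fun i _ => (((comp_contDiff (h₂.diff_space t ht) i).continuous).sub
        ((comp_contDiff (h₁.diff_space t ht) i).continuous)).pow 2)
    have hper : ZPeriodic (fun x => ∑ i, (v t x i - u t x i) ^ 2) := by
      intro n y
      simp only [h₂.periodic_u t ht n y, h₁.periodic_u t ht n y]
    have h0 := zero_of_integral_zero hcont hper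
      (fun x => Finset.sum_nonneg (fun i _ => sq_nonneg _)) (hEzero t ht) x
    have h1 := (Finset.sum_eq_zero_iff_of_nonneg (fun i _ => sq_nonneg _)).mp h0
    funext i
    have h2 := h1 i (Finset.mem_univ _)
    have h3 : v t x i - u t x i = 0 := by
      simpa using h2
    linarith
  intro t ht x
  refine ⟨hvel t ht x, ?_⟩
  -- pressures coincide
  have hvt : v t = u t := funext (hvel t ht)
  have hgrad : ∀ i y, pd i (q t) y = pd i (p t) y := by
    intro i y
    have h1 := h₂.momentum t ht y i
    have h2 := h₁.momentum t ht y i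
    have h3 : derivWithin (fun s => v s y) (Icc 0 T) t = derivWithin (fun s => u s y) (Icc 0 T) t := by
      apply derivWithin_congr
      · intro s hs; exact hvel s hs y
      · exact hvel t ht y
    rw [h3, hvt] at h1
    linarith
  have hdq : ContDiff ℝ 1 (q t) := h₂.diff_p t ht
  have hdp : ContDiff ℝ 1 (p t) := h₁.diff_p t ht
  have hdiff : Differentiable ℝ (fun y => q t y - p t y) :=
    (hdq.sub hdp).differentiable (by norm_num)
  have hfd : ∀ y, fderiv ℝ (fun y => q t y - p t y) y = 0 := by
    intro y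
    apply clm_eq_zero_of_unitVec
    intro j
    have h1 := pd_sub (hdq.differentiable (by norm_num) y) (hdp.differentiable (by norm_num) y) j
    unfold pd at h1 hgrad
    rw [h1, hgrad]
    ring
  have hconst : ∀ y, q t y - p t y = q t 0 - p t 0 := fun y => is_const_of_fderiv_eq_zero hdiff hfd y 0
  have hmean : ∫ y in cube3, (q t y - p t y) = 0 := by
    rw [integral_sub (integrableOn_cube3 hdq.continuous) (integrableOn_cube3 hdp.continuous)]
    have h1 := h₂.mean_zero t ht
    have h2 := h₁.mean_zero t ht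
    unfold torusMean at h1 h2
    unfold cube3
    rw [h1, h2, sub_zero]
  simp_rw [hconst] at hmean
  have hvol : (volume (cube3)).toReal = 1 := by
    unfold cube3
    rw [Real.volume_Icc_pi]
    simp
  rw [setIntegral_const, Measure.real, hvol] at hmean
  have h5 : q t 0 - p t 0 = 0 := by simpa using hmean
  have h6 := hconst x
  linarith

end main

end Vale.Agent.Lib.P113
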