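import Vale.Agent.Lib.P113.Flow
import Vale.Agent.Lib.P113.Unique
import Vale.Agent.Lib.P113.ShearPrim
import Vale.Agent.Lib.P113.Halting

/-!
Assembly of the positive answer.
-/

open Set
open scoped ContDiff

namespace Vale.Agent.Lib.P113

open Tbl

theorem haltingDetection (ν : ℝ) (hν : 0 < ν) (hc : IsComputableReal ν) : HaltingDetection ν := by
  obtain ⟨compile, hcomp, hprog⟩ := exists_compile ν hc
  refine ⟨0, haltSet, 1, compile,
    fun M w => force ν (tblOf M).shearAt (tblOf M).L (castP ((tblOf M).pt (0, [], w))),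
    isOpen_haltSet, periodic_haltSet, hcomp, ?_⟩
  intro M hM
  have hTS : TableSpec (tblOf M).Mc (tblOf M).D (tblOf M).tr := tableOf_spec M hM
  have hD : 0 < (tblOf M).D := lt_of_lt_of_le hM.2.1 (digit_bound hM)
  have hMc : 0 < (tblOf M).Mc := by
    show 0 < modeCount M
    unfold modeCount
    have := hM.1
    omega
  have hG : ∀ k, ((tblOf M).shearAt k).Good := shearAt_good hTS hMc hD
  have hG' : ∀ k < (tblOf M).L, ((tblOf M).shearAt k).Good := fun k _ => hG k
  have hI : ∀ k, (tblOf M).L ≤ k →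
      ((tblOf M).shearAt k).α = 0 ∧ ((tblOf M).shearAt k).β = 0 ∧ ((tblOf M).shearAt k).Good := by
    intro k hk
    rw [(tblOf M).shearAt_idle hk]
    exact ⟨rfl, rfl, idle_good⟩
  refine ⟨⟨(((tblOf M).L : ℕ) : ℝ) + 1, by positivity, fun w _ t ht x =>
      force_tail_periodic hG' ht x⟩,
    fun w w' _ _ t ht x => force_tail_indep hG' ht x _,
    fun w hw => ⟨hprog M w hM hw, contDiff_force hG', fun t => periodic_force hG' t,
      velocity (tblOf M).shearAt (tblOf M).L (castP ((tblOf M).pt (0, [], w))), fun _ _ => 0,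
      contDiff_velocity hG', contDiff_const,
      fun T hT => isClassicalSolution hG' T hT,
      fun T hT v' q hq t ht x => ?_,
      ⟨_, path_isTrajectory hG' hI⟩,
      fun X hX => ?_⟩⟩
  · exact classical_unique ν hν _ T hT _ _ _ _ (isClassicalSolution hG' T hT) hq t ht x
  · rw [← path_mem_iff hM w hw]
    have hXt := trajectory_unique hG' hI hX
    constructor
    · rintro ⟨t, ht, hmem⟩
      exact ⟨t, ht, by rwa [← hXt t ht]⟩
    · rintro ⟨t, ht, hmem⟩
      exact ⟨t, ht, by rwa [hXt t ht]⟩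

end Vale.Agent.Lib.P113
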