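import Vale.Agent.Lib.P113.Shear

/-!
The pulsed shear flows: velocity and force attached to a list of shears.
-/

open scoped ContDiff

namespace Vale.Agent.Lib.P113

/-- The smooth step of Mathlib. -/
noncomputable abbrev stp : ℝ → ℝ := Real.smoothTransition

/-- Reduction modulo `L` to `[0, L)`. -/
noncomputable def pc (L t : ℝ) : ℝ := t - L * (⌊t / L⌋ : ℝ)

/-- The time profile of a pulse: zero up to `1/4`, one from `1/2` on. -/
noncomputable def sig (s : ℝ) : ℝ := stp (4 * s - 1)

/-- The pulse: the derivative of `sig`; it vanishes outside `(1/4, 1/2)` and has integral one. -/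
noncomputable def chi (s : ℝ) : ℝ := deriv sig s

/-- The plateau function of a window. -/
noncomputable def wnd (w : Win) (y : ℝ) : ℝ :=
  stp ((y - ((w.a : ℝ) - (w.δ : ℝ))) / (w.δ : ℝ)) - stp ((y - (w.b : ℝ)) / (w.δ : ℝ))

/-- The first factor of a shear, before reduction modulo one. -/
noncomputable def fac₁ (s : Shear) (y : ℝ) : ℝ := wnd s.w₁ y

/-- The second factor of a shear, before reduction modulo one. -/
noncomputable def fac₂ (s : Shear) (y : ℝ) : ℝ := ((s.α : ℝ) * y + (s.β : ℝ)) * wnd s.w₂ y

/-- The first factor of a shear, a function of period one. -/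
noncomputable def per₁ (s : Shear) (y : ℝ) : ℝ := fac₁ s (pc 1 y)

/-- The second factor of a shear, a function of period one. -/
noncomputable def per₂ (s : Shear) (y : ℝ) : ℝ := fac₂ s (pc 1 y)

/-- The displacement function of a shear. -/
noncomputable def shearG (s : Shear) (x : E3) : ℝ := per₁ s (x s.p) * per₂ s (x s.q)

/-- The Laplacian of the displacement function of a shear. -/
noncomputable def shearLap (s : Shear) (x : E3) : ℝ :=
  iteratedDeriv 2 (per₁ s) (x s.p) * per₂ s (x s.q) +
    per₁ s (x s.p) * iteratedDeriv 2 (per₂ s) (x s.q)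

/-- The map of a shear. -/
noncomputable def shearMap (s : Shear) (x : E3) : E3 :=
  Function.update x s.i (x s.i + shearG s x)

/-- The time profile of slot `k` in a program of `L` shears and one idle slot. -/
noncomputable def pulse (L k : ℕ) (t : ℝ) : ℝ := chi (pc ((L : ℝ) + 1) (t - 1 - (k : ℝ)))

/-- The velocity of the pulsed flow: a kick by the vector `v` during `[0, 1]`, then the program of
shears `sh 0, …, sh (L - 1)`, one per unit of time, followed by one idle unit of time, periodically. -/
noncomputable def velocity (sh : ℕ → Shear) (L : ℕ) (v : E3) (t : ℝ) (x : E3) : E3 := fun j =>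
  chi t * v j + ∑ k ∈ Finset.range L, if (sh k).i = j then pulse L k t * shearG (sh k) x else 0

/-- The force of the pulsed flow: `∂_t u - ν Δ u`. -/
noncomputable def force (ν : ℝ) (sh : ℕ → Shear) (L : ℕ) (v : E3) (t : ℝ) (x : E3) : E3 := fun j =>
  deriv chi t * v j + ∑ k ∈ Finset.range L,
    if (sh k).i = j then
      deriv (pulse L k) t * shearG (sh k) x - ν * (pulse L k t * shearLap (sh k) x)
    else 0

/-- The points of the discrete orbit: `orbit sh P v n` is the position at time `n + 1`. -/
noncomputable def orbit (sh : ℕ → Shear) (P : ℕ) (v : E3) : ℕ → E3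
  | 0 => v
  | n + 1 => shearMap (sh (n % P)) (orbit sh P v n)

/-- The trajectory from `0`: the kick, then the shears in turn. -/
noncomputable def path (sh : ℕ → Shear) (P : ℕ) (v : E3) (t : ℝ) : E3 :=
  if t < 1 then fun j => sig t * v j
  else
    let n := ⌊t - 1⌋₊
    let s := sh (n % P)
    Function.update (orbit sh P v n) s.i
      (orbit sh P v n s.i + sig (t - 1 - n) * shearG s (orbit sh P v n))

end Vale.Agent.Lib.P113
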