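import Vale.Agent.Lib.P113.Table

/-!
Correctness of the compilation of Turing machines to stack tables: the table of `M` has the
properties `TableSpec`, and its stack machine reaches `none` from the initial configuration exactly
when `M` halts.
-/

namespace Vale.Agent.Lib.P113

open Machine

/-! ### Transitions -/

lemma transition_lt (M : Machine) (hM : M.WF) {q a : ℕ} (hq : q < M.numStates)
    (ha : a < M.numSymbols) :
    (M.transition q a).1 < M.numStates ∧ (M.transition q a).2.1 < M.numSymbols := by
  obtain ⟨_, _, h3, h4⟩ := hM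
  have hlt : q * M.numSymbols + a < M.delta.length := by
    rw [h3]
    calc q * M.numSymbols + a < q * M.numSymbols + M.numSymbols := by omega
      _ = (q + 1) * M.numSymbols := by ring
      _ ≤ M.numStates * M.numSymbols := Nat.mul_le_mul_right _ hq
  have h : M.transition q a = M.delta[q * M.numSymbols + a] := by
    unfold Machine.transition
    rw [List.getD_eq_getElem _ _ hlt]
  rw [h]
  exact h4 _ (List.getElem_mem hlt)

/-! ### The table, case by case -/

lemma tableOf_cases (M : Machine) {m d m' : ℕ} {l : List ℕ}
    (h : tableOf M m d = Outcome.push m' l) :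
    (m % 4 = 0 ∧ M.numSymbols ≤ d ∧ m' = m ∧ l = [d]) ∨
    (m % 4 < 2 ∧ d < M.numSymbols ∧
      (m' = 4 * (M.transition (m / 4) d).1 ∨ m' = 4 * (M.transition (m / 4) d).1 + 3) ∧
      l = [(M.transition (m / 4) d).2.1, garbage M.numSymbols (m / 4) d (m % 4)]) ∨
    (m % 4 = 2 ∧ M.numSymbols ≤ d ∧ m' = m ∧ l = [d]) ∨
    (m % 4 = 2 ∧ d < M.numSymbols ∧ m' = 4 * (m / 4) + 1 ∧ l = [d]) ∨
    (m % 4 = 3 ∧ d < M.numSymbols ∧ m' = 4 * (m / 4) + 2 ∧ l = [d]) := by
  have hm : m % 4 < 4 := Nat.mod_lt _ (by norm_num)
  unfold tableOf at h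
  simp only at h
  by_cases h0 : m % 4 = 0
  · rw [if_pos h0] at h
    by_cases hd : M.numSymbols ≤ d
    · rw [if_pos hd] at h
      simp only [Outcome.push.injEq] at h
      exact Or.inl ⟨h0, hd, h.1.symm, h.2.symm⟩
    · rw [if_neg hd] at h
      unfold ruleOut at h
      by_cases hq : m / 4 ∈ M.halting
      · rw [if_pos hq] at h
        cases h
      · rw [if_neg hq] at h
        simp only [Outcome.push.injEq] at h
        refine Or.inr (Or.inl ⟨by omega, by omega, ?_, ?_⟩)
        · by_cases hb : (M.transition (m / 4) d).2.2 = true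
          · left
            rw [if_pos hb] at h
            omega
          · right
            rw [if_neg hb] at h
            omega
        · rw [h0]
          exact h.2.symm
  · rw [if_neg h0] at h
    by_cases h1 : m % 4 = 1
    · rw [if_pos h1] at h
      by_cases hd : M.numSymbols ≤ d
      · rw [if_pos hd] at h
        cases h
      · rw [if_neg hd] at h
        unfold ruleOut at h
        by_cases hq : m / 4 ∈ M.halting
        · rw [if_pos hq] at h
          cases h
        · rw [if_neg hq] at h
          simp only [Outcome.push.injEq] at h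
          refine Or.inr (Or.inl ⟨by omega, by omega, ?_, ?_⟩)
          · by_cases hb : (M.transition (m / 4) d).2.2 = true
            · left
              rw [if_pos hb] at h
              omega
            · right
              rw [if_neg hb] at h
              omega
          · rw [h1]
            exact h.2.symm
    · rw [if_neg h1] at h
      by_cases h2 : m % 4 = 2
      · rw [if_pos h2] at h
        by_cases hd : M.numSymbols ≤ d
        · rw [if_pos hd] at h
          simp only [Outcome.push.injEq] at h
          exact Or.inr (Or.inr (Or.inl ⟨h2, hd, h.1.symm, h.2.symm⟩))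
        · rw [if_neg hd] at h
          simp only [Outcome.push.injEq] at h
          exact Or.inr (Or.inr (Or.inr (Or.inl ⟨h2, by omega, h.1.symm, h.2.symm⟩)))
      · rw [if_neg h2] at h
        have h3 : m % 4 = 3 := by omega
        by_cases hd : M.numSymbols ≤ d
        · rw [if_pos hd] at h
          cases h
        · rw [if_neg hd] at h
          simp only [Outcome.push.injEq] at h
          exact Or.inr (Or.inr (Or.inr (Or.inr ⟨h3, by omega, h.1.symm, h.2.symm⟩)))

lemma garbage_inj {A q a e q₂ a₂ e₂ : ℕ} (ha : a < A) (ha₂ : a₂ < A) (he : e < 2) (he₂ : e₂ < 2)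
    (h : garbage A q a e = garbage A q₂ a₂ e₂) : q = q₂ ∧ a = a₂ ∧ e = e₂ := by
  unfold garbage at h
  have hA : 0 < A := by omega
  have h1 : e = e₂ := by omega
  have h2 : a + A * q = a₂ + A * q₂ := by omega
  have h3 : a = a₂ := by
    have := congrArg (· % A) h2
    simpa [Nat.add_mul_mod_self_left, Nat.mod_eq_of_lt ha, Nat.mod_eq_of_lt ha₂] using this
  have h4 : A * q = A * q₂ := by omega
  exact ⟨Nat.eq_of_mul_eq_mul_left hA h4, h3, h1⟩

lemma diverge_singletons {a b : ℕ} (h : a ≠ b) : Diverge [a] [b] :=
  Or.inl ⟨a, [], b, [], rfl, rfl, h⟩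

theorem tableOf_spec (M : Machine) (hM : M.WF) :
    TableSpec (modeCount M) (digitCount M) (tableOf M) := by
  have hdig : ∀ x, x < M.numSymbols → x < digitCount M := fun x hx => by
    unfold digitCount
    omega
  have hrule : ∀ {m d e : ℕ}, m < modeCount M → d < M.numSymbols → e < 2 →
      (M.transition (m / 4) d).1 < M.numStates ∧ (M.transition (m / 4) d).2.1 < M.numSymbols ∧
      garbage M.numSymbols (m / 4) d e < digitCount M ∧
      M.numSymbols ≤ garbage M.numSymbols (m / 4) d e := by
    intro m d e hm hd he
    have hq : m / 4 < M.numStates := by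
      unfold modeCount at hm
      omega
    have ht := transition_lt M hM hq hd
    refine ⟨ht.1, ht.2, ?_, ?_⟩
    · unfold garbage digitCount
      have h1 : d + M.numSymbols * (m / 4) + 1 ≤ M.numSymbols * M.numStates := by
        calc d + M.numSymbols * (m / 4) + 1 ≤ M.numSymbols + M.numSymbols * (m / 4) := by omega
          _ = M.numSymbols * (m / 4 + 1) := by ring
          _ ≤ M.numSymbols * M.numStates := Nat.mul_le_mul_left _ hq
      omega
    · unfold garbage
      omega
  refine ⟨?_, ?_, ?_⟩
  · intro m d m' l hm hd h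
    rcases tableOf_cases M h with
      ⟨_, _, rfl, rfl⟩ | ⟨he, hlt, hm', rfl⟩ | ⟨_, _, rfl, rfl⟩ | ⟨h2, hlt, rfl, rfl⟩ |
        ⟨h3, hlt, rfl, rfl⟩
    · simpa using ⟨hm, hd⟩
    · obtain ⟨h1, h2, h3, _⟩ := hrule (m := m) (d := d) (e := m % 4) hm hlt he
      refine ⟨?_, ?_, by simp⟩
      · unfold modeCount
        omega
      · intro x hx
        simp only [List.mem_cons, List.not_mem_nil, or_false] at hx
        rcases hx with rfl | rfl
        · exact hdig _ h2
        · exact h3
    · simpa using ⟨hm, hd⟩
    · refine ⟨?_, by simpa using hd, by simp⟩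
      unfold modeCount at hm ⊢
      omega
    · refine ⟨?_, by simpa using hd, by simp⟩
      unfold modeCount at hm ⊢
      omega
  · intro m d m' l h
    rcases tableOf_cases M h with
      ⟨h0, _, rfl, rfl⟩ | ⟨he, hlt, hm', rfl⟩ | ⟨h2, _, rfl, rfl⟩ | ⟨h2, hlt, rfl, rfl⟩ |
        ⟨h3, hlt, rfl, rfl⟩ <;> omega
  · intro m d m₂ d₂ m' l l₂ hm hd hm₂ hd₂ h h₂ hne
    have hne' : m ≠ m₂ ∨ d ≠ d₂ := by
      by_contra hc
      push Not at hc
      exact hne (by rw [hc.1, hc.2])
    rcases tableOf_cases M h with
      ⟨h0, hg, rfl, rfl⟩ | ⟨he, hlt, hm', rfl⟩ | ⟨h2, hg, rfl, rfl⟩ | ⟨h2, hlt, rfl, rfl⟩ |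
        ⟨h3, hlt, rfl, rfl⟩ <;>
    rcases tableOf_cases M h₂ with
      ⟨h0', hg', hm₂', rfl⟩ | ⟨he', hlt', hm₂', rfl⟩ | ⟨h2', hg', hm₂', rfl⟩ |
        ⟨h2', hlt', hm₂', rfl⟩ | ⟨h3', hlt', hm₂', rfl⟩
    all_goals first
      | (exfalso; omega)
      | (apply diverge_singletons; omega)
      | skip
    · -- a record against a rule
      obtain ⟨_, h2, _, _⟩ := hrule (m := m₂) (d := d₂) (e := m₂ % 4) hm₂ hlt' he'
      exact Or.inl ⟨d, [], _, [_], rfl, rfl, by omega⟩
    · -- a rule against a record
      obtain ⟨_, h2, _, _⟩ := hrule (m := m) (d := d) (e := m % 4) hm hlt he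
      exact Or.inl ⟨_, [_], d₂, [], rfl, rfl, by omega⟩
    · -- a rule against a rule
      by_cases hs : (M.transition (m / 4) d).2.1 = (M.transition (m₂ / 4) d₂).2.1
      · refine Or.inr ⟨_, _, [], garbage M.numSymbols (m₂ / 4) d₂ (m₂ % 4), [], rfl, ?_, ?_⟩
        · rw [hs]
        · intro hgg
          obtain ⟨h1, h2, h3⟩ := garbage_inj hlt hlt' (by omega) (by omega) hgg
          omega
      · exact Or.inl ⟨_, [_], _, [_], rfl, rfl, hs⟩

/-! ### The stack machine, step by step -/

lemma giter_add (tr : ℕ → ℕ → Outcome) (a b : ℕ) (g : GCfg) :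
    giter tr (a + b) g = (giter tr a g).bind (giter tr b) := by
  induction a generalizing g with
  | zero => simp [giter]
  | succ a ih =>
    rw [Nat.succ_add]
    simp only [giter]
    cases hg : gstep tr g with
    | none => simp
    | some g' => simpa using ih g'

lemma giter_some_add {tr : ℕ → ℕ → Outcome} {a b : ℕ} {g g' : GCfg}
    (h : giter tr a g = some g') : giter tr (a + b) g = giter tr b g' := by
  rw [giter_add, h]
  rfl

lemma giter_none_add {tr : ℕ → ℕ → Outcome} {a b : ℕ} {g : GCfg}
    (h : giter tr a g = none) : giter tr (a + b) g = none := by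
  rw [giter_add, h]
  rfl

lemma gstep_right {tr : ℕ → ℕ → Outcome} {m m' : ℕ} {X Y l : List ℕ} (hm : m % 4 < 2)
    (h : tr m (Y.headD 0) = Outcome.push m' l) :
    gstep tr (m, X, Y) = some (m', l ++ X, Y.tail) := by
  simp only [gstep]
  rw [if_pos hm, h]

lemma gstep_left {tr : ℕ → ℕ → Outcome} {m m' : ℕ} {X Y l : List ℕ} (hm : ¬ m % 4 < 2)
    (h : tr m (X.headD 0) = Outcome.push m' l) :
    gstep tr (m, X, Y) = some (m', X.tail, l ++ Y) := by
  simp only [gstep]
  rw [if_neg hm, h]

lemma gstep_right_halt {tr : ℕ → ℕ → Outcome} {m : ℕ} {X Y : List ℕ} (hm : m % 4 < 2)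
    (h : tr m (Y.headD 0) = Outcome.halt) :
    gstep tr (m, X, Y) = none := by
  simp only [gstep]
  rw [if_pos hm, h]

lemma giter_one {tr : ℕ → ℕ → Outcome} {g g' : GCfg} (h : gstep tr g = some g') :
    giter tr 1 g = some g' := by
  simp [giter, h]

lemma giter_one_none {tr : ℕ → ℕ → Outcome} {g : GCfg} (h : gstep tr g = none) :
    giter tr 1 g = none := by
  simp [giter, h]

/-! ### The values of the table used by the simulation -/

section table

variable (M : Machine) (q : ℕ) {d : ℕ}

lemma tableOf_zero_rec (h : M.numSymbols ≤ d) :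
    tableOf M (4 * q) d = Outcome.push (4 * q) [d] := by
  have h0 : (4 * q) % 4 = 0 := by omega
  simp [tableOf, h0, h]

lemma tableOf_zero_rule (h : d < M.numSymbols) :
    tableOf M (4 * q) d = ruleOut M q d 0 := by
  have h0 : (4 * q) % 4 = 0 := by omega
  have h1 : (4 * q) / 4 = q := by omega
  simp [tableOf, h0, h1, Nat.not_le.mpr h]

lemma tableOf_one_rule (h : d < M.numSymbols) :
    tableOf M (4 * q + 1) d = ruleOut M q d 1 := by
  have h0 : (4 * q + 1) % 4 = 1 := by omega
  have h1 : (4 * q + 1) / 4 = q := by omega
  simp [tableOf, h0, h1, Nat.not_le.mpr h]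

lemma tableOf_two_rec (h : M.numSymbols ≤ d) :
    tableOf M (4 * q + 2) d = Outcome.push (4 * q + 2) [d] := by
  have h0 : (4 * q + 2) % 4 = 2 := by omega
  simp [tableOf, h0, h]

lemma tableOf_two_sym (h : d < M.numSymbols) :
    tableOf M (4 * q + 2) d = Outcome.push (4 * q + 1) [d] := by
  have h0 : (4 * q + 2) % 4 = 2 := by omega
  have h1 : (4 * q + 2) / 4 = q := by omega
  simp [tableOf, h0, h1, Nat.not_le.mpr h]

lemma tableOf_three_sym (h : d < M.numSymbols) :
    tableOf M (4 * q + 3) d = Outcome.push (4 * q + 2) [d] := by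
  have h0 : (4 * q + 3) % 4 = 3 := by omega
  have h1 : (4 * q + 3) / 4 = q := by omega
  simp [tableOf, h0, h1, Nat.not_le.mpr h]

lemma ruleOut_halt {a e : ℕ} (h : q ∈ M.halting) : ruleOut M q a e = Outcome.halt := by
  simp [ruleOut, h]

lemma ruleOut_run {a e : ℕ} (h : q ∉ M.halting) :
    ruleOut M q a e = Outcome.push
      (4 * (M.transition q a).1 + (if (M.transition q a).2.2 then 0 else 3))
      [(M.transition q a).2.1, garbage M.numSymbols q a e] := by
  simp [ruleOut, h]

end table

lemma garbage_ge (A q a e : ℕ) : A ≤ garbage A q a e := by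
  unfold garbage
  omega

/-! ### Tape symbols of a stack -/

/-- The tape symbols on a stack, from top to bottom. -/
def fl (A : ℕ) (l : List ℕ) : List ℕ := l.filter (· < A)

lemma fl_cons_lt {A d : ℕ} (l : List ℕ) (h : d < A) : fl A (d :: l) = d :: fl A l := by
  simp [fl, h]

lemma fl_cons_ge {A d : ℕ} (l : List ℕ) (h : A ≤ d) : fl A (d :: l) = fl A l := by
  simp [fl, Nat.not_lt.mpr h]

lemma fl_nil (A : ℕ) : fl A [] = [] := rfl

/-- For a stack with a tape symbol on top, the first tape symbol is the top digit. -/
lemma fl_getD_zero {A : ℕ} {l : List ℕ} (h : l.headD 0 < A) :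
    (fl A l).getD 0 0 = l.headD 0 := by
  cases l with
  | nil => rfl
  | cons d r =>
    have hd : d < A := by simpa using h
    rw [fl_cons_lt r hd]
    rfl

/-- For a stack with a tape symbol on top, popping shifts the tape symbols. -/
lemma fl_getD_tail {A : ℕ} {l : List ℕ} (h : l.headD 0 < A) (i : ℕ) :
    (fl A l.tail).getD i 0 = (fl A l).getD (i + 1) 0 := by
  cases l with
  | nil => simp [fl_nil]
  | cons d r =>
    have hd : d < A := by simpa using h
    rw [fl_cons_lt r hd]
    simp

/-! ### Crossing records -/

/-- Mode `4 q`: the records on top of `Y` go over to `X`. -/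
lemma cross_right (M : Machine) (q : ℕ) (Y : List ℕ) : ∀ X : List ℕ,
    0 < M.numSymbols → ∃ (k : ℕ) (X' Y' : List ℕ),
      giter (tableOf M) k (4 * q, X, Y) = some (4 * q, X', Y') ∧
      fl M.numSymbols X' = fl M.numSymbols X ∧ fl M.numSymbols Y' = fl M.numSymbols Y ∧
      Y'.headD 0 < M.numSymbols := by
  induction Y with
  | nil =>
    intro X hA
    exact ⟨0, X, [], rfl, rfl, rfl, by simpa using hA⟩
  | cons d r ih =>
    intro X hA
    by_cases hd : d < M.numSymbols
    · exact ⟨0, X, d :: r, rfl, rfl, rfl, by simpa using hd⟩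
    · have hd' : M.numSymbols ≤ d := Nat.le_of_not_lt hd
      obtain ⟨k, X', Y', h, h1, h2, h3⟩ := ih (d :: X) hA
      refine ⟨1 + k, X', Y', ?_, ?_, ?_, h3⟩
      · have hstep : gstep (tableOf M) (4 * q, X, d :: r) = some (4 * q, d :: X, r) := by
          refine gstep_right (l := [d]) (by omega) ?_
          simpa using tableOf_zero_rec M q hd'
        rw [giter_some_add (giter_one hstep), h]
      · rw [h1, fl_cons_ge X hd']
      · rw [h2, fl_cons_ge r hd']

/-- Mode `4 q + 2`: the records on top of `X` go over to `Y`. -/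
lemma cross_left (M : Machine) (q : ℕ) (X : List ℕ) : ∀ Y : List ℕ,
    0 < M.numSymbols → ∃ (k : ℕ) (X' Y' : List ℕ),
      giter (tableOf M) k (4 * q + 2, X, Y) = some (4 * q + 2, X', Y') ∧
      fl M.numSymbols X' = fl M.numSymbols X ∧ fl M.numSymbols Y' = fl M.numSymbols Y ∧
      X'.headD 0 < M.numSymbols := by
  induction X with
  | nil =>
    intro Y hA
    exact ⟨0, [], Y, rfl, rfl, rfl, by simpa using hA⟩
  | cons d r ih =>
    intro Y hA
    by_cases hd : d < M.numSymbols
    · exact ⟨0, d :: r, Y, rfl, rfl, rfl, by simpa using hd⟩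
    · have hd' : M.numSymbols ≤ d := Nat.le_of_not_lt hd
      obtain ⟨k, X', Y', h, h1, h2, h3⟩ := ih (d :: Y) hA
      refine ⟨1 + k, X', Y', ?_, ?_, ?_, h3⟩
      · have hstep : gstep (tableOf M) (4 * q + 2, d :: r, Y) = some (4 * q + 2, r, d :: Y) := by
          refine gstep_left (l := [d]) (by omega) ?_
          simpa using tableOf_two_rec M q hd'
        rw [giter_some_add (giter_one hstep), h]
      · rw [h1, fl_cons_ge r hd']
      · rw [h2, fl_cons_ge Y hd']

/-! ### The simulation relation -/

/-- The configuration `g` of the stack machine represents the configuration `c` of `M`. -/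
structure Sim (M : Machine) (c : Config) (g : GCfg) : Prop where
  state_lt : c.state < M.numStates
  mode : g.1 = 4 * c.state ∨ (g.1 = 4 * c.state + 1 ∧ g.2.2.headD 0 < M.numSymbols)
  right : ∀ i : ℕ, c.tape (c.pos + i) = (fl M.numSymbols g.2.2).getD i 0
  left : ∀ i : ℕ, c.tape (c.pos - 1 - i) = (fl M.numSymbols g.2.1).getD i 0

lemma sim_init (M : Machine) (hM : M.WF) (w : List ℕ) (hw : M.ValidInput w) :
    Sim M (init w) (0, [], w) := by
  have hfl : fl M.numSymbols w = w := by
    unfold fl
    exact List.filter_eq_self.mpr (fun a ha => by simpa using hw a ha)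
  refine ⟨hM.1, Or.inl (by simp [init]), ?_, ?_⟩
  · intro i
    simp [init, hfl]
  · intro i
    have h : ¬ (0 : ℤ) ≤ 0 - 1 - (i : ℤ) := by omega
    simp only [init, fl_nil, List.getD_nil, if_neg h]

/-- From a configuration representing `c`, the stack machine reaches a configuration with the same
tape symbols, and the current symbol on top of `Y`. -/
lemma sim_ready (M : Machine) (hA : 0 < M.numSymbols) {c : Config} {g : GCfg} (h : Sim M c g) :
    ∃ (k e : ℕ) (X Y : List ℕ), e < 2 ∧
      giter (tableOf M) k g = some (4 * c.state + e, X, Y) ∧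
      fl M.numSymbols X = fl M.numSymbols g.2.1 ∧ fl M.numSymbols Y = fl M.numSymbols g.2.2 ∧
      Y.headD 0 < M.numSymbols := by
  obtain ⟨m, X, Y⟩ := g
  rcases h.mode with h0 | ⟨h1, h2⟩
  · simp only at h0
    subst h0
    obtain ⟨k, X', Y', hk, h1, h2, h3⟩ := cross_right M c.state Y X hA
    exact ⟨k, 0, X', Y', by norm_num, hk, h1, h2, h3⟩
  · simp only at h1 h2
    subst h1
    exact ⟨0, 1, X, Y, by norm_num, rfl, rfl, rfl, h2⟩

/-- A rule applied in mode `4 q + e`. -/
lemma tableOf_mode_rule (M : Machine) (q : ℕ) {e d : ℕ} (he : e < 2) (hd : d < M.numSymbols) :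
    tableOf M (4 * q + e) d = ruleOut M q d e := by
  interval_cases e
  · exact tableOf_zero_rule M q hd
  · exact tableOf_one_rule M q hd

/-- A configuration in a halting state: the stack machine halts. -/
lemma sim_halt (M : Machine) (hA : 0 < M.numSymbols) {c : Config} {g : GCfg} (h : Sim M c g)
    (hq : c.state ∈ M.halting) : ∃ k, giter (tableOf M) k g = none := by
  obtain ⟨k, e, X, Y, he, hk, -, -, hY⟩ := sim_ready M hA h
  refine ⟨k + 1, ?_⟩
  rw [giter_some_add hk]
  apply giter_one_none
  apply gstep_right_halt (by omega)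
  rw [tableOf_mode_rule M c.state he hY]
  exact ruleOut_halt M c.state hq

/-- A configuration in a non-halting state: the stack machine represents the next configuration. -/
lemma sim_step (M : Machine) (hM : M.WF) {c : Config} {g : GCfg} (h : Sim M c g)
    (hq : c.state ∉ M.halting) :
    ∃ (k : ℕ) (g' : GCfg), 0 < k ∧ giter (tableOf M) k g = some g' ∧ Sim M (M.step c) g' := by
  have hA : 0 < M.numSymbols := hM.2.1
  obtain ⟨k, e, X, Y, he, hk, hX, hY, hhead⟩ := sim_ready M hA h
  -- the current symbol
  have ha : c.tape c.pos = Y.headD 0 := by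
    have h0 := h.right 0
    simp only [Nat.cast_zero, add_zero] at h0
    rw [h0, ← hY, fl_getD_zero hhead]
  have hright : ∀ i : ℕ, c.tape (c.pos + i) = (fl M.numSymbols Y).getD i 0 := fun i => by
    rw [h.right i, hY]
  have hleft : ∀ i : ℕ, c.tape (c.pos - 1 - i) = (fl M.numSymbols X).getD i 0 := fun i => by
    rw [h.left i, hX]
  obtain ⟨ht1, ht2⟩ := transition_lt M hM h.state_lt (a := c.tape c.pos) (by rw [ha]; exact hhead)
  have hstate : (M.step c).state = (M.transition c.state (c.tape c.pos)).1 := rfl
  have htape : (M.step c).tape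
      = Function.update c.tape c.pos (M.transition c.state (c.tape c.pos)).2.1 := rfl
  have hne : ∀ z : ℤ, z ≠ c.pos →
      (M.step c).tape z = c.tape z := fun z hz => by
    rw [htape, Function.update_of_ne hz]
  have hat : (M.step c).tape c.pos = (M.transition c.state (c.tape c.pos)).2.1 := by
    rw [htape, Function.update_self]
  -- the rule
  have hrule : tableOf M (4 * c.state + e) (Y.headD 0) = Outcome.push
      (4 * (M.transition c.state (c.tape c.pos)).1 +
        (if (M.transition c.state (c.tape c.pos)).2.2 then 0 else 3))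
      [(M.transition c.state (c.tape c.pos)).2.1,
        garbage M.numSymbols c.state (c.tape c.pos) e] := by
    rw [tableOf_mode_rule M c.state he hhead, ← ha]
    exact ruleOut_run M c.state hq
  have hstep1 := gstep_right (X := X) (by omega) hrule
  cases hb : (M.transition c.state (c.tape c.pos)).2.2 with
  | true =>
    rw [if_pos hb] at hstep1
    refine ⟨k + 1, (4 * (M.transition c.state (c.tape c.pos)).1 + 0,
      [(M.transition c.state (c.tape c.pos)).2.1,
        garbage M.numSymbols c.state (c.tape c.pos) e] ++ X, Y.tail), by omega, ?_, ?_⟩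
    · rw [giter_some_add hk]
      exact giter_one hstep1
    · have hpos : (M.step c).pos = c.pos + 1 := by
        simp [Machine.step, hb]
      refine ⟨?_, Or.inl ?_, ?_, ?_⟩
      · rw [hstate]
        exact ht1
      · simp only [add_zero]
        rw [hstate]
      · intro i
        simp only
        rw [hpos, hne _ (by omega), fl_getD_tail hhead i, ← hright (i + 1)]
        congr 1
        push_cast
        ring
      · intro i
        simp only [List.cons_append, List.nil_append]
        rw [hpos, fl_cons_lt _ ht2, fl_cons_ge _ (garbage_ge _ _ _ _)]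
        cases i with
        | zero =>
          simp only [Nat.cast_zero, sub_zero, add_sub_cancel_right]
          rw [hat]
          rfl
        | succ j =>
          rw [hne _ (by push_cast; omega)]
          have := hleft j
          simp only [List.getD_cons_succ]
          rw [← this]
          congr 1
          push_cast
          ring
  | false =>
    rw [if_neg (by simp [hb])] at hstep1
    simp only [List.cons_append, List.nil_append] at hstep1
    set q' := (M.transition c.state (c.tape c.pos)).1 with hq'
    set a' := (M.transition c.state (c.tape c.pos)).2.1 with ha'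
    set gb := garbage M.numSymbols c.state (c.tape c.pos) e with hgb
    have hgb' : M.numSymbols ≤ gb := garbage_ge _ _ _ _
    -- the written symbol goes back to `Y`
    have hstep2 : gstep (tableOf M) (4 * q' + 3, a' :: gb :: X, Y.tail)
        = some (4 * q' + 2, gb :: X, [a'] ++ Y.tail) := by
      refine gstep_left (by omega) ?_
      simpa using tableOf_three_sym M q' ht2
    obtain ⟨k₂, X', Y', hk₂, hX', hY', hhead'⟩ :=
      cross_left M q' (gb :: X) (a' :: Y.tail) hA
    rw [fl_cons_ge _ hgb'] at hX'
    rw [fl_cons_lt _ ht2] at hY'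
    have hstep3 : gstep (tableOf M) (4 * q' + 2, X', Y')
        = some (4 * q' + 1, X'.tail, [X'.headD 0] ++ Y') := by
      refine gstep_left (by omega) ?_
      exact tableOf_two_sym M q' hhead'
    refine ⟨k + 1 + (1 + (k₂ + 1)), (4 * q' + 1, X'.tail, [X'.headD 0] ++ Y'), by omega, ?_, ?_⟩
    · rw [giter_some_add (a := k + 1) (g' := (4 * q' + 3, a' :: gb :: X, Y.tail)), 
        giter_some_add (giter_one hstep2)]
      · simp only [List.cons_append, List.nil_append]
        rw [giter_some_add hk₂]
        exact giter_one hstep3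
      · rw [giter_some_add hk]
        exact giter_one hstep1
    · have hpos : (M.step c).pos = c.pos - 1 := by
        simp [Machine.step, hb]
      refine ⟨?_, Or.inr ⟨?_, ?_⟩, ?_, ?_⟩
      · rw [hstate]
        exact ht1
      · simp only
        rw [hstate]
      · simpa using hhead'
      · intro i
        simp only [List.cons_append, List.nil_append]
        rw [hpos, fl_cons_lt _ hhead', hY']
        match i with
        | 0 =>
          simp only [Nat.cast_zero, add_zero, List.getD_cons_zero]
          rw [hne _ (by omega)]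
          have := hleft 0
          simp only [Nat.cast_zero, sub_zero] at this
          rw [this, ← hX', fl_getD_zero hhead']
        | 1 =>
          simp only [Nat.cast_one, sub_add_cancel, List.getD_cons_succ, List.getD_cons_zero]
          exact hat
        | j + 2 =>
          simp only [List.getD_cons_succ]
          rw [hne _ (by push_cast; omega), fl_getD_tail hhead j, ← hright (j + 1)]
          congr 1
          push_cast
          ring
      · intro i
        simp only
        rw [hpos, hne _ (by omega), fl_getD_tail hhead' i, hX', ← hleft (i + 1)]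
        congr 1
        push_cast
        ring

/-! ### Halting -/

/-- If the machine halts from `c`, the stack machine reaches `none` from `g`. -/
lemma halts_to_none (M : Machine) (hM : M.WF) (n : ℕ) : ∀ {c : Config} {g : GCfg}, Sim M c g →
    (M.step^[n] c).state ∈ M.halting → ∃ k, giter (tableOf M) k g = none := by
  induction n with
  | zero =>
    intro c g h hn
    exact sim_halt M hM.2.1 h hn
  | succ n ih =>
    intro c g h hn
    by_cases hq : c.state ∈ M.halting
    · exact sim_halt M hM.2.1 h hq
    · obtain ⟨k, g', _, hk, h'⟩ := sim_step M hM h hq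
      obtain ⟨k', hk'⟩ := ih h' (by simpa [Function.iterate_succ_apply] using hn)
      exact ⟨k + k', by rw [giter_some_add hk, hk']⟩

/-- If the stack machine reaches `none` from `g`, the machine halts from `c`. -/
lemma none_to_halts (M : Machine) (hM : M.WF) (n : ℕ) : ∀ {c : Config} {g : GCfg}, Sim M c g →
    giter (tableOf M) n g = none → ∃ k, (M.step^[k] c).state ∈ M.halting := by
  induction n using Nat.strong_induction_on with
  | _ n ih =>
    intro c g h hn
    by_cases hq : c.state ∈ M.halting
    · exact ⟨0, hq⟩
    · obtain ⟨k, g', hk0, hk, h'⟩ := sim_step M hM h hq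
      by_cases hkn : n ≤ k
      · exfalso
        have h2 := giter_none_add (b := k - n) hn
        rw [Nat.add_sub_cancel' hkn, hk] at h2
        cases h2
      · push Not at hkn
        have hn' : giter (tableOf M) (n - k) g' = none := by
          have h2 : n = k + (n - k) := by omega
          rw [h2, giter_some_add hk] at hn
          simpa using hn
        obtain ⟨j, hj⟩ := ih (n - k) (by omega) h' hn'
        exact ⟨j + 1, by simpa [Function.iterate_succ_apply] using hj⟩

theorem halts_iff_giter (M : Machine) (hM : M.WF) (w : List ℕ) (hw : M.ValidInput w) :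
    M.Halts w ↔ ∃ n, giter (tableOf M) n (0, [], w) = none := by
  have hinit := sim_init M hM w hw
  constructor
  · rintro ⟨n, hn⟩
    exact halts_to_none M hM n hinit hn
  · rintro ⟨n, hn⟩
    exact none_to_halts M hM n hinit hn

end Vale.Agent.Lib.P113
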