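import Vale.Agent.Lib.P113.Geo5
import Vale.Agent.Lib.P113.Pulse
import Vale.Agent.Lib.P113.Sim

/-!
The real orbit of the program of shears on configuration points.
-/

namespace Vale.Agent.Lib.P113

open Tbl

/-- Cast of a rational point. -/
def castP (p : QP) : E3 := fun j => (p j : ℝ)

lemma pc_one_of_mem {y : ℝ} (h0 : 0 ≤ y) (h1 : y < 1) : pc 1 y = y := by
  have : ⌊y / 1⌋ = 0 := by
    rw [div_one]
    exact Int.floor_eq_zero_iff.2 ⟨h0, h1⟩
  unfold pc
  rw [this]
  simp

lemma pc_one_add_int (y : ℝ) (n : ℤ) : pc 1 (y + n) = pc 1 y := by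
  simp [pc]

lemma wnd_in {w : Win} (hw : w.Good) {y : ℚ} (h : w.In y) : wnd w (y : ℝ) = 1 := by
  obtain ⟨hδ, hab, -, -⟩ := hw
  have hδ' : (0 : ℝ) < w.δ := by exact_mod_cast hδ
  have h1 : (w.a : ℝ) ≤ y := by exact_mod_cast h.1
  have h2 : (y : ℝ) ≤ w.b := by exact_mod_cast h.2
  unfold wnd stp
  rw [Real.smoothTransition.one_of_one_le, Real.smoothTransition.zero_of_nonpos]
  · simp
  · exact div_nonpos_of_nonpos_of_nonneg (by linarith) hδ'.le
  · rw [le_div_iff₀ hδ']; linarith

lemma wnd_out {w : Win} (hw : w.Good) {y : ℚ} (h : w.Out y) : wnd w (y : ℝ) = 0 := by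
  obtain ⟨hδ, hab, -, -⟩ := hw
  have hδ' : (0 : ℝ) < w.δ := by exact_mod_cast hδ
  have hab' : (w.a : ℝ) ≤ w.b := by exact_mod_cast hab
  unfold wnd stp
  rcases h with h | h
  · have h1 : (y : ℝ) ≤ (w.a : ℝ) - w.δ := by exact_mod_cast h
    rw [Real.smoothTransition.zero_of_nonpos, Real.smoothTransition.zero_of_nonpos]
    · simp
    · exact div_nonpos_of_nonpos_of_nonneg (by linarith) hδ'.le
    · exact div_nonpos_of_nonpos_of_nonneg (by linarith) hδ'.le
  · have h1 : (w.b : ℝ) + w.δ ≤ y := by exact_mod_cast h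
    rw [Real.smoothTransition.one_of_one_le, Real.smoothTransition.one_of_one_le]
    · simp
    · rw [le_div_iff₀ hδ']; linarith
    · rw [le_div_iff₀ hδ']; linarith

lemma OK_coord {p : QP} (h : OK p) (j : Fin 3) : 0 ≤ (p j : ℝ) ∧ (p j : ℝ) < 1 := by
  have h' : 1 / 16 ≤ p j ∧ p j ≤ 15 / 16 := by
    obtain ⟨h0, h1, h2⟩ := h
    fin_cases j
    · exact h0
    · exact h1
    · exact ⟨h2.1, h2.2.trans (by norm_num)⟩
  constructor
  · have : (0 : ℚ) ≤ p j := by linarith [h'.1]
    exact_mod_cast this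
  · have : p j < 1 := by linarith [h'.2]
    exact_mod_cast this

lemma shearG_cast {s : Shear} {p : QP} (h : OK p) :
    shearG s (castP p) = wnd s.w₁ (p s.p : ℝ) * (((s.α : ℝ) * (p s.q : ℝ) + (s.β : ℝ)) *
      wnd s.w₂ (p s.q : ℝ)) := by
  unfold shearG per₁ per₂ fac₁ fac₂ castP
  rw [pc_one_of_mem (OK_coord h _).1 (OK_coord h _).2, pc_one_of_mem (OK_coord h _).1 (OK_coord h _).2]

/-- The combinatorial moves are the real maps of the shears. -/
theorem moves_shearMap {s : Shear} (hs : s.Good) {p p' : QP} (hp : OK p) (hm : s.Moves p p') :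
    shearMap s (castP p) = castP p' := by
  obtain ⟨-, -, -, hw₁, hw₂⟩ := hs
  unfold shearMap
  rw [shearG_cast hp]
  rcases hm with ⟨hout, rfl⟩ | ⟨h₁, h₂, rfl⟩
  · rcases hout with h | h
    · rw [wnd_out hw₁ h]
      simp [castP]
    · rw [wnd_out hw₂ h]
      simp [castP]
  · rw [wnd_in hw₁ h₁, wnd_in hw₂ h₂]
    funext j
    by_cases hj : j = s.i
    · subst hj
      simp [castP]
    · simp [castP, Function.update, hj]

lemma shearMap_idle (x : E3) : shearMap idleShear x = x := by
  unfold shearMap shearG per₂ fac₂ idleShear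
  simp

variable {T : Tbl}

/-- A chain of the program within a period is followed by the real orbit. -/
theorem orbit_chain (hS : TableSpec T.Mc T.D T.tr) (hMc : 0 < T.Mc) (hD : 0 < T.D) {v : E3} {c : ℕ}
    {i j : ℕ} {p q : QP} (h : T.Chain i j p q) (hj : j ≤ T.L)
    (hn : orbit T.shearAt (T.L + 1) v (c * (T.L + 1) + i) = castP p) :
    orbit T.shearAt (T.L + 1) v (c * (T.L + 1) + j) = castP q ∧
      ∀ k, i ≤ k → k ≤ j → ∃ r, OK r ∧ orbit T.shearAt (T.L + 1) v (c * (T.L + 1) + k) = castP r := by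
  induction h with
  | refl hp =>
    refine ⟨hn, fun k h1 h2 => ?_⟩
    have hki := le_antisymm h2 h1
    subst hki
    exact ⟨_, hp, hn⟩
  | step hc hm hok ih =>
    rename_i j p₀ p' p''
    obtain ⟨h1, h2⟩ := ih (by omega) hn
    have hc' : (c * (T.L + 1) + j) % (T.L + 1) = j := by
      rw [Nat.mul_add_mod_of_lt]
      omega
    have h3 : orbit T.shearAt (T.L + 1) v (c * (T.L + 1) + (j + 1)) = castP p'' := by
      show shearMap (T.shearAt ((c * (T.L + 1) + j) % (T.L + 1)))
        (orbit T.shearAt (T.L + 1) v (c * (T.L + 1) + j)) = castP p''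
      rw [hc', h1]
      exact moves_shearMap (shearAt_good hS hMc hD j) hc.ok_right hm
    refine ⟨h3, fun k h4 h5 => ?_⟩
    rcases Nat.lt_or_ge j k with h6 | h6
    · have : k = j + 1 := by omega
      subst this
      exact ⟨_, hok, h3⟩
    · exact h2 k h4 h6


lemma giter_succ_right (tr : ℕ → ℕ → Outcome) (c : ℕ) (g : GCfg) :
    giter tr (c + 1) g = (giter tr c g).bind (gstep tr) := by
  rw [giter_add]
  cases giter tr c g with
  | none => rfl
  | some g' =>
    simp only [Option.bind_some, giter]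
    cases gstep tr g' with
    | none => rfl
    | some g'' => rfl

/-- The orbit at the multiples of the period follows the stack machine, and stays in the range. -/
theorem orbit_periods (hS : TableSpec T.Mc T.D T.tr) (hMc : 0 < T.Mc) (hD : 0 < T.D) {g₀ : GCfg}
    (hg₀ : T.ValidCfg g₀)
    (hNS : ∀ c g, giter T.tr c g₀ = some g → T.tr g.1 (topDigit g) ≠ Outcome.stuck) :
    ∀ c g, giter T.tr c g₀ = some g →
      orbit T.shearAt (T.L + 1) (castP (T.pt g₀)) (c * (T.L + 1)) = castP (T.pt g) ∧ T.ValidCfg g ∧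
      ∀ n, n ≤ c * (T.L + 1) → ∃ r, OK r ∧ orbit T.shearAt (T.L + 1) (castP (T.pt g₀)) n = castP r := by
  intro c
  induction c with
  | zero =>
    intro g hg
    simp only [giter, Option.some.injEq] at hg
    subst hg
    refine ⟨by simp [orbit], hg₀, fun n hn => ?_⟩
    have hn0 : n = 0 := by simpa using hn
    subst hn0
    have hok : OK (T.pt g₀) := by
      obtain ⟨hm, hX, hY⟩ := hg₀
      have hs := T.sm_range hm
      have h1 := T.tv_range (τ := 0) (Nat.zero_le _) (T.code_nonneg g₀.2.1) (T.code_le hX)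
      have h2 := T.tv_range (τ := 0) (Nat.zero_le _) (T.code_nonneg g₀.2.2) (T.code_le hY)
      rw [tv_zero] at h1 h2
      refine ⟨h1, h2, ?_⟩
      simp only [pt]
      exact ⟨by simp; linarith [hs.1], by simp; linarith [hs.2]⟩
    exact ⟨_, hok, by simp [orbit]⟩
  | succ c ih =>
    intro g' hg'
    rw [giter_succ_right] at hg'
    cases hgc : giter T.tr c g₀ with
    | none => rw [hgc] at hg'; cases hg'
    | some g =>
      rw [hgc] at hg'
      have hstep : gstep T.tr g = some g' := hg'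
      obtain ⟨h1, h2, h3⟩ := ih g hgc
      obtain ⟨hch, hval⟩ := period_some hS hD h2 (hNS c g hgc) hstep
      obtain ⟨h4, h5⟩ := orbit_chain hS hMc hD hch le_rfl (c := c) (v := castP (T.pt g₀))
        (by simpa using h1)
      have h6 : orbit T.shearAt (T.L + 1) (castP (T.pt g₀)) ((c + 1) * (T.L + 1))
          = castP (T.pt g') := by
        have e : (c + 1) * (T.L + 1) = (c * (T.L + 1) + T.L) + 1 := by ring
        rw [e]
        show shearMap (T.shearAt ((c * (T.L + 1) + T.L) % (T.L + 1))) _ = _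
        have e2 : (c * (T.L + 1) + T.L) % (T.L + 1) = T.L := by
          rw [Nat.mul_add_mod_of_lt]
          omega
        rw [e2, T.shearAt_idle le_rfl, shearMap_idle, h4]
      refine ⟨h6, hval, fun n hn => ?_⟩
      rcases Nat.lt_or_ge (c * (T.L + 1)) n with h7 | h7
      · have e : (c + 1) * (T.L + 1) = (c * (T.L + 1) + T.L) + 1 := by ring
        rw [e] at hn
        rcases Nat.lt_or_ge n ((c * (T.L + 1) + T.L) + 1) with h8 | h8
        · have e3 : n = c * (T.L + 1) + (n - c * (T.L + 1)) := by omega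
          rw [e3]
          exact h5 _ (Nat.zero_le _) (by omega)
        · have e3 : n = (c + 1) * (T.L + 1) := by rw [e]; omega
          rw [e3]
          exact ⟨_, hch.ok_right, h6⟩
      · exact h3 n h7

/-- If the stack machine never halts, the orbit stays in the range. -/
theorem orbit_range (hS : TableSpec T.Mc T.D T.tr) (hMc : 0 < T.Mc) (hD : 0 < T.D) {g₀ : GCfg}
    (hg₀ : T.ValidCfg g₀)
    (hNS : ∀ c g, giter T.tr c g₀ = some g → T.tr g.1 (topDigit g) ≠ Outcome.stuck)
    (hno : ∀ c, giter T.tr c g₀ ≠ none) (n : ℕ) :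
    ∃ r, OK r ∧ orbit T.shearAt (T.L + 1) (castP (T.pt g₀)) n = castP r := by
  cases hg : giter T.tr n g₀ with
  | none => exact absurd hg (hno n)
  | some g =>
    refine (orbit_periods hS hMc hD hg₀ hNS n g hg).2.2 n ?_
    exact Nat.le_mul_of_pos_right n (by omega)

/-- If the stack machine halts, the orbit reaches the height `3/4`. -/
theorem orbit_halt (hS : TableSpec T.Mc T.D T.tr) (hMc : 0 < T.Mc) (hD : 0 < T.D) {g₀ : GCfg}
    (hg₀ : T.ValidCfg g₀)
    (hNS : ∀ c g, giter T.tr c g₀ = some g → T.tr g.1 (topDigit g) ≠ Outcome.stuck)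
    {c : ℕ} (hc : giter T.tr c g₀ = none) :
    ∃ n, orbit T.shearAt (T.L + 1) (castP (T.pt g₀)) n 2 = 3 / 4 := by
  induction c with
  | zero => simp [giter] at hc
  | succ c ih =>
    cases hgc : giter T.tr c g₀ with
    | none => exact ih hgc
    | some g =>
      rw [giter_succ_right, hgc] at hc
      have hstep : gstep T.tr g = none := hc
      obtain ⟨h1, h2, -⟩ := orbit_periods hS hMc hD hg₀ hNS c g hgc
      obtain ⟨k, p', p'', hk, hch, hm, hz⟩ := period_none hD h2 hstep
      obtain ⟨h4, -⟩ := orbit_chain hS hMc hD hch hk.le (c := c) (v := castP (T.pt g₀))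
        (by simpa using h1)
      refine ⟨c * (T.L + 1) + k + 1, ?_⟩
      have h5 : orbit T.shearAt (T.L + 1) (castP (T.pt g₀)) (c * (T.L + 1) + k + 1) = castP p'' := by
        show shearMap (T.shearAt ((c * (T.L + 1) + k) % (T.L + 1))) _ = _
        have e2 : (c * (T.L + 1) + k) % (T.L + 1) = k := by
          rw [Nat.mul_add_mod_of_lt]
          omega
        rw [e2, h4]
        exact moves_shearMap (shearAt_good hS hMc hD k) hch.ok_right hm
      rw [h5]
      simp [castP, hz, zO]

end Vale.Agent.Lib.P113
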