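import Vale.Agent.Lib.P113.Table

/-!
Rational data of shears, and the program of shears realizing a table.
-/

namespace Vale.Agent.Lib.P113

/-- A window: an interval `[a, b]` with a margin `δ`. -/
structure Win where
  a : ℚ
  b : ℚ
  δ : ℚ

/-- `y` lies in the plateau of the window. -/
def Win.In (w : Win) (y : ℚ) : Prop := w.a ≤ y ∧ y ≤ w.b

/-- `y` lies outside the support of the window. -/
def Win.Out (w : Win) (y : ℚ) : Prop := y ≤ w.a - w.δ ∨ w.b + w.δ ≤ y

/-- Admissible windows. -/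
def Win.Good (w : Win) : Prop := 0 < w.δ ∧ w.a ≤ w.b ∧ 0 < w.a - w.δ ∧ w.b + w.δ < 1

/-- Data of a shear: coordinate `i` moves by `W₁(x_p) * (α x_q + β) * W₂(x_q)`. -/
structure Shear where
  i : Fin 3
  p : Fin 3
  q : Fin 3
  w₁ : Win
  w₂ : Win
  α : ℚ
  β : ℚ

/-- Admissible shears. -/
def Shear.Good (s : Shear) : Prop :=
  s.i ≠ s.p ∧ s.i ≠ s.q ∧ s.p ≠ s.q ∧ s.w₁.Good ∧ s.w₂.Good

/-- Rational points of space. -/
abbrev QP := Fin 3 → ℚ

/-- The effect of the shear `s` on a rational point: either one of the windows vanishes, or both are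
equal to one. -/
def Shear.Moves (s : Shear) (p p' : QP) : Prop :=
  ((s.w₁.Out (p s.p) ∨ s.w₂.Out (p s.q)) ∧ p' = p) ∨
  (s.w₁.In (p s.p) ∧ s.w₂.In (p s.q) ∧ p' = Function.update p s.i (p s.i + (s.α * p s.q + s.β)))

/-- A table with its numbers of modes and digits. -/
structure Tbl where
  Mc : ℕ
  D : ℕ
  tr : ℕ → ℕ → Outcome

namespace Tbl

variable (T : Tbl)

/-- The number of rules (pairs mode, digit). -/
def N : ℕ := T.Mc * T.D

/-- The number of shears of the program, not counting the idle slot. -/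
def L : ℕ := 11 * T.N

/-- The base of the stack codes. -/
def base : ℕ := 2 * T.D + 2

/-- The spacing of the tags, also the width of the code. -/
def W : ℚ := 1 / (8 * ((T.N : ℚ) + 2))

/-- The spacing of the modes. -/
def Z : ℚ := 1 / (8 * ((T.Mc : ℚ) + 1))

/-- The position of a mode in the third coordinate. -/
def sm (m : ℕ) : ℚ := 1 / 8 + m * T.Z

/-- The code of a stack: a number in `[0, 1/2)`, digits in base `base`. -/
def code : List ℕ → ℚ
  | [] => 0
  | d :: l => ((d : ℚ) + code l) / (T.base : ℚ)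

/-- The big window. -/
def bigWin : Win := ⟨1 / 16, 15 / 16, 1 / 32⟩

/-- The window of the tag `τ`. -/
def tagWin (τ : ℕ) : Win := ⟨1 / 8 + τ * T.W, 1 / 8 + τ * T.W + T.W / 2, T.W / 4⟩

/-- The window of all stacks beginning with the word `l` (tag zero). -/
def cylWin (l : List ℕ) : Win :=
  ⟨1 / 8 + T.W * T.code l, 1 / 8 + T.W * T.code l + T.W / (2 * (T.base : ℚ) ^ l.length),
    T.W / (4 * (T.base : ℚ) ^ 2)⟩

/-- The window of a mode. -/
def modeWin (m : ℕ) : Win := ⟨T.sm m, T.sm m, T.Z / 2⟩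

/-- The coordinate of the stack popped in mode `m`. -/
def sideA (m : ℕ) : Fin 3 := if m % 4 < 2 then 1 else 0

/-- The other stack coordinate. -/
def sideB (m : ℕ) : Fin 3 := if m % 4 < 2 then 0 else 1

/-- Rule number `r`: its mode. -/
def rMode (r : ℕ) : ℕ := r % T.Mc

/-- Rule number `r`: its digit. -/
def rDigit (r : ℕ) : ℕ := r / T.Mc

/-- The amount by which the shears of the first stage move the tagged coordinate. -/
def tagAmount (r : ℕ) : ℚ :=
  match T.tr (T.rMode r) (T.rDigit r) with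
  | Outcome.stuck => 0
  | _ => ((r : ℚ) + 1) * T.W

/-- The first stage: tag the points of rule `r`. -/
def tagShear (r : ℕ) : Shear :=
  ⟨sideB (T.rMode r), sideA (T.rMode r), 2, T.cylWin [T.rDigit r], T.modeWin (T.rMode r),
    0, T.tagAmount r⟩

/-- The target height of a halting point. -/
def zO : ℚ := 3 / 4

/-- The middle stage, affine part: data `(i, p, q, α, β)`. -/
def midData (r j : ℕ) : Fin 3 × Fin 3 × Fin 3 × ℚ × ℚ :=
  let m := T.rMode r
  let A := sideA m
  let B := sideB m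
  let τW := ((r : ℚ) + 1) * T.W
  let b : ℚ := T.base
  let x₀ : ℚ := 1 / 8
  let s := T.sm m
  match T.tr m (T.rDigit r) with
  | Outcome.stuck => (2, B, A, 0, 0)
  | Outcome.halt => if j = 0 then (2, B, A, 0, zO - s) else (2, B, A, 0, 0)
  | Outcome.push m' l =>
    let d : ℚ := T.rDigit r
    let lam : ℚ := ((T.base : ℚ) ^ l.length)⁻¹
    let c : ℚ := T.code l
    if j = 0 then (2, B, A, 1, - x₀)
    else if j = 1 then (A, B, 2, b - 1, - (b - 1) * s - T.W * d)
    else if j = 2 then (2, B, A, - 1 / b, (x₀ - T.W * d) / b)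
    else if j = 3 then (A, B, 2, 0, τW)
    else if j = 4 then (B, A, 2, 0, - τW)
    else if j = 5 then (2, A, B, 1, - x₀)
    else if j = 6 then (B, A, 2, lam - 1, - (lam - 1) * s + T.W * c)
    else if j = 7 then (2, A, B, - 1 / lam, (x₀ + T.W * c) / lam)
    else (2, A, B, 0, T.sm m' - s)

/-- The middle stage. -/
def midShear (r j : ℕ) : Shear :=
  let e := T.midData r j
  ⟨e.1, e.2.1, e.2.2.1, T.tagWin (r + 1), bigWin, e.2.2.2.1, e.2.2.2.2⟩

/-- The last stage: remove the tag of rule `r`, recognised from the new mode and the pushed word. -/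
def eraseShear (r : ℕ) : Shear :=
  let m := T.rMode r
  match T.tr m (T.rDigit r) with
  | Outcome.push m' l =>
    ⟨sideA m, sideB m, 2, T.cylWin l, T.modeWin m', 0, - (((r : ℚ) + 1) * T.W)⟩
  | _ => ⟨sideA m, sideB m, 2, bigWin, bigWin, 0, 0⟩

/-- The idle shear. -/
def idleShear : Shear := ⟨2, 0, 1, bigWin, bigWin, 0, 0⟩

/-- The program of shears. -/
def shearAt (k : ℕ) : Shear :=
  if k < T.N then T.tagShear k
  else if k < 10 * T.N then T.midShear ((k - T.N) / 9) ((k - T.N) % 9)
  else if k < 11 * T.N then T.eraseShear (k - 10 * T.N)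
  else idleShear

/-- The rational point of a configuration. -/
def pt (g : GCfg) : QP :=
  ![1 / 8 + T.W * T.code g.2.1, 1 / 8 + T.W * T.code g.2.2, T.sm g.1]

/-- Range of the points visited. -/
def OK (p : QP) : Prop :=
  (1 / 16 ≤ p 0 ∧ p 0 ≤ 15 / 16) ∧ (1 / 16 ≤ p 1 ∧ p 1 ≤ 15 / 16) ∧ (1 / 16 ≤ p 2 ∧ p 2 ≤ 1 / 2)

/-- A run of the program from slot `i` to slot `j`, from `p` to `p'`, in the range. -/
inductive Chain : ℕ → ℕ → QP → QP → Prop
  | refl {i p} : OK p → Chain i i p p
  | step {i j p p' p''} : Chain i j p p' → (T.shearAt j).Moves p' p'' → OK p'' → Chain i (j + 1) p p''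

/-- Validity of a configuration. -/
def ValidCfg (g : GCfg) : Prop :=
  g.1 < T.Mc ∧ (∀ d ∈ g.2.1, d < T.D) ∧ (∀ d ∈ g.2.2, d < T.D)

end Tbl

end Vale.Agent.Lib.P113
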