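import Vale.Agent.Lib.P113.Defs

/-!
The intermediate computation model: a two-stack machine on digit lists, in which every step
pops one digit from one stack and pushes a short word on a stack, and in which every configuration
has at most one predecessor. Turing machines are compiled to such tables by recording the
transition used on the stacks (no uncomputing is needed).

A configuration is `(m, X, Y)`: mode `m`, left stack `X`, right stack `Y`. Popping from an empty stack
gives the blank digit `0` and leaves the stack empty (digit `0` at the bottom of a stack
means nothing, exactly as for the blank part of a tape).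
* modes with `m % 4 < 2` pop from `Y`, the others pop from `X`.
-/

namespace Vale.Agent.Lib.P113

/-- What a table does for a mode and a popped digit. -/
inductive Outcome
  | stuck
  | halt
  | push (m : ℕ) (l : List ℕ)
  deriving DecidableEq

/-- A configuration of the stack machine: mode, left stack, right stack. -/
abbrev GCfg := ℕ × List ℕ × List ℕ

/-- One step of the stack machine of a table `tr`; `none` means that the machine has halted. A
stuck configuration stays where it is. -/
def gstep (tr : ℕ → ℕ → Outcome) (g : GCfg) : Option GCfg :=
  if g.1 % 4 < 2 then
    match tr g.1 (g.2.2.headD 0) with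
    | Outcome.stuck => some g
    | Outcome.halt => none
    | Outcome.push m' l => some (m', l ++ g.2.1, g.2.2.tail)
  else
    match tr g.1 (g.2.1.headD 0) with
    | Outcome.stuck => some g
    | Outcome.halt => none
    | Outcome.push m' l => some (m', g.2.1.tail, l ++ g.2.2)

/-- `n` steps of the stack machine of `tr`. -/
def giter (tr : ℕ → ℕ → Outcome) : ℕ → GCfg → Option GCfg
  | 0, g => some g
  | n + 1, g => (gstep tr g).bind (giter tr n)

/-- The digit recording that rule `(q, a)` was used in a step of flavour `e` (`e` is `0` or `1`).
Digits below `A` are tape symbols, the others are records. -/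
def garbage (A q a e : ℕ) : ℕ := A + (e + 2 * (a + A * q))

/-- The outcome of applying the transition of `M` in state `q` on tape symbol `a`. The word pushed
is the new symbol on top of a record of the transition. -/
def ruleOut (M : Machine) (q a e : ℕ) : Outcome :=
  if q ∈ M.halting then Outcome.halt
  else
    let t := M.transition q a
    Outcome.push (4 * t.1 + (if t.2.2 then 0 else 3)) [t.2.1, garbage M.numSymbols q a e]

/-- The table compiled from `M`. Mode `4 q + 0`: look for the cell of the head to the right (in
state `q`), moving records from `Y` to `X`. Mode `4 q + 1`: the head has just arrived on a cell from the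
right. Mode `4 q + 2`: look for the next cell to the left, moving records from `X` to `Y`. Mode
`4 q + 3`: a left move has just been decided, bring the written symbol back to `Y`. -/
def tableOf (M : Machine) (m d : ℕ) : Outcome :=
  let A := M.numSymbols
  let q := m / 4
  if m % 4 = 0 then (if A ≤ d then Outcome.push m [d] else ruleOut M q d 0)
  else if m % 4 = 1 then (if A ≤ d then Outcome.stuck else ruleOut M q d 1)
  else if m % 4 = 2 then (if A ≤ d then Outcome.push m [d] else Outcome.push (4 * q + 1) [d])
  else (if A ≤ d then Outcome.stuck else Outcome.push (4 * q + 2) [d])

/-- The number of modes of the table of `M`. -/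
def modeCount (M : Machine) : ℕ := 4 * M.numStates

/-- The number of digits of the table of `M`. -/
def digitCount (M : Machine) : ℕ := M.numSymbols + 2 * (M.numSymbols * M.numStates)

/-- Two words neither of which is an initial segment of the other: they first differ at place
`0` or `1`. -/
def Diverge (l l' : List ℕ) : Prop :=
  (∃ a r a' r', l = a :: r ∧ l' = a' :: r' ∧ a ≠ a') ∨
  (∃ a b r b' r', l = a :: b :: r ∧ l' = a :: b' :: r' ∧ b ≠ b')

/-- The properties of a table needed to realize it by shear flows. -/
structure TableSpec (Mc D : ℕ) (tr : ℕ → ℕ → Outcome) : Prop where
  /-- results of a rule are modes and digits; the pushed word has length one or two -/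
  bound : ∀ m d m' l, m < Mc → d < D → tr m d = Outcome.push m' l →
    m' < Mc ∧ (∀ x ∈ l, x < D) ∧ (l.length = 1 ∨ l.length = 2)
  /-- the side on which the word was pushed can be read from the new mode -/
  side : ∀ m d m' l, tr m d = Outcome.push m' l → (m % 4 < 2 ↔ (m' % 4 = 0 ∨ m' % 4 = 3))
  /-- the new mode and the pushed word determine the rule -/
  inj : ∀ m d m₂ d₂ m' l l₂, m < Mc → d < D → m₂ < Mc → d₂ < D →
    tr m d = Outcome.push m' l → tr m₂ d₂ = Outcome.push m' l₂ → (m, d) ≠ (m₂, d₂) → Diverge l l₂

end Vale.Agent.Lib.P113
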